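import Mathlib
import Crest.Agent.R299.Defs

/-!
Row 299, T0: parametrisation of a class of `rel p q U` by subsets of the free columns.
-/

set_option autoImplicit false
open Finset

namespace Crest.Agent.R299

section rows

variable {κ S : Type*} [DecidableEq κ] [DecidableEq S]

/-- free columns of `x` -/
def freeC (p q : κ → S) (U : Finset κ) (x : S → Bool) : Finset κ := U.filter fun z => x (p z) ≠ x (q z)

/-- free columns where row `p` has the entry -/
def posC (p q : κ → S) (U : Finset κ) (x : S → Bool) : Finset κ :=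
  U.filter fun z => x (p z) = true ∧ x (q z) = false

/-- the state obtained from `x` by giving row `p` exactly the columns of `M` that lie in `A`
(and row `q` the other columns of `M`) -/
def setC (p q : κ → S) (M A : Finset κ) (x : S → Bool) : S → Bool := fun e =>
  if (∃ z ∈ M, e = p z) then decide (∃ z ∈ M, z ∈ A ∧ e = p z)
  else if (∃ z ∈ M, e = q z) then decide (∃ z ∈ M, z ∉ A ∧ e = q z)
  else x e

section basic

variable {p q : κ → S} {U : Finset κ}

theorem mem_freeC {x : S → Bool} {z : κ} : z ∈ freeC p q U x ↔ z ∈ U ∧ x (p z) ≠ x (q z) := by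
  simp [freeC]

theorem mem_posC {x : S → Bool} {z : κ} :
    z ∈ posC p q U x ↔ z ∈ U ∧ x (p z) = true ∧ x (q z) = false := by
  simp [posC]

theorem posC_subset_freeC (x : S → Bool) : posC p q U x ⊆ freeC p q U x := by
  intro z hz
  rw [mem_posC] at hz
  rw [mem_freeC]
  refine ⟨hz.1, ?_⟩
  rw [hz.2.1, hz.2.2]; decide

theorem freeC_subset (x : S → Bool) : freeC p q U x ⊆ U := filter_subset _ _

/-- value of `setC` at `p z`, `z ∈ M`. -/
theorem setC_p {M A : Finset κ} (hp : Set.InjOn p M) (x : S → Bool) {z : κ} (hz : z ∈ M) :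
    setC p q M A x (p z) = decide (z ∈ A) := by
  unfold setC
  rw [if_pos ⟨z, hz, rfl⟩]
  congr 1
  apply propext
  constructor
  · rintro ⟨w, hw, hwA, e⟩
    rwa [hp hz hw e]
  · intro hA
    exact ⟨z, hz, hA, rfl⟩

/-- value of `setC` at `q z`, `z ∈ M`. -/
theorem setC_q {M A : Finset κ} (hq : Set.InjOn q M) (hpq : ∀ z ∈ M, ∀ w ∈ M, p z ≠ q w)
    (x : S → Bool) {z : κ} (hz : z ∈ M) :
    setC p q M A x (q z) = decide (z ∉ A) := by
  unfold setC
  rw [if_neg, if_pos ⟨z, hz, rfl⟩]
  · congr 1
    apply propext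
    constructor
    · rintro ⟨w, hw, hwA, e⟩
      rwa [hq hz hw e]
    · intro hA
      exact ⟨z, hz, hA, rfl⟩
  · rintro ⟨w, hw, e⟩
    exact hpq w hw z hz e.symm

/-- value of `setC` off the slots of `M`. -/
theorem setC_off {M A : Finset κ} (x : S → Bool) {e : S} (h1 : ∀ z ∈ M, e ≠ p z)
    (h2 : ∀ z ∈ M, e ≠ q z) : setC p q M A x e = x e := by
  unfold setC
  rw [if_neg, if_neg]
  · rintro ⟨w, hw, e⟩; exact h2 w hw e
  · rintro ⟨w, hw, e⟩; exact h1 w hw e

theorem toNat_add_eq_one_iff {a b : Bool} : a.toNat + b.toNat = 1 ↔ a ≠ b := by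
  cases a <;> cases b <;> simp

/-- the free columns are determined by the column sums. -/
theorem freeC_congr {x y : S → Bool} (h : rel p q U x y) : freeC p q U x = freeC p q U y := by
  rw [rel_iff] at h
  ext z
  rw [mem_freeC, mem_freeC]
  constructor
  · rintro ⟨hz, hne⟩
    refine ⟨hz, ?_⟩
    rw [← toNat_add_eq_one_iff] at hne ⊢
    rw [← h.2.1 z hz, hne]
  · rintro ⟨hz, hne⟩
    refine ⟨hz, ?_⟩
    rw [← toNat_add_eq_one_iff] at hne ⊢
    rw [h.2.1 z hz, hne]

/-- on a non-free column the entries of related states agree. -/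
theorem eq_of_not_free {x y : S → Bool} (h : rel p q U x y) {z : κ} (hz : z ∈ U)
    (hf : z ∉ freeC p q U x) : x (p z) = y (p z) ∧ x (q z) = y (q z) := by
  have hs := (rel_iff.mp h).2.1 z hz
  have he : x (p z) = x (q z) := by
    by_contra hne
    exact hf (mem_freeC.mpr ⟨hz, hne⟩)
  rw [← he] at hs ⊢
  revert hs
  cases x (p z) <;> cases y (p z) <;> cases y (q z) <;> simp

/-- row sum in terms of the positive columns. -/
theorem rowsum_eq (x : S → Bool) :
    ∑ z ∈ U, (x (p z)).toNat = (posC p q U x).card +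
      ∑ z ∈ U.filter (fun z => z ∉ freeC p q U x), (x (p z)).toNat := by
  rw [← sum_filter_add_sum_filter_not U (fun z => z ∈ freeC p q U x)]
  congr 1
  have e1 : U.filter (fun z => z ∈ freeC p q U x) = freeC p q U x := by
    ext z
    rw [mem_filter]
    exact ⟨fun h => h.2, fun h => ⟨freeC_subset x h, h⟩⟩
  rw [e1, card_eq_sum_ones, ← sum_filter_add_sum_filter_not (freeC p q U x)
    (fun z => z ∈ posC p q U x)]
  have e2 : (freeC p q U x).filter (fun z => z ∈ posC p q U x) = posC p q U x := by
    ext z
    rw [mem_filter]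
    exact ⟨fun h => h.2, fun h => ⟨posC_subset_freeC x h, h⟩⟩
  rw [e2]
  have e3 : ∑ z ∈ (freeC p q U x).filter (fun z => z ∉ posC p q U x), (x (p z)).toNat = 0 := by
    apply sum_eq_zero
    intro z hz
    rw [mem_filter, mem_freeC, mem_posC] at hz
    obtain ⟨⟨hzU, hne⟩, hnp⟩ := hz
    revert hne hnp
    cases x (p z) <;> cases x (q z) <;> simp [hzU]
  rw [e3, add_zero]
  apply sum_congr rfl
  intro z hz
  rw [mem_posC] at hz
  rw [hz.2.1]
  rfl

/-- related states have the same number of positive columns. -/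
theorem card_posC_congr {x y : S → Bool} (h : rel p q U x y) :
    (posC p q U x).card = (posC p q U y).card := by
  have h1 := rowsum_eq (p := p) (q := q) (U := U) x
  have h2 := rowsum_eq (p := p) (q := q) (U := U) y
  have h3 := (rel_iff.mp h).2.2
  have h4 : ∑ z ∈ U.filter (fun z => z ∉ freeC p q U x), (x (p z)).toNat =
      ∑ z ∈ U.filter (fun z => z ∉ freeC p q U y), (y (p z)).toNat := by
    rw [freeC_congr h]
    apply sum_congr rfl
    intro z hz
    rw [mem_filter, ← freeC_congr h] at hz
    rw [(eq_of_not_free h hz.1 hz.2).1]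
  omega

end basic

section inj

variable {p q : κ → S} {U : Finset κ} (hp : Set.InjOn p U) (hq : Set.InjOn q U)
  (hpq : ∀ z ∈ U, ∀ w ∈ U, p z ≠ q w)

include hp hq hpq

theorem setC_p_of {x : S → Bool} {M A : Finset κ} (hM : M ⊆ U) {z : κ} (hz : z ∈ U) :
    setC p q M A x (p z) = if z ∈ M then decide (z ∈ A) else x (p z) := by
  split_ifs with h
  · exact setC_p (hp.mono (by exact_mod_cast hM)) x h
  · apply setC_off
    · intro w hw e
      exact h (hp hz (hM hw) e ▸ hw)
    · intro w hw e
      exact hpq z hz w (hM hw) e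

theorem setC_q_of {x : S → Bool} {M A : Finset κ} (hM : M ⊆ U) {z : κ} (hz : z ∈ U) :
    setC p q M A x (q z) = if z ∈ M then decide (z ∉ A) else x (q z) := by
  split_ifs with h
  · exact setC_q (hq.mono (by exact_mod_cast hM)) (fun z hz w hw => hpq z (hM hz) w (hM hw)) x h
  · apply setC_off
    · intro w hw e
      exact hpq w (hM hw) z hz e.symm
    · intro w hw e
      exact h (hq hz (hM hw) e ▸ hw)

/-- column sums of `setC`. -/
theorem setC_colsum {x : S → Bool} {A : Finset κ} {z : κ} (hz : z ∈ U) :
    (setC p q (freeC p q U x) A x (p z)).toNat + (setC p q (freeC p q U x) A x (q z)).toNat =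
      (x (p z)).toNat + (x (q z)).toNat := by
  rw [setC_p_of hp hq hpq (freeC_subset x) hz, setC_q_of hp hq hpq (freeC_subset x) hz]
  by_cases h : z ∈ freeC p q U x
  · rw [if_pos h, if_pos h]
    have h' := (mem_freeC.mp h).2
    rw [← toNat_add_eq_one_iff] at h'
    rw [h']
    by_cases hA : z ∈ A <;> simp [hA]
  · rw [if_neg h, if_neg h]

theorem freeC_setC {x : S → Bool} {A : Finset κ} :
    freeC p q U (setC p q (freeC p q U x) A x) = freeC p q U x := by
  ext z
  rw [mem_freeC, mem_freeC]
  constructor
  · rintro ⟨hz, h⟩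
    refine ⟨hz, ?_⟩
    rw [← toNat_add_eq_one_iff] at h ⊢
    rwa [setC_colsum hp hq hpq hz] at h
  · rintro ⟨hz, h⟩
    refine ⟨hz, ?_⟩
    rw [← toNat_add_eq_one_iff] at h ⊢
    rwa [setC_colsum hp hq hpq hz]

theorem posC_setC {x : S → Bool} {A : Finset κ} (hA : A ⊆ freeC p q U x) :
    posC p q U (setC p q (freeC p q U x) A x) = A := by
  ext z
  rw [mem_posC]
  constructor
  · rintro ⟨hz, h1, h2⟩
    rw [setC_p_of hp hq hpq (freeC_subset x) hz] at h1
    rw [setC_q_of hp hq hpq (freeC_subset x) hz] at h2
    by_cases h : z ∈ freeC p q U x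
    · rw [if_pos h] at h1
      simpa using h1
    · rw [if_neg h] at h1 h2
      exact absurd (mem_freeC.mpr ⟨hz, by rw [h1, h2]; decide⟩) h
  · intro hzA
    have hzM := hA hzA
    have hz := freeC_subset x hzM
    refine ⟨hz, ?_, ?_⟩
    · rw [setC_p_of hp hq hpq (freeC_subset x) hz, if_pos hzM]
      simpa using hzA
    · rw [setC_q_of hp hq hpq (freeC_subset x) hz, if_pos hzM]
      simpa using hzA

/-- `setC` stays in the class if the cardinality is right. -/
theorem rel_setC {x : S → Bool} {A : Finset κ} (hA : A ⊆ freeC p q U x)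
    (hcard : A.card = (posC p q U x).card) : rel p q U x (setC p q (freeC p q U x) A x) := by
  rw [rel_iff]
  refine ⟨?_, fun z hz => (setC_colsum hp hq hpq hz).symm, ?_⟩
  · intro e he
    rw [setC_off]
    · exact fun z hz => (he z (freeC_subset x hz)).1
    · exact fun z hz => (he z (freeC_subset x hz)).2
  · rw [rowsum_eq (q := q), rowsum_eq (q := q) (setC p q (freeC p q U x) A x),
      posC_setC hp hq hpq hA, hcard, freeC_setC hp hq hpq]
    congr 1
    apply sum_congr rfl
    intro z hz
    rw [mem_filter] at hz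
    rw [setC_p_of hp hq hpq (freeC_subset x) hz.1, if_neg hz.2]

/-- every related state is of the form `setC`. -/
theorem eq_setC_of_rel {x y : S → Bool} (h : rel p q U x y) :
    y = setC p q (freeC p q U x) (posC p q U y) x := by
  funext e
  by_cases he : ∀ z ∈ U, e ≠ p z ∧ e ≠ q z
  · rw [setC_off _ (fun z hz => (he z (freeC_subset x hz)).1)
      (fun z hz => (he z (freeC_subset x hz)).2)]
    exact ((rel_iff.mp h).1 e he).symm
  · push Not at he
    obtain ⟨z, hz, he⟩ := he
    by_cases hf : z ∈ freeC p q U x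
    · have hne : y (p z) ≠ y (q z) := by
        rw [freeC_congr h] at hf
        exact (mem_freeC.mp hf).2
      by_cases hep : e = p z
      · subst hep
        rw [setC_p_of hp hq hpq (freeC_subset x) hz, if_pos hf]
        symm
        by_cases hy : y (p z) = true
        · rw [hy, decide_eq_true_eq, mem_posC]
          refine ⟨hz, hy, ?_⟩
          revert hne; rw [hy]; cases y (q z) <;> simp
        · rw [Bool.not_eq_true] at hy
          rw [hy, decide_eq_false_iff_not, mem_posC, hy]
          simp
      · have heq := he hep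
        subst heq
        rw [setC_q_of hp hq hpq (freeC_subset x) hz, if_pos hf]
        symm
        by_cases hy : y (q z) = true
        · rw [hy, decide_eq_true_eq, mem_posC, hy]
          simp
        · rw [Bool.not_eq_true] at hy
          rw [hy, decide_eq_false_iff_not, not_not, mem_posC]
          refine ⟨hz, ?_, hy⟩
          revert hne; rw [hy]; cases y (p z) <;> simp
    · obtain ⟨h1, h2⟩ := eq_of_not_free h hz hf
      by_cases hep : e = p z
      · subst hep
        rw [setC_p_of hp hq hpq (freeC_subset x) hz, if_neg hf, h1]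
      · have heq := he hep
        subst heq
        rw [setC_q_of hp hq hpq (freeC_subset x) hz, if_neg hf, h2]

/-- the class as an image of `powersetCard`. -/
theorem cls_rel_eq_image [Fintype S] (x : S → Bool) :
    cls (rel p q U) x = (powersetCard (posC p q U x).card (freeC p q U x)).image
      (fun A => setC p q (freeC p q U x) A x) := by
  ext y
  rw [mem_cls, mem_image]
  constructor
  · intro h
    refine ⟨posC p q U y, ?_, (eq_setC_of_rel hp hq hpq h).symm⟩
    rw [mem_powersetCard]
    refine ⟨?_, (card_posC_congr h).symm⟩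
    rw [freeC_congr h]
    exact posC_subset_freeC y
  · rintro ⟨A, hA, rfl⟩
    rw [mem_powersetCard] at hA
    exact rel_setC hp hq hpq hA.1 hA.2

theorem setC_injOn (x : S → Bool) (k : ℕ) :
    Set.InjOn (fun A => setC p q (freeC p q U x) A x) (powersetCard k (freeC p q U x)) := by
  intro A hA B hB hAB
  have hA' := (mem_powersetCard.mp (mem_coe.mp hA)).1
  have hB' := (mem_powersetCard.mp (mem_coe.mp hB)).1
  have h1 := posC_setC hp hq hpq hA'
  have h2 := posC_setC hp hq hpq hB'
  rw [← h1, ← h2]
  exact congrArg _ hAB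

theorem card_cls_rel [Fintype S] (x : S → Bool) :
    (cls (rel p q U) x).card = (freeC p q U x).card.choose (posC p q U x).card := by
  rw [cls_rel_eq_image hp hq hpq, card_image_of_injOn (setC_injOn hp hq hpq x _),
    card_powersetCard]

theorem sum_cls_rel [Fintype S] (f : (S → Bool) → ℝ) (x : S → Bool) :
    ∑ y ∈ cls (rel p q U) x, f y =
      ∑ A ∈ powersetCard (posC p q U x).card (freeC p q U x),
        f (setC p q (freeC p q U x) A x) := by
  rw [cls_rel_eq_image hp hq hpq, sum_image (setC_injOn hp hq hpq x _)]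

end inj

theorem cE_rel_eq [Fintype S] (p q : κ → S) (U : Finset κ) (hp : Set.InjOn p U)
    (hq : Set.InjOn q U) (hpq : ∀ z ∈ U, ∀ w ∈ U, p z ≠ q w) (f : (S → Bool) → ℝ) (x : S → Bool) :
    cE (rel p q U) f x =
      (∑ A ∈ powersetCard (posC p q U x).card (freeC p q U x), f (setC p q (freeC p q U x) A x)) /
        (((freeC p q U x).card.choose (posC p q U x).card : ℕ) : ℝ) := by
  unfold cE
  rw [sum_cls_rel hp hq hpq, card_cls_rel hp hq hpq]

end rows

end Crest.Agent.R299
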