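import Mathlib
import Crest.Agent.R299.Defs

/-!
Row 299, T10: connectivity of the set of graphs with given degrees under pair trades.
-/

set_option autoImplicit false
set_option linter.unusedSectionVars false
set_option linter.unusedVariables false
open Finset

namespace Crest.Agent.R299

namespace Conn

section

variable {V : Type*} [DecidableEq V]

/-- degree inside `U` -/
def dg (U : Finset V) (x : Sym2 V → Bool) (v : V) : ℕ := ∑ w ∈ U.erase v, (x s(v, w)).toNat

theorem sum_ind (U : Finset V) {p q : V} (hpq : p ≠ q) (hp : p ∈ U) (hq : q ∈ U) (a : V) :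
    ∑ t ∈ U.erase a, (if s(a, t) = s(p, q) then (1 : ℤ) else 0)
      = (if a = p then 1 else 0) + (if a = q then 1 else 0) := by
  by_cases hap : a = p
  · subst hap
    rw [if_pos rfl, if_neg hpq]
    have : ∀ t ∈ U.erase a, (if s(a, t) = s(a, q) then (1 : ℤ) else 0) = if t = q then 1 else 0 := by
      intro t ht
      have : s(a, t) = s(a, q) ↔ t = q := by
        rw [Sym2.eq_iff]
        constructor
        · rintro (h | h)
          · exact h.2
          · exact absurd h.1 hpq
        · intro h; exact Or.inl ⟨rfl, h⟩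
      simp only [this]
    rw [sum_congr rfl this, sum_ite_eq' , if_pos (mem_erase.mpr ⟨hpq.symm, hq⟩)]
    simp
  · rw [if_neg hap, zero_add]
    by_cases haq : a = q
    · subst haq
      rw [if_pos rfl]
      have : ∀ t ∈ U.erase a, (if s(a, t) = s(p, a) then (1 : ℤ) else 0) = if t = p then 1 else 0 := by
        intro t ht
        have : s(a, t) = s(p, a) ↔ t = p := by
          rw [Sym2.eq_iff]
          constructor
          · rintro (h | h)
            · exact absurd h.1 hap
            · exact h.2
          · intro h; exact Or.inr ⟨rfl, h⟩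
        simp only [this]
      rw [sum_congr rfl this, sum_ite_eq' , if_pos (mem_erase.mpr ⟨hpq, hp⟩)]
    · rw [if_neg haq]
      apply sum_eq_zero
      intro t ht
      rw [if_neg]
      intro h
      rw [Sym2.eq_iff] at h
      rcases h with h | h
      · exact hap h.1
      · exact haq h.1

/-- existence of the fourth vertex -/
theorem exists_fourth {U : Finset V} {x : Sym2 V → Bool} {v u w : V} (hv : v ∈ U) (hu : u ∈ U)
    (hw : w ∈ U) (hvu : v ≠ u) (hvw : v ≠ w) (huw : u ≠ w) (h1 : x s(v, u) = true)
    (h2 : x s(v, w) = false) (hd : dg U x u ≤ dg U x w) :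
    ∃ z ∈ U, z ≠ v ∧ z ≠ u ∧ z ≠ w ∧ x s(w, z) = true ∧ x s(u, z) = false := by
  by_contra hcon
  push Not at hcon
  have e1 : dg U x u = (x s(u, w)).toNat + ∑ t ∈ (U.erase u).erase w, (x s(u, t)).toNat := by
    unfold dg
    rw [add_sum_erase _ (fun t => (x s(u, t)).toNat) (mem_erase.mpr ⟨huw.symm, hw⟩)]
  have e2 : dg U x w = (x s(w, u)).toNat + ∑ t ∈ (U.erase u).erase w, (x s(w, t)).toNat := by
    unfold dg
    rw [erase_right_comm, add_sum_erase _ (fun t => (x s(w, t)).toNat) (mem_erase.mpr ⟨huw, hu⟩)]
  have e3 : ∑ t ∈ (U.erase u).erase w, (x s(w, t)).toNat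
      < ∑ t ∈ (U.erase u).erase w, (x s(u, t)).toNat := by
    apply sum_lt_sum
    · intro t ht
      simp only [mem_erase] at ht
      by_cases htv : t = v
      · subst htv
        rw [Sym2.eq_swap (a := w), h2, Sym2.eq_swap (a := u), h1]; simp
      · have := hcon t ht.2.2 htv ht.2.1 ht.1
        cases hx : x s(w, t)
        · simp
        · have h3 := this hx
          have h4 : x s(u, t) = true := by simpa using h3
          rw [h4]
    · refine ⟨v, ?_, ?_⟩
      · simp only [mem_erase]; exact ⟨hvw, hvu, hv⟩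
      · rw [Sym2.eq_swap (a := w), h2, Sym2.eq_swap (a := u), h1]; simp
  rw [Sym2.eq_swap (a := w) (b := u)] at e2
  omega

/-- the switched state -/
def swt (v u w z : V) (x : Sym2 V → Bool) : Sym2 V → Bool := fun e =>
  if e = s(v, u) ∨ e = s(w, z) then false else if e = s(v, w) ∨ e = s(u, z) then true else x e

theorem swt_toNat {x : Sym2 V → Bool} {v u w z : V} (hvu : v ≠ u) (hvw : v ≠ w) (huw : u ≠ w)
    (hzv : z ≠ v) (hzu : z ≠ u) (hzw : z ≠ w) (h1 : x s(v, u) = true) (h2 : x s(v, w) = false)
    (h3 : x s(w, z) = true) (h4 : x s(u, z) = false) (e : Sym2 V) :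
    (((swt v u w z x) e).toNat : ℤ) = (x e).toNat + (if e = s(v, w) then 1 else 0)
      + (if e = s(u, z) then 1 else 0) - (if e = s(v, u) then 1 else 0)
      - (if e = s(w, z) then 1 else 0) := by
  have n1 : s(v, u) ≠ s(v, w) := by rw [Ne, Sym2.eq_iff]; rintro (h | h) <;> simp_all
  have n2 : s(v, u) ≠ s(u, z) := by rw [Ne, Sym2.eq_iff]; rintro (h | h) <;> simp_all
  have n3 : s(v, u) ≠ s(w, z) := by rw [Ne, Sym2.eq_iff]; rintro (h | h) <;> simp_all
  have n4 : s(w, z) ≠ s(v, w) := by rw [Ne, Sym2.eq_iff]; rintro (h | h) <;> simp_all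
  have n5 : s(w, z) ≠ s(u, z) := by rw [Ne, Sym2.eq_iff]; rintro (h | h) <;> simp_all
  have n6 : s(v, w) ≠ s(u, z) := by rw [Ne, Sym2.eq_iff]; rintro (h | h) <;> simp_all
  unfold swt
  by_cases e1 : e = s(v, u)
  · subst e1
    simp [n1, n2, n3, h1]
  · by_cases e2 : e = s(w, z)
    · subst e2
      simp [n3.symm, n4, n5, h3]
    · by_cases e3 : e = s(v, w)
      · subst e3
        simp [n1.symm, n4.symm, n6, h2]
      · by_cases e4 : e = s(u, z)
        · subst e4
          simp [n2.symm, n5.symm, n6.symm, h4]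
        · simp [e1, e2, e3, e4]

theorem dg_swt {U : Finset V} {x : Sym2 V → Bool} {v u w z : V} (hv : v ∈ U) (hu : u ∈ U)
    (hw : w ∈ U) (hz : z ∈ U) (hvu : v ≠ u) (hvw : v ≠ w) (huw : u ≠ w)
    (hzv : z ≠ v) (hzu : z ≠ u) (hzw : z ≠ w) (h1 : x s(v, u) = true) (h2 : x s(v, w) = false)
    (h3 : x s(w, z) = true) (h4 : x s(u, z) = false) (a : V) :
    dg U (swt v u w z x) a = dg U x a := by
  have : (dg U (swt v u w z x) a : ℤ) = dg U x a := by
    unfold dg
    push_cast
    rw [sum_congr rfl fun t _ => swt_toNat hvu hvw huw hzv hzu hzw h1 h2 h3 h4 s(a, t)]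
    rw [sum_sub_distrib, sum_sub_distrib, sum_add_distrib, sum_add_distrib,
      sum_ind U hvw hv hw, sum_ind U hzu.symm hu hz, sum_ind U hvu hv hu, sum_ind U hzw.symm hw hz]
    ring
  exact_mod_cast this

end

section

variable {V : Type*} [Fintype V] [DecidableEq V]

theorem grel_swt {x : Sym2 V → Bool} {v u w z : V} (hvu : v ≠ u) (hvw : v ≠ w) (huw : u ≠ w)
    (hzv : z ≠ v) (hzu : z ≠ u) (hzw : z ≠ w) (h1 : x s(v, u) = true) (h2 : x s(v, w) = false)
    (h3 : x s(w, z) = true) (h4 : x s(u, z) = false) :
    grel u w x (swt v u w z x) := by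
  have key := swt_toNat hvu hvw huw hzv hzu hzw h1 h2 h3 h4
  have hcols : ∀ t, t ∈ cols u w ↔ t ≠ w ∧ t ≠ u := by
    intro t; simp [cols]
  refine ⟨?_, ?_, ?_⟩
  · intro e he
    have e1 : e ≠ s(v, u) := by
      rw [Sym2.eq_swap]; exact (he v ((hcols v).mpr ⟨hvw, hvu⟩)).1
    have e2 : e ≠ s(v, w) := by
      rw [Sym2.eq_swap]; exact (he v ((hcols v).mpr ⟨hvw, hvu⟩)).2
    have e3 : e ≠ s(u, z) := (he z ((hcols z).mpr ⟨hzw, hzu⟩)).1
    have e4 : e ≠ s(w, z) := (he z ((hcols z).mpr ⟨hzw, hzu⟩)).2
    simp [swt, e1, e2, e3, e4]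
  · intro t ht
    rw [hcols] at ht
    have : ((x s(u, t)).toNat : ℤ) + (x s(w, t)).toNat
        = ((swt v u w z x) s(u, t)).toNat + ((swt v u w z x) s(w, t)).toNat := by
      rw [key, key]
      have a1 : s(u, t) = s(v, w) ↔ False := by
        rw [Sym2.eq_iff]; constructor
        · rintro (h | h)
          · exact hvu h.1.symm
          · exact huw h.1
        · exact False.elim
      have a2 : s(u, t) = s(u, z) ↔ t = z := by
        rw [Sym2.eq_iff]; constructor
        · rintro (h | h)
          · exact h.2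
          · exact absurd h.1.symm hzu
        · intro h; exact Or.inl ⟨rfl, h⟩
      have a3 : s(u, t) = s(v, u) ↔ t = v := by
        rw [Sym2.eq_iff]; constructor
        · rintro (h | h)
          · exact absurd h.1.symm hvu
          · exact h.2
        · intro h; exact Or.inr ⟨rfl, h⟩
      have a4 : s(u, t) = s(w, z) ↔ False := by
        rw [Sym2.eq_iff]; constructor
        · rintro (h | h)
          · exact huw h.1
          · exact hzu h.1.symm
        · exact False.elim
      have b1 : s(w, t) = s(v, w) ↔ t = v := by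
        rw [Sym2.eq_iff]; constructor
        · rintro (h | h)
          · exact absurd h.1.symm hvw
          · exact h.2
        · intro h; exact Or.inr ⟨rfl, h⟩
      have b2 : s(w, t) = s(u, z) ↔ False := by
        rw [Sym2.eq_iff]; constructor
        · rintro (h | h)
          · exact huw h.1.symm
          · exact hzw h.1.symm
        · exact False.elim
      have b3 : s(w, t) = s(v, u) ↔ False := by
        rw [Sym2.eq_iff]; constructor
        · rintro (h | h)
          · exact hvw h.1.symm
          · exact huw h.1.symm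
        · exact False.elim
      have b4 : s(w, t) = s(w, z) ↔ t = z := by
        rw [Sym2.eq_iff]; constructor
        · rintro (h | h)
          · exact h.2
          · exact absurd h.1.symm hzw
        · intro h; exact Or.inl ⟨rfl, h⟩
      simp only [a1, a2, a3, a4, b1, b2, b3, b4, if_false]
      ring
    exact_mod_cast this
  · have : (∑ t ∈ cols u w, ((x s(u, t)).toNat : ℤ))
        = ∑ t ∈ cols u w, (((swt v u w z x) s(u, t)).toNat : ℤ) := by
      have e : ∀ t ∈ cols u w, (((swt v u w z x) s(u, t)).toNat : ℤ)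
          = (x s(u, t)).toNat + ((if t = z then 1 else 0) - (if t = v then 1 else 0)) := by
        intro t ht
        rw [hcols] at ht
        rw [key]
        have a1 : s(u, t) = s(v, w) ↔ False := by
          rw [Sym2.eq_iff]; constructor
          · rintro (h | h)
            · exact hvu h.1.symm
            · exact huw h.1
          · exact False.elim
        have a2 : s(u, t) = s(u, z) ↔ t = z := by
          rw [Sym2.eq_iff]; constructor
          · rintro (h | h)
            · exact h.2
            · exact absurd h.1.symm hzu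
          · intro h; exact Or.inl ⟨rfl, h⟩
        have a3 : s(u, t) = s(v, u) ↔ t = v := by
          rw [Sym2.eq_iff]; constructor
          · rintro (h | h)
            · exact absurd h.1.symm hvu
            · exact h.2
          · intro h; exact Or.inr ⟨rfl, h⟩
        have a4 : s(u, t) = s(w, z) ↔ False := by
          rw [Sym2.eq_iff]; constructor
          · rintro (h | h)
            · exact huw h.1
            · exact hzu h.1.symm
          · exact False.elim
        simp only [a1, a2, a3, a4, if_false]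
        ring
      rw [sum_congr rfl e, sum_add_distrib, sum_sub_distrib, sum_ite_eq', sum_ite_eq',
        if_pos ((hcols z).mpr ⟨hzw, hzu⟩), if_pos ((hcols v).mpr ⟨hvw, hvu⟩)]
      ring
    exact_mod_cast this

/-- states agree outside `U` and on the diagonal -/
def Agr (U : Finset V) (x y : Sym2 V → Bool) : Prop :=
  (∀ a b, (a ∉ U ∨ b ∉ U) → x s(a, b) = y s(a, b)) ∧ ∀ a, x s(a, a) = y s(a, a)

theorem Agr.symm {U : Finset V} {x y : Sym2 V → Bool} (h : Agr U x y) : Agr U y x :=
  ⟨fun a b hab => (h.1 a b hab).symm, fun a => (h.2 a).symm⟩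

theorem Agr.trans {U : Finset V} {x y z : Sym2 V → Bool} (h : Agr U x y) (h' : Agr U y z) :
    Agr U x z :=
  ⟨fun a b hab => (h.1 a b hab).trans (h'.1 a b hab), fun a => (h.2 a).trans (h'.2 a)⟩

theorem agr_swt {U : Finset V} {x : Sym2 V → Bool} {v u w z : V} (hv : v ∈ U) (hu : u ∈ U)
    (hw : w ∈ U) (hz : z ∈ U) (hvu : v ≠ u) (hvw : v ≠ w)
    (hzu : z ≠ u) (hzw : z ≠ w) : Agr U (swt v u w z x) x := by
  constructor
  · intro a b hab
    unfold swt
    have hne : ∀ p q : V, p ∈ U → q ∈ U → s(a, b) ≠ s(p, q) := by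
      intro p q hp hq h
      rw [Sym2.eq_iff] at h
      rcases h with ⟨rfl, rfl⟩ | ⟨rfl, rfl⟩
      · rcases hab with h | h
        · exact h hp
        · exact h hq
      · rcases hab with h | h
        · exact h hq
        · exact h hp
    simp [-Sym2.eq, hne v u hv hu, hne w z hw hz, hne v w hv hw, hne u z hu hz]
  · intro a
    unfold swt
    have hne : ∀ p q : V, p ≠ q → s(a, a) ≠ s(p, q) := by
      intro p q hpq h
      rw [Sym2.eq_iff] at h
      rcases h with ⟨rfl, rfl⟩ | ⟨rfl, rfl⟩ <;> exact hpq rfl
    simp [-Sym2.eq, hne v u hvu, hne w z hzw.symm, hne v w hvw, hne u z hzu.symm]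

/-- One step. -/
theorem step {U : Finset V} {x : Sym2 V → Bool} {v u w : V} (hv : v ∈ U) (hu : u ∈ U)
    (hw : w ∈ U) (hvu : v ≠ u) (hvw : v ≠ w) (huw : u ≠ w) (h1 : x s(v, u) = true)
    (h2 : x s(v, w) = false) (hd : dg U x u ≤ dg U x w) :
    ∃ x', grel u w x x' ∧ Agr U x' x ∧ (∀ a, dg U x' a = dg U x a) ∧ x' s(v, u) = false ∧
      x' s(v, w) = true ∧ ∀ t, t ≠ u → t ≠ w → x' s(v, t) = x s(v, t) := by
  obtain ⟨z, hz, hzv, hzu, hzw, h3, h4⟩ := exists_fourth hv hu hw hvu hvw huw h1 h2 hd
  refine ⟨swt v u w z x, grel_swt hvu hvw huw hzv hzu hzw h1 h2 h3 h4,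
    agr_swt hv hu hw hz hvu hvw hzu hzw,
    dg_swt hv hu hw hz hvu hvw huw hzv hzu hzw h1 h2 h3 h4, ?_, ?_, ?_⟩
  · simp [swt]
  · have n1 : s(v, w) ≠ s(v, u) := by rw [Ne, Sym2.eq_iff]; rintro (h | h) <;> simp_all
    have n2 : s(v, w) ≠ s(w, z) := by rw [Ne, Sym2.eq_iff]; rintro (h | h) <;> simp_all
    simp [-Sym2.eq, swt, n1, n2]
  · intro t htu htw
    have n1 : s(v, t) ≠ s(v, u) := by rw [Ne, Sym2.eq_iff]; rintro (h | h) <;> simp_all
    have n2 : s(v, t) ≠ s(w, z) := by rw [Ne, Sym2.eq_iff]; rintro (h | h) <;> simp_all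
    have n3 : s(v, t) ≠ s(v, w) := by rw [Ne, Sym2.eq_iff]; rintro (h | h) <;> simp_all
    have n4 : s(v, t) ≠ s(u, z) := by rw [Ne, Sym2.eq_iff]; rintro (h | h) <;> simp_all
    simp [-Sym2.eq, swt, n1, n2, n3, n4]

theorem exists_true_false (S : Finset V) (p q : V → Bool)
    (h : ∑ t ∈ S, (p t).toNat = ∑ t ∈ S, (q t).toNat) (hne : ∃ t ∈ S, p t ≠ q t) :
    ∃ u ∈ S, p u = true ∧ q u = false := by
  by_contra hcon
  push Not at hcon
  have hle : ∀ t ∈ S, (p t).toNat ≤ (q t).toNat := by
    intro t ht
    cases hp : p t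
    · simp
    · have h1 := hcon t ht hp
      have h2 : q t = true := by simpa using h1
      rw [h2]
  obtain ⟨t, ht, htn⟩ := hne
  have hlt : (p t).toNat < (q t).toNat := by
    have h1 := hle t ht
    cases hp : p t <;> cases hq : q t <;> simp_all
  have := sum_lt_sum hle ⟨t, ht, hlt⟩
  omega

theorem inner (g : (Sym2 V → Bool) → ℝ)
    (hg : ∀ a b, a ≠ b → ∀ x y, grel a b x y → g x = g y) (U' : Finset V) (v : V) (hv : v ∉ U')
    (ih : ∀ x y, Agr U' x y → (∀ a ∈ U', dg U' x a = dg U' y a) → g x = g y) :
    ∀ n : ℕ, ∀ x y, Agr (insert v U') x y →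
      (∀ a ∈ insert v U', dg (insert v U') x a = dg (insert v U') y a) →
      (U'.filter fun w => x s(v, w) ≠ y s(v, w)).card = n → g x = g y := by
  intro n
  induction n using Nat.strong_induction_on with
  | _ n ihn =>
  intro x y hagr hdeg hn
  by_cases hall : ∀ w ∈ U', x s(v, w) = y s(v, w)
  · -- agreement on `U'`
    have hagr' : Agr U' x y := by
      refine ⟨?_, hagr.2⟩
      have aux : ∀ a b, a ∉ U' → x s(a, b) = y s(a, b) := by
        intro a b ha
        by_cases hav : a = v
        · subst hav
          by_cases hb : b ∈ U'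
          · exact hall b hb
          · by_cases hba : b = a
            · subst hba; exact hagr.2 b
            · apply hagr.1
              right
              rw [mem_insert]; push Not; exact ⟨hba, hb⟩
        · apply hagr.1
          left
          rw [mem_insert]; push Not; exact ⟨hav, ha⟩
      rintro a b (h | h)
      · exact aux a b h
      · rw [Sym2.eq_swap]; exact aux b a h
    apply ih x y hagr'
    intro a ha
    have hav : a ≠ v := fun h => hv (h ▸ ha)
    have e : ∀ x : Sym2 V → Bool, dg (insert v U') x a = (x s(a, v)).toNat + dg U' x a := by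
      intro x
      unfold dg
      rw [← add_sum_erase _ (fun t => (x s(a, t)).toNat)
        (show v ∈ (insert v U').erase a from mem_erase.mpr ⟨hav.symm, mem_insert_self _ _⟩)]
      rw [erase_right_comm, erase_insert hv]
    have h1 := hdeg a (mem_insert_of_mem ha)
    rw [e, e] at h1
    have h2 : x s(a, v) = y s(a, v) := by
      rw [Sym2.eq_swap]; exact hall a ha
    rw [h2] at h1
    omega
  · push Not at hall
    have hsum : ∑ t ∈ U', (x s(v, t)).toNat = ∑ t ∈ U', (y s(v, t)).toNat := by
      have := hdeg v (mem_insert_self _ _)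
      unfold dg at this
      rwa [erase_insert hv] at this
    obtain ⟨u, hu, hxu, hyu⟩ := exists_true_false U' (fun t => x s(v, t)) (fun t => y s(v, t))
      hsum hall
    obtain ⟨w, hw, hyw, hxw⟩ := exists_true_false U' (fun t => y s(v, t)) (fun t => x s(v, t))
      hsum.symm (by obtain ⟨t, ht, h⟩ := hall; exact ⟨t, ht, h.symm⟩)
    have hvu : v ≠ u := fun h => hv (h ▸ hu)
    have hvw : v ≠ w := fun h => hv (h ▸ hw)
    have huw : u ≠ w := by rintro rfl; rw [hxu] at hxw; exact absurd hxw (by simp)
    have hvU := mem_insert_self v U'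
    have huU := mem_insert_of_mem (b := v) hu
    have hwU := mem_insert_of_mem (b := v) hw
    rcases le_total (dg (insert v U') x u) (dg (insert v U') x w) with hd | hd
    · obtain ⟨x', hr, ha, hdg, e1, e2, e3⟩ := step hvU huU hwU hvu hvw huw hxu hxw hd
      rw [hg u w huw x x' hr]
      refine ihn _ ?_ x' y (ha.trans hagr) ?_ rfl
      · rw [← hn]
        apply card_lt_card
        refine ⟨?_, ?_⟩
        · intro t ht
          simp only [mem_filter] at ht ⊢
          refine ⟨ht.1, ?_⟩
          by_cases htu : t = u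
          · subst htu; rw [hxu, hyu]; simp
          · by_cases htw : t = w
            · subst htw; rw [hxw, hyw]; simp
            · rw [← e3 t htu htw]; exact ht.2
        · intro hsub
          have := hsub (mem_filter.mpr ⟨hu, by rw [hxu, hyu]; simp⟩)
          simp only [mem_filter] at this
          exact this.2 (by rw [e1, hyu])
      · intro a ha'
        rw [hdg]; exact hdeg a ha'
    · have hd' : dg (insert v U') y w ≤ dg (insert v U') y u := by
        rw [← hdeg w hwU, ← hdeg u huU]; exact hd
      obtain ⟨y', hr, ha, hdg, e1, e2, e3⟩ := step hvU hwU huU hvw hvu huw.symm hyw hyu hd'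
      rw [hg w u huw.symm y y' hr]
      refine ihn _ ?_ x y' (hagr.trans ha.symm) ?_ rfl
      · rw [← hn]
        apply card_lt_card
        refine ⟨?_, ?_⟩
        · intro t ht
          simp only [mem_filter] at ht ⊢
          refine ⟨ht.1, ?_⟩
          by_cases htu : t = u
          · subst htu; rw [hxu, hyu]; simp
          · by_cases htw : t = w
            · subst htw; rw [hxw, hyw]; simp
            · rw [← e3 t htw htu]; exact ht.2
        · intro hsub
          have := hsub (mem_filter.mpr ⟨hu, by rw [hxu, hyu]; simp⟩)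
          simp only [mem_filter] at this
          exact this.2 (by rw [e2, hxu])
      · intro a ha'
        rw [hdg]; exact hdeg a ha'

theorem outer (g : (Sym2 V → Bool) → ℝ)
    (hg : ∀ a b, a ≠ b → ∀ x y, grel a b x y → g x = g y) (U : Finset V) :
    ∀ x y, Agr U x y → (∀ a ∈ U, dg U x a = dg U y a) → g x = g y := by
  induction U using Finset.induction_on with
  | empty =>
    intro x y h _
    have : x = y := by
      funext e
      induction e using Sym2.ind with
      | _ a b => exact h.1 a b (Or.inl (notMem_empty a))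
    rw [this]
  | insert v U' hv ih =>
    intro x y h1 h2
    exact inner g hg U' v hv ih _ x y h1 h2 rfl

end

end Conn

section graph

variable {V : Type*} [Fintype V] [DecidableEq V]

/-- T10: connectivity. -/
theorem conn (g : (Sym2 V → Bool) → ℝ)
    (hg : ∀ a b, a ≠ b → ∀ x y, grel a b x y → g x = g y) (x y : Sym2 V → Bool)
    (hdiag : ∀ v, x s(v, v) = y s(v, v))
    (hdeg : ∀ v, ∑ w ∈ univ.erase v, (x s(v, w)).toNat = ∑ w ∈ univ.erase v, (y s(v, w)).toNat) :
    g x = g y := by
  apply Conn.outer g hg univ x y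
  · refine ⟨?_, hdiag⟩
    rintro a b (h | h) <;> exact absurd (mem_univ _) h
  · intro a _
    exact hdeg a

end graph

end Crest.Agent.R299
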