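import Mathlib
import Crest.Prelude.Def_SwitchChain

/-!
Row 299 (S0453): elementary facts on the lazy switch chain kernel and its Dirichlet form.
-/

set_option autoImplicit false
open Finset

namespace Crest.Agent.R299

open Crest.SwitchChain

variable {n : ℕ}

/-- The edge joining `a ≠ b`. -/
def mkE (a b : Fin n) (h : a ≠ b) : Edge n := ⟨s(a, b), by simpa [Sym2.mk_isDiag_iff] using h⟩

/-! ### degrees under a proposal -/

theorem pmSet_filter_card {S : Finset (Fin n)} {F : Finset (Edge n)} (hF : F ∈ pmSet S) (v : Fin n) :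
    (F.filter fun e => v ∈ e.1).card = if v ∈ S then 1 else 0 := by
  unfold pmSet at hF
  rw [mem_filter] at hF
  obtain ⟨_, h1, h2⟩ := hF
  split_ifs with hv
  · exact h2 v hv
  · rw [card_eq_zero, filter_eq_empty_iff]
    intro e he hve
    exact hv (h1 e he v hve)

theorem deg_switch {S : Finset (Fin n)} {E F F' : Finset (Edge n)} (hF : F ∈ pmSet S)
    (hF' : F' ∈ pmSet S) (h1 : F ⊆ E) (h2 : Disjoint F' E) (v : Fin n) :
    deg (E \ F ∪ F') v = deg E v := by
  unfold deg
  rw [filter_union, card_union_of_disjoint]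
  · have hsub : F.filter (fun e => v ∈ e.1) ⊆ E.filter (fun e => v ∈ e.1) :=
      filter_subset_filter _ h1
    have : (E \ F).filter (fun e => v ∈ e.1)
        = (E.filter fun e => v ∈ e.1) \ (F.filter fun e => v ∈ e.1) := by
      ext e
      simp only [mem_filter, mem_sdiff]
      tauto
    rw [this, card_sdiff_of_subset hsub, pmSet_filter_card hF, pmSet_filter_card hF']
    have hle := card_le_card hsub
    rw [pmSet_filter_card hF] at hle
    omega
  · apply Disjoint.mono (filter_subset _ _) (filter_subset _ _)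
    exact (h2.mono_right sdiff_subset).symm

theorem mem_realizations {d : Fin n → ℕ} {E : Finset (Edge n)} :
    E ∈ realizations d ↔ ∀ v, deg E v = d v := by
  simp [realizations]

theorem switchResult_mem {d : Fin n → ℕ} {S : Finset (Fin n)} {E F F' : Finset (Edge n)}
    (hF : F ∈ pmSet S) (hF' : F' ∈ pmSet S) (hE : E ∈ realizations d) :
    switchResult E F F' ∈ realizations d := by
  unfold switchResult
  split_ifs with h
  · rw [mem_realizations] at hE ⊢
    intro v
    rw [deg_switch hF hF' h.1 h.2, hE]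
  · exact hE

/-! ### perfect matchings of a four-set -/

theorem mem_pmSet_of {a b c d : Fin n} (hab : a ≠ b) (hac : a ≠ c) (had : a ≠ d)
    (hbc : b ≠ c) (hbd : b ≠ d) (hcd : c ≠ d) :
    ({mkE a b hab, mkE c d hcd} : Finset (Edge n)) ∈ pmSet ({a, b, c, d} : Finset (Fin n)) := by
  have hne : mkE a b hab ≠ mkE c d hcd := by
    intro h
    have := congrArg Subtype.val h
    simp only [mkE, Sym2.eq_iff] at this
    rcases this with ⟨h1, _⟩ | ⟨h1, _⟩
    · exact hac h1
    · exact had h1
  unfold pmSet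
  rw [mem_filter, mem_powersetCard]
  refine ⟨⟨subset_univ _, card_pair hne⟩, ?_, ?_⟩
  · intro e he v hv
    simp only [mem_insert, mem_singleton] at he ⊢
    rcases he with rfl | rfl <;> simp only [mkE, Sym2.mem_iff] at hv <;> tauto
  · intro v hv
    simp only [mem_insert, mem_singleton] at hv
    rw [card_eq_one]
    rcases hv with rfl | rfl | rfl | rfl
    · refine ⟨mkE v b hab, ?_⟩
      ext e
      simp only [mem_filter, mem_insert, mem_singleton]
      constructor
      · rintro ⟨rfl | rfl, h⟩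
        · rfl
        · simp only [mkE, Sym2.mem_iff] at h; tauto
      · rintro rfl; simp [mkE]
    · refine ⟨mkE a v hab, ?_⟩
      ext e
      simp only [mem_filter, mem_insert, mem_singleton]
      constructor
      · rintro ⟨rfl | rfl, h⟩
        · rfl
        · simp only [mkE, Sym2.mem_iff] at h; tauto
      · rintro rfl; simp [mkE]
    · refine ⟨mkE v d hcd, ?_⟩
      ext e
      simp only [mem_filter, mem_insert, mem_singleton]
      constructor
      · rintro ⟨rfl | rfl, h⟩
        · simp only [mkE, Sym2.mem_iff] at h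
          rcases h with h | h
          · exact absurd h.symm hac
          · exact absurd h.symm hbc
        · rfl
      · rintro rfl; simp [mkE]
    · refine ⟨mkE c v hcd, ?_⟩
      ext e
      simp only [mem_filter, mem_insert, mem_singleton]
      constructor
      · rintro ⟨rfl | rfl, h⟩
        · simp only [mkE, Sym2.mem_iff] at h
          rcases h with h | h
          · exact absurd h.symm had
          · exact absurd h.symm hbd
        · rfl
      · rintro rfl; simp [mkE]

theorem mkE_comm {a b : Fin n} (h : a ≠ b) : mkE a b h = mkE b a h.symm := by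
  simp only [mkE, Subtype.mk.injEq]; exact Sym2.eq_swap

theorem mkE_inj {a b c d : Fin n} {h : a ≠ b} {h' : c ≠ d} :
    mkE a b h = mkE c d h' ↔ (a = c ∧ b = d) ∨ (a = d ∧ b = c) := by
  simp only [mkE, Subtype.mk.injEq, Sym2.eq_iff]

theorem exists_mkE (e : Edge n) {a : Fin n} (ha : a ∈ e.1) : ∃ x, ∃ h : a ≠ x, e = mkE a x h := by
  obtain ⟨x, hx⟩ := Sym2.mem_iff_exists.mp ha
  refine ⟨x, ?_, ?_⟩
  · intro h
    apply e.2
    rw [hx, h]
    simp
  · apply Subtype.ext
    simpa [mkE] using hx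

theorem mem_mkE {a b v : Fin n} {h : a ≠ b} : v ∈ (mkE a b h).1 ↔ v = a ∨ v = b := by
  simp [mkE]

/-- A perfect matching on `{a,b,c,d}` containing the edge `ab` is `{ab, cd}`. -/
theorem pmSet_eq_of_mem {a b c d : Fin n} (hab : a ≠ b) (hac : a ≠ c) (had : a ≠ d)
    (hbc : b ≠ c) (hbd : b ≠ d) (hcd : c ≠ d) {F : Finset (Edge n)}
    (hF : F ∈ pmSet ({a, b, c, d} : Finset (Fin n))) (hm : mkE a b hab ∈ F) :
    F = {mkE a b hab, mkE c d hcd} := by
  have hF0 := hF
  unfold pmSet at hF
  rw [mem_filter, mem_powersetCard] at hF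
  obtain ⟨⟨_, hc⟩, h1, h2⟩ := hF
  have hc1 := h2 c (by simp)
  rw [card_eq_one] at hc1
  obtain ⟨e, he⟩ := hc1
  have heF : e ∈ F.filter (fun e => c ∈ e.1) := by rw [he]; simp
  rw [mem_filter] at heF
  obtain ⟨x, hx, rfl⟩ := exists_mkE e heF.2
  have hxS := h1 _ heF.1 x (by rw [mem_mkE]; tauto)
  simp only [mem_insert, mem_singleton] at hxS
  have hone : ∀ v ∈ ({a, b, c, d} : Finset (Fin n)), ∀ e₁ ∈ F, ∀ e₂ ∈ F, v ∈ e₁.1 → v ∈ e₂.1 →
      e₁ = e₂ := by
    intro v hv e₁ h₁ e₂ h₂ hv1 hv2
    have := h2 v hv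
    rw [card_eq_one] at this
    obtain ⟨e', he'⟩ := this
    have a1 : e₁ ∈ F.filter (fun e => v ∈ e.1) := mem_filter.mpr ⟨h₁, hv1⟩
    have a2 : e₂ ∈ F.filter (fun e => v ∈ e.1) := mem_filter.mpr ⟨h₂, hv2⟩
    rw [he', mem_singleton] at a1 a2
    rw [a1, a2]
  have hxd : x = d := by
    rcases hxS with rfl | rfl | rfl | rfl
    · exfalso
      have := hone x (by simp) _ hm _ heF.1 (by simp [mem_mkE]) (by simp [mem_mkE])
      rw [mkE_inj] at this
      tauto
    · exfalso
      have := hone x (by simp) _ hm _ heF.1 (by simp [mem_mkE]) (by simp [mem_mkE])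
      rw [mkE_inj] at this
      tauto
    · exact absurd rfl hx
    · rfl
  subst hxd
  symm
  apply eq_of_subset_of_card_le
  · intro e he
    simp only [mem_insert, mem_singleton] at he
    rcases he with rfl | rfl
    · exact hm
    · exact heF.1
  · rw [hc, card_pair]
    intro h
    rw [mkE_inj] at h
    tauto

theorem pmSet_eq {a b c d : Fin n} (hab : a ≠ b) (hac : a ≠ c) (had : a ≠ d)
    (hbc : b ≠ c) (hbd : b ≠ d) (hcd : c ≠ d) :
    pmSet ({a, b, c, d} : Finset (Fin n)) =
      {{mkE a b hab, mkE c d hcd}, {mkE a c hac, mkE b d hbd}, {mkE a d had, mkE b c hbc}} := by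
  have e1 : ({a, c, b, d} : Finset (Fin n)) = {a, b, c, d} := by ext; simp; tauto
  have e2 : ({a, d, b, c} : Finset (Fin n)) = {a, b, c, d} := by ext; simp; tauto
  ext F
  simp only [mem_insert, mem_singleton]
  constructor
  · intro hF
    have hF' := hF
    unfold pmSet at hF'
    rw [mem_filter, mem_powersetCard] at hF'
    obtain ⟨⟨_, hc⟩, h1, h2⟩ := hF'
    have hc1 := h2 a (by simp)
    rw [card_eq_one] at hc1
    obtain ⟨e, he⟩ := hc1
    have heF : e ∈ F.filter (fun e => a ∈ e.1) := by rw [he]; simp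
    rw [mem_filter] at heF
    obtain ⟨x, hx, rfl⟩ := exists_mkE e heF.2
    have hxS := h1 _ heF.1 x (by rw [mem_mkE]; tauto)
    simp only [mem_insert, mem_singleton] at hxS
    rcases hxS with rfl | rfl | rfl | rfl
    · exact absurd rfl hx
    · left
      exact pmSet_eq_of_mem hab hac had hbc hbd hcd hF heF.1
    · right; left
      rw [← e1] at hF
      exact pmSet_eq_of_mem hac hab had hbc.symm hcd hbd hF heF.1
    · right; right
      rw [← e2] at hF
      exact pmSet_eq_of_mem had hab hac hbd.symm hcd.symm hbc hF heF.1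
  · rintro (rfl | rfl | rfl)
    · exact mem_pmSet_of hab hac had hbc hbd hcd
    · rw [← e1]; exact mem_pmSet_of hac hab had hbc.symm hcd hbd
    · rw [← e2]; exact mem_pmSet_of had hab hac hbd.symm hcd.symm hbc

theorem exists_four {S : Finset (Fin n)} (hS : S.card = 4) :
    ∃ a b c d : Fin n, a ≠ b ∧ a ≠ c ∧ a ≠ d ∧ b ≠ c ∧ b ≠ d ∧ c ≠ d ∧ S = {a, b, c, d} := by
  obtain ⟨a, T, haT, rfl, hT⟩ := card_eq_succ.mp hS
  obtain ⟨b, c, d, hbc, hbd, hcd, rfl⟩ := card_eq_three.mp hT
  simp only [mem_insert, mem_singleton, not_or] at haT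
  exact ⟨a, b, c, d, haT.1, haT.2.1, haT.2.2, hbc, hbd, hcd, rfl⟩

theorem pair_ne {a b c d x y z w : Fin n} {h1 : a ≠ b} {h2 : c ≠ d} {h3 : x ≠ y} {h4 : z ≠ w}
    (h5 : mkE a b h1 ≠ mkE x y h3) (h6 : mkE a b h1 ≠ mkE z w h4) :
    ({mkE a b h1, mkE c d h2} : Finset (Edge n)) ≠ {mkE x y h3, mkE z w h4} := by
  intro h
  have : mkE a b h1 ∈ ({mkE x y h3, mkE z w h4} : Finset (Edge n)) := by rw [← h]; simp
  simp only [mem_insert, mem_singleton] at this
  tauto

theorem card_pmSet {S : Finset (Fin n)} (hS : S.card = 4) : (pmSet S).card = 3 := by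
  obtain ⟨a, b, c, d, hab, hac, had, hbc, hbd, hcd, rfl⟩ := exists_four hS
  rw [pmSet_eq hab hac had hbc hbd hcd, card_eq_three]
  refine ⟨_, _, _, ?_, ?_, ?_, rfl⟩
  · apply pair_ne <;> (rw [Ne, mkE_inj]; tauto)
  · apply pair_ne <;> (rw [Ne, mkE_inj]; tauto)
  · apply pair_ne <;> (rw [Ne, mkE_inj]; tauto)

/-! ### the kernel -/

theorem sum_proposalCount (E : Finset (Edge n)) :
    ∑ E' : Finset (Edge n), proposalCount E E' = 6 * n.choose 4 := by
  unfold proposalCount
  rw [sum_comm]
  have : ∀ S ∈ (univ : Finset (Fin n)).powersetCard 4,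
      ∑ E' : Finset (Edge n), ∑ F ∈ pmSet S, ∑ F' ∈ (pmSet S).erase F,
        (if switchResult E F F' = E' then 1 else 0) = 6 := by
    intro S hS
    rw [mem_powersetCard] at hS
    rw [sum_comm]
    have h2 : ∀ F ∈ pmSet S, ∑ E' : Finset (Edge n), ∑ F' ∈ (pmSet S).erase F,
        (if switchResult E F F' = E' then 1 else 0) = 2 := by
      intro F hF
      rw [sum_comm]
      simp only [sum_ite_eq, mem_univ, if_true, sum_const, smul_eq_mul, mul_one]
      rw [card_erase_of_mem hF, card_pmSet hS.2]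
    rw [sum_congr rfl h2, sum_const, card_pmSet hS.2]
    rfl
  rw [sum_congr rfl this, sum_const, card_powersetCard]
  simp [mul_comm]

theorem switchResult_eq_iff {E E' F F' : Finset (Edge n)} (hne : E ≠ E') :
    switchResult E F F' = E' ↔ F ⊆ E ∧ Disjoint F' E ∧ E \ F ∪ F' = E' := by
  unfold switchResult
  split_ifs with h
  · tauto
  · constructor
    · intro h'; exact absurd h' hne
    · rintro ⟨h1, h2, _⟩; exact absurd ⟨h1, h2⟩ h

theorem switch_symm_aux {E E' F F' : Finset (Edge n)}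
    (h : F ⊆ E ∧ Disjoint F' E ∧ E \ F ∪ F' = E') :
    F' ⊆ E' ∧ Disjoint F E' ∧ E' \ F' ∪ F = E := by
  obtain ⟨h1, h2, rfl⟩ := h
  refine ⟨subset_union_right, ?_, ?_⟩
  · rw [disjoint_union_right]
    refine ⟨disjoint_sdiff, ?_⟩
    exact (h2.mono_right h1).symm
  · ext e
    simp only [mem_union, mem_sdiff]
    have := @h1 e
    have h3 : e ∈ F' → e ∉ E := fun h h' => (disjoint_left.mp h2) h h'
    tauto

theorem switchResult_symm {E E' F F' : Finset (Edge n)} (hne : E ≠ E') :
    switchResult E F F' = E' ↔ switchResult E' F' F = E := by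
  rw [switchResult_eq_iff hne, switchResult_eq_iff hne.symm]
  exact ⟨switch_symm_aux, switch_symm_aux⟩

theorem proposalCount_symm {E E' : Finset (Edge n)} (hne : E ≠ E') :
    proposalCount E E' = proposalCount E' E := by
  unfold proposalCount
  apply sum_congr rfl
  intro S _
  have key : ∀ (g : Finset (Edge n) → Finset (Edge n) → ℕ),
      ∑ F ∈ pmSet S, ∑ F' ∈ (pmSet S).erase F, g F F'
        = ∑ F ∈ pmSet S, ∑ F' ∈ (pmSet S).erase F, g F' F := by
    intro g
    rw [Finset.sum_sigma', Finset.sum_sigma']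
    refine Finset.sum_bij' (fun x _ => ⟨x.2, x.1⟩) (fun x _ => ⟨x.2, x.1⟩) ?_ ?_ ?_ ?_ ?_
    · rintro ⟨F, F'⟩ h
      simp only [mem_sigma, mem_erase, ne_eq] at h ⊢
      exact ⟨h.2.2, fun h' => h.2.1 h'.symm, h.1⟩
    · rintro ⟨F, F'⟩ h
      simp only [mem_sigma, mem_erase, ne_eq] at h ⊢
      exact ⟨h.2.2, fun h' => h.2.1 h'.symm, h.1⟩
    · rintro ⟨F, F'⟩ h; rfl
    · rintro ⟨F, F'⟩ h; rfl
    · rintro ⟨F, F'⟩ h; rfl
  rw [key]
  apply sum_congr rfl
  intro F _
  apply sum_congr rfl
  intro F' _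
  simp only [switchResult_symm hne]

theorem kernel_symm (E E' : Finset (Edge n)) : kernel n E E' = kernel n E' E := by
  by_cases h : E = E'
  · rw [h]
  · unfold kernel
    rw [if_neg h, if_neg (Ne.symm h), proposalCount_symm h]

theorem kernel_nonneg (E E' : Finset (Edge n)) : 0 ≤ kernel n E E' := by
  unfold kernel
  split_ifs <;> positivity

theorem kernel_sum (hn : 4 ≤ n) (E : Finset (Edge n)) :
    ∑ E' : Finset (Edge n), kernel n E E' = 1 := by
  unfold kernel
  rw [sum_add_distrib]
  have hpos : (0 : ℝ) < n.choose 4 := by exact_mod_cast Nat.choose_pos hn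
  have h := sum_proposalCount E
  have h' : ∑ E' : Finset (Edge n), (proposalCount E E' : ℝ) = 6 * (n.choose 4 : ℝ) := by
    exact_mod_cast h
  rw [← sum_div, h']
  simp only [sum_ite_eq, mem_univ, if_true]
  field_simp
  norm_num

theorem proposalCount_eq_zero {d : Fin n → ℕ} {E E' : Finset (Edge n)}
    (hE : E ∈ realizations d) (hE' : E' ∉ realizations d) : proposalCount E E' = 0 := by
  unfold proposalCount
  apply sum_eq_zero
  intro S _
  apply sum_eq_zero
  intro F hF
  apply sum_eq_zero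
  intro F' hF'
  rw [if_neg]
  rintro rfl
  exact hE' (switchResult_mem hF (mem_of_mem_erase hF') hE)

theorem kernel_eq_zero {d : Fin n → ℕ} {E E' : Finset (Edge n)}
    (hE : E ∈ realizations d) (hE' : E' ∉ realizations d) : kernel n E E' = 0 := by
  unfold kernel
  rw [proposalCount_eq_zero hE hE', if_neg]
  · simp
  · rintro rfl; exact hE' hE

theorem kernel_sum_realizations (hn : 4 ≤ n) {d : Fin n → ℕ} {E : Finset (Edge n)}
    (hE : E ∈ realizations d) :
    ∑ E' ∈ realizations d, kernel n E E' = 1 := by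
  rw [← kernel_sum hn E]
  apply sum_subset (subset_univ _)
  intro E' _ h
  exact kernel_eq_zero hE h

/-- The Dirichlet form identity. -/
theorem dirichlet_identity {α : Type*} (Ω : Finset α) (P : α → α → ℝ)
    (hs : ∀ x y, P x y = P y x) (h1 : ∀ x ∈ Ω, ∑ y ∈ Ω, P x y = 1) (f : α → ℝ) :
    ∑ x ∈ Ω, f x * (f x - ∑ y ∈ Ω, P x y * f y)
      = (1 / 2) * ∑ x ∈ Ω, ∑ y ∈ Ω, P x y * (f x - f y) ^ 2 := by
  have hA : ∑ x ∈ Ω, ∑ y ∈ Ω, P x y * (f x) ^ 2 = ∑ x ∈ Ω, (f x) ^ 2 := by
    apply sum_congr rfl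
    intro x hx
    rw [← sum_mul, h1 x hx, one_mul]
  have hB : ∑ x ∈ Ω, ∑ y ∈ Ω, P x y * (f y) ^ 2 = ∑ x ∈ Ω, (f x) ^ 2 := by
    rw [sum_comm]
    rw [← hA]
    apply sum_congr rfl
    intro x _
    apply sum_congr rfl
    intro y _
    rw [hs]
  have hC : ∑ x ∈ Ω, ∑ y ∈ Ω, P x y * (f x - f y) ^ 2
      = ∑ x ∈ Ω, ∑ y ∈ Ω, P x y * (f x) ^ 2 + ∑ x ∈ Ω, ∑ y ∈ Ω, P x y * (f y) ^ 2
        - 2 * ∑ x ∈ Ω, ∑ y ∈ Ω, P x y * (f x * f y) := by
    rw [← sum_add_distrib, mul_sum, ← sum_sub_distrib]
    apply sum_congr rfl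
    intro x _
    rw [← sum_add_distrib, mul_sum, ← sum_sub_distrib]
    apply sum_congr rfl
    intro y _
    ring
  rw [hC, hA, hB]
  have hD : ∑ x ∈ Ω, f x * (f x - ∑ y ∈ Ω, P x y * f y)
      = ∑ x ∈ Ω, f x ^ 2 - ∑ x ∈ Ω, ∑ y ∈ Ω, P x y * (f x * f y) := by
    rw [← sum_sub_distrib]
    apply sum_congr rfl
    intro x _
    rw [mul_sub, mul_sum]
    congr 1
    · ring
    · apply sum_congr rfl
      intro y _
      ring
  rw [hD]
  ring

/-! ### adjacency -/

/-- `G'` arises from `G` by replacing the present edges `ab, cd` by the absent edges `ac, bd`. -/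
def SwitchAdj (G G' : Finset (Edge n)) : Prop :=
  ∃ (a b c d : Fin n) (hab : a ≠ b) (hcd : c ≠ d) (hac : a ≠ c) (hbd : b ≠ d) (_ : a ≠ d)
    (_ : b ≠ c),
    mkE a b hab ∈ G ∧ mkE c d hcd ∈ G ∧ mkE a c hac ∉ G ∧ mkE b d hbd ∉ G ∧
      G' = G \ {mkE a b hab, mkE c d hcd} ∪ {mkE a c hac, mkE b d hbd}

theorem SwitchAdj.ne {G G' : Finset (Edge n)} (h : SwitchAdj G G') : G ≠ G' := by
  obtain ⟨a, b, c, d, hab, hcd, hac, hbd, had, hbc, h1, h2, h3, h4, rfl⟩ := h
  intro h
  apply h3
  rw [h]
  simp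

theorem one_le_proposalCount {G G' : Finset (Edge n)} (h : SwitchAdj G G') :
    1 ≤ proposalCount G G' := by
  obtain ⟨a, b, c, d, hab, hcd, hac, hbd, had, hbc, h1, h2, h3, h4, rfl⟩ := h
  unfold proposalCount
  have hS : ({a, b, c, d} : Finset (Fin n)) ∈ (univ : Finset (Fin n)).powersetCard 4 := by
    rw [mem_powersetCard]
    refine ⟨subset_univ _, ?_⟩
    rw [card_insert_of_notMem, card_insert_of_notMem, card_pair hcd]
    · simp only [mem_insert, mem_singleton, not_or]; exact ⟨hbc, hbd⟩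
    · simp only [mem_insert, mem_singleton, not_or]; exact ⟨hab, hac, had⟩
  refine le_trans ?_ (single_le_sum (fun _ _ => Nat.zero_le _) hS)
  have hF : ({mkE a b hab, mkE c d hcd} : Finset (Edge n)) ∈ pmSet ({a, b, c, d} : Finset (Fin n)) :=
    mem_pmSet_of hab hac had hbc hbd hcd
  refine le_trans ?_ (single_le_sum (fun _ _ => Nat.zero_le _) hF)
  have hF' : ({mkE a c hac, mkE b d hbd} : Finset (Edge n)) ∈
      (pmSet ({a, b, c, d} : Finset (Fin n))).erase {mkE a b hab, mkE c d hcd} := by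
    rw [mem_erase]
    refine ⟨?_, ?_⟩
    · apply pair_ne <;> (rw [Ne, mkE_inj]; tauto)
    · have e1 : ({a, c, b, d} : Finset (Fin n)) = {a, b, c, d} := by ext; simp; tauto
      rw [← e1]
      exact mem_pmSet_of hac hab had hbc.symm hcd hbd
  refine le_trans ?_ (single_le_sum (fun _ _ => Nat.zero_le _) hF')
  rw [if_pos]
  unfold switchResult
  rw [if_pos]
  refine ⟨?_, ?_⟩
  · intro e he
    simp only [mem_insert, mem_singleton] at he
    rcases he with rfl | rfl <;> assumption
  · rw [disjoint_left]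
    intro e he
    simp only [mem_insert, mem_singleton] at he
    rcases he with rfl | rfl <;> assumption

/-- The kernel's Dirichlet form on the realizations, as a sum of proposal counts. -/
theorem dirichlet_kernel (hn : 4 ≤ n) (d : Fin n → ℕ) (f : Finset (Edge n) → ℝ) :
    ∑ G ∈ realizations d, f G * (f G - ∑ G' ∈ realizations d, kernel n G G' * f G')
      = (1 / (24 * (n.choose 4 : ℝ))) *
        ∑ G ∈ realizations d, ∑ G' ∈ realizations d,
          (proposalCount G G' : ℝ) * (f G - f G') ^ 2 := by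
  rw [dirichlet_identity (realizations d) (kernel n) kernel_symm
    (fun x hx => kernel_sum_realizations hn hx) f]
  have hpos : (0 : ℝ) < n.choose 4 := by exact_mod_cast Nat.choose_pos hn
  rw [mul_sum, mul_sum]
  apply sum_congr rfl
  intro G _
  rw [mul_sum, mul_sum]
  apply sum_congr rfl
  intro G' _
  unfold kernel
  by_cases h : G = G'
  · subst h; simp
  · rw [if_neg h]
    field_simp
    ring

open Classical in
/-- The Poincaré inequality of the statement follows from the one for the (unnormalised)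
switch graph: `Var(f) ≤ 2 n² · (1/|Ω|) ∑_{unordered switch pairs} (f G - f G')²`. -/
theorem poincare_of_switchAdj (hn : 4 ≤ n) (d : Fin n → ℕ) (f : Finset (Edge n) → ℝ)
    (h : ((realizations d).card : ℝ) * (∑ G ∈ realizations d, f G ^ 2) -
            (∑ G ∈ realizations d, f G) ^ 2 ≤
          (n : ℝ) ^ 2 * (realizations d).card *
            ∑ G ∈ realizations d, ∑ G' ∈ realizations d,
              if SwitchAdj G G' then (f G - f G') ^ 2 else 0) :
    ((realizations d).card : ℝ) * (∑ G ∈ realizations d, f G ^ 2) -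
            (∑ G ∈ realizations d, f G) ^ 2 ≤
          24 * (n : ℝ) ^ 2 * (n.choose 4 : ℝ) * (realizations d).card *
            ∑ G ∈ realizations d, f G * (f G - ∑ G' ∈ realizations d, kernel n G G' * f G') := by
  refine h.trans ?_
  rw [dirichlet_kernel hn d f]
  have hpos : (0 : ℝ) < n.choose 4 := by exact_mod_cast Nat.choose_pos hn
  have hle : ∑ G ∈ realizations d, ∑ G' ∈ realizations d,
        (if SwitchAdj G G' then (f G - f G') ^ 2 else 0)
      ≤ ∑ G ∈ realizations d, ∑ G' ∈ realizations d,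
          (proposalCount G G' : ℝ) * (f G - f G') ^ 2 := by
    apply sum_le_sum
    intro G _
    apply sum_le_sum
    intro G' _
    split_ifs with hadj
    · have h1 : (1 : ℝ) ≤ proposalCount G G' := by exact_mod_cast one_le_proposalCount hadj
      nlinarith [sq_nonneg (f G - f G')]
    · positivity
  calc (n : ℝ) ^ 2 * (realizations d).card *
            ∑ G ∈ realizations d, ∑ G' ∈ realizations d,
              (if SwitchAdj G G' then (f G - f G') ^ 2 else 0)
      ≤ (n : ℝ) ^ 2 * (realizations d).card * ∑ G ∈ realizations d, ∑ G' ∈ realizations d,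
          (proposalCount G G' : ℝ) * (f G - f G') ^ 2 :=
        mul_le_mul_of_nonneg_left hle (by positivity)
    _ = 24 * (n : ℝ) ^ 2 * (n.choose 4 : ℝ) * (realizations d).card *
          ((1 / (24 * (n.choose 4 : ℝ))) *
        ∑ G ∈ realizations d, ∑ G' ∈ realizations d,
          (proposalCount G G' : ℝ) * (f G - f G') ^ 2) := by
        field_simp

end Crest.Agent.R299
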