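import Mathlib
import Crest.Prelude.Def_SwitchChain
import Crest.Agent.R299.Dirichlet

/-!
Row 299 (S0453): connectivity of the switch graph on the realizations of a degree vector
(Petersen 1891, Havel 1955, Hakimi 1962; classical "fix one star at a time" proof).
-/

set_option autoImplicit false
open Finset

namespace Crest.Agent.R299.Conn

open Crest.SwitchChain

variable {n : ℕ}

/-- Adjacency in the graph with edge set `G`. -/
def Adj (G : Finset (Edge n)) (a b : Fin n) : Prop := ∃ h : a ≠ b, mkE a b h ∈ G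

theorem Adj.symm {G : Finset (Edge n)} {a b : Fin n} (h : Adj G a b) : Adj G b a := by
  obtain ⟨h1, h2⟩ := h
  exact ⟨h1.symm, by rw [mkE_comm]; exact h2⟩

theorem adj_comm {G : Finset (Edge n)} {a b : Fin n} : Adj G a b ↔ Adj G b a :=
  ⟨Adj.symm, Adj.symm⟩

theorem Adj.ne {G : Finset (Edge n)} {a b : Fin n} (h : Adj G a b) : a ≠ b := h.1

theorem not_adj_self {G : Finset (Edge n)} {a : Fin n} : ¬ Adj G a a := fun h => h.1 rfl

theorem adj_iff_mem {G : Finset (Edge n)} {a b : Fin n} (h : a ≠ b) :
    Adj G a b ↔ mkE a b h ∈ G := ⟨fun h' => h'.2, fun h' => ⟨h, h'⟩⟩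

theorem ext_adj {G G' : Finset (Edge n)} (h : ∀ a b, Adj G a b ↔ Adj G' a b) : G = G' := by
  ext e
  obtain ⟨a, b, hab⟩ : ∃ a b, e.1 = s(a, b) := by
    induction e.1 with
    | _ a b => exact ⟨a, b, rfl⟩
  have ha : a ∈ e.1 := by rw [hab]; simp
  obtain ⟨x, hx, rfl⟩ := exists_mkE e ha
  have := h a x
  rw [adj_iff_mem hx, adj_iff_mem hx] at this
  exact this

open Classical in
theorem deg_eq_card (G : Finset (Edge n)) (v : Fin n) :
    deg G v = (univ.filter fun u => Adj G v u).card := by
  unfold deg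
  symm
  refine Finset.card_bij (fun u hu => mkE v u ((mem_filter.mp hu).2).1) ?_ ?_ ?_
  · intro u hu
    rw [mem_filter] at hu ⊢
    exact ⟨hu.2.2, by simp [mem_mkE]⟩
  · intro a ha b hb hab
    rw [mkE_inj] at hab
    rcases hab with h | h
    · exact h.2
    · rw [← h.1, h.2]
  · intro e he
    rw [mem_filter] at he
    obtain ⟨x, hx, rfl⟩ := exists_mkE e he.2
    exact ⟨x, mem_filter.mpr ⟨mem_univ _, hx, he.1⟩, rfl⟩

theorem deg_of_switchAdj {G G' : Finset (Edge n)} (h : SwitchAdj G G') (v : Fin n) :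
    deg G' v = deg G v := by
  obtain ⟨a, b, c, d, hab, hcd, hac, hbd, had, hbc, h1, h2, h3, h4, rfl⟩ := h
  have hF : ({mkE a b hab, mkE c d hcd} : Finset (Edge n)) ∈
      pmSet ({a, b, c, d} : Finset (Fin n)) := mem_pmSet_of hab hac had hbc hbd hcd
  have hF' : ({mkE a c hac, mkE b d hbd} : Finset (Edge n)) ∈
      pmSet ({a, b, c, d} : Finset (Fin n)) := by
    have e1 : ({a, c, b, d} : Finset (Fin n)) = {a, b, c, d} := by ext; simp; tauto
    rw [← e1]
    exact mem_pmSet_of hac hab had hbc.symm hcd hbd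
  apply deg_switch hF hF'
  · intro e he
    simp only [mem_insert, mem_singleton] at he
    rcases he with rfl | rfl <;> assumption
  · rw [disjoint_left]
    intro e he
    simp only [mem_insert, mem_singleton] at he
    rcases he with rfl | rfl <;> assumption

theorem mem_realizations_of_switchAdj {d : Fin n → ℕ} {G G' : Finset (Edge n)}
    (h : SwitchAdj G G') (hG : G ∈ realizations d) : G' ∈ realizations d := by
  rw [mem_realizations] at hG ⊢
  intro v
  rw [deg_of_switchAdj h, hG]

/-- Perform a switch. -/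
theorem exists_switch {G : Finset (Edge n)} {a b c d : Fin n} (hac : a ≠ c) (hbd : b ≠ d)
    (had : a ≠ d) (hbc : b ≠ c) (h1 : Adj G a b) (h2 : Adj G c d) (h3 : ¬ Adj G a c)
    (h4 : ¬ Adj G b d) :
    ∃ G', SwitchAdj G G' ∧ ∀ x y, Adj G' x y ↔
      (Adj G x y ∧ ¬ (x = a ∧ y = b) ∧ ¬ (x = b ∧ y = a) ∧ ¬ (x = c ∧ y = d) ∧
        ¬ (x = d ∧ y = c)) ∨ (x = a ∧ y = c) ∨ (x = c ∧ y = a) ∨ (x = b ∧ y = d) ∨
        (x = d ∧ y = b) := by
  obtain ⟨hab, h1'⟩ := h1
  obtain ⟨hcd, h2'⟩ := h2
  refine ⟨G \ {mkE a b hab, mkE c d hcd} ∪ {mkE a c hac, mkE b d hbd},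
    ⟨a, b, c, d, hab, hcd, hac, hbd, had, hbc, h1', h2', fun h => h3 ⟨hac, h⟩,
      fun h => h4 ⟨hbd, h⟩, rfl⟩, ?_⟩
  intro x y
  unfold Adj
  by_cases hxy : x = y
  · subst hxy
    simp only [ne_eq, not_true_eq_false, IsEmpty.exists_iff, false_and, false_or, false_iff,
      not_or]
    refine ⟨?_, ?_, ?_, ?_⟩
    · rintro ⟨rfl, h⟩; exact hac h
    · rintro ⟨rfl, h⟩; exact hac h.symm
    · rintro ⟨rfl, h⟩; exact hbd h
    · rintro ⟨rfl, h⟩; exact hbd h.symm
  · have hiff : ∀ G0 : Finset (Edge n), (∃ h : x ≠ y, mkE x y h ∈ G0) ↔ mkE x y hxy ∈ G0 :=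
      fun G0 => ⟨fun h => h.2, fun h => ⟨hxy, h⟩⟩
    rw [hiff, hiff]
    simp only [mem_union, mem_sdiff, mem_insert, mem_singleton, mkE_inj, not_or, or_assoc]

open Classical in
/-- The number of neighbours of `x` inside `U`. -/
noncomputable def degIn (G : Finset (Edge n)) (U : Finset (Fin n)) (x : Fin n) : ℕ :=
  (U.filter fun z => Adj G x z).card

/-- The basic step: make `v` adjacent to `w` instead of `u`. -/
theorem exists_step {G : Finset (Edge n)} {U : Finset (Fin n)} {v u w : Fin n} (hv : v ∈ U)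
    (hu : u ∈ U) (hw : w ∈ U) (hvw : v ≠ w) (huw : u ≠ w) (h1 : Adj G v u) (h2 : ¬ Adj G v w)
    (hdeg : degIn G U u ≤ degIn G U w) :
    ∃ G', SwitchAdj G G' ∧ (∀ x y, ¬ (x ∈ U ∧ y ∈ U) → (Adj G' x y ↔ Adj G x y)) ∧
      (∀ x, Adj G' v x ↔ (Adj G v x ∧ x ≠ u) ∨ x = w) := by
  classical
  obtain ⟨z, hzU, hwz, huz, hzu⟩ : ∃ z ∈ U, Adj G w z ∧ ¬ Adj G u z ∧ z ≠ u := by
    by_contra hcon
    push Not at hcon
    -- `N_U(w) \ {u} ⊆ N_U(u) \ {w, v}`
    have hsub : (U.filter fun z => Adj G w z).erase u ⊆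
        ((U.filter fun z => Adj G u z).erase w).erase v := by
      intro z hz
      rw [mem_erase, mem_filter] at hz
      obtain ⟨hzu, hzU, hwz⟩ := hz
      have huz : Adj G u z := by
        by_contra h
        exact hzu (hcon z hzU hwz h)
      rw [mem_erase, mem_erase, mem_filter]
      refine ⟨?_, ?_, hzU, huz⟩
      · rintro rfl; exact h2 hwz.symm
      · rintro rfl; exact not_adj_self hwz
    have hcard := card_le_card hsub
    have hvmem : v ∈ (U.filter fun z => Adj G u z).erase w := by
      rw [mem_erase, mem_filter]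
      exact ⟨hvw, hv, h1.symm⟩
    rw [card_erase_of_mem hvmem] at hcard
    have hpos : 0 < ((U.filter fun z => Adj G u z).erase w).card := card_pos.mpr ⟨v, hvmem⟩
    have e1 : (U.filter fun z => Adj G w z).card = degIn G U w := by
      unfold degIn; congr
    have e2 : (U.filter fun z => Adj G u z).card = degIn G U u := by
      unfold degIn; congr
    by_cases hadj : Adj G u w
    · have m1 : u ∈ U.filter fun z => Adj G w z := mem_filter.mpr ⟨hu, hadj.symm⟩
      have m2 : w ∈ U.filter fun z => Adj G u z := mem_filter.mpr ⟨hw, hadj⟩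
      rw [card_erase_of_mem m1, card_erase_of_mem m2, e1, e2] at hcard
      rw [card_erase_of_mem m2, e2] at hpos
      omega
    · have m1 : u ∉ U.filter fun z => Adj G w z := by
        rw [mem_filter]; exact fun h => hadj h.2.symm
      have m2 : w ∉ U.filter fun z => Adj G u z := by
        rw [mem_filter]; exact fun h => hadj h.2
      rw [erase_eq_of_notMem m1, erase_eq_of_notMem m2, e1, e2] at hcard
      rw [erase_eq_of_notMem m2, e2] at hpos
      omega
  have hvz : v ≠ z := by rintro rfl; exact h2 hwz.symm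
  obtain ⟨G', hG', hadj⟩ := exists_switch (G := G) (a := v) (b := u) (c := w) (d := z)
    hvw hzu.symm hvz huw h1 hwz h2 huz
  refine ⟨G', hG', ?_, ?_⟩
  · intro x y hxy
    rw [hadj]
    constructor
    · rintro (h | ⟨rfl, rfl⟩ | ⟨rfl, rfl⟩ | ⟨rfl, rfl⟩ | ⟨rfl, rfl⟩)
      · exact h.1
      all_goals exact absurd ⟨by assumption, by assumption⟩ hxy
    · intro h
      left
      refine ⟨h, ?_, ?_, ?_, ?_⟩ <;>
      · rintro ⟨rfl, rfl⟩
        exact hxy ⟨by assumption, by assumption⟩
  · intro x
    rw [hadj]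
    have hvu := h1.ne
    constructor
    · rintro (h | ⟨_, rfl⟩ | ⟨h, _⟩ | ⟨h, _⟩ | ⟨h, _⟩)
      · left
        refine ⟨h.1, ?_⟩
        rintro rfl
        exact h.2.1 ⟨rfl, rfl⟩
      · right; rfl
      · exact absurd h hvw
      · exact absurd h hvu
      · exact absurd h hvz
    · rintro (⟨h, hx⟩ | rfl)
      · left
        refine ⟨h, fun h' => hx h'.2, fun h' => hvu h'.1, fun h' => hvw h'.1, fun h' => hvz h'.1⟩
      · right; left; exact ⟨rfl, rfl⟩

/-- Two graphs with the same degrees that agree off `U` have the same degrees inside `U`. -/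
theorem degIn_eq {G G' : Finset (Edge n)} {U : Finset (Fin n)}
    (hd : ∀ v, deg G v = deg G' v)
    (hag : ∀ x y, ¬ (x ∈ U ∧ y ∈ U) → (Adj G x y ↔ Adj G' x y)) (x : Fin n) :
    degIn G U x = degIn G' U x := by
  classical
  have key : ∀ H : Finset (Edge n), deg H x
      = degIn H U x + ((univ \ U).filter fun z => Adj H x z).card := by
    intro H
    rw [deg_eq_card]
    unfold degIn
    rw [← card_union_of_disjoint]
    · congr 1
      ext z
      simp only [mem_filter, mem_univ, true_and, mem_union, mem_sdiff]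
      tauto
    · rw [disjoint_left]
      intro z hz hz'
      simp only [mem_filter, mem_sdiff, mem_univ, true_and] at hz hz'
      exact hz'.1 hz.1
  have h1 := key G
  have h2 := key G'
  have h3 : ((univ \ U).filter fun z => Adj G x z) = ((univ \ U).filter fun z => Adj G' x z) := by
    ext z
    simp only [mem_filter, mem_sdiff, mem_univ, true_and]
    constructor
    · rintro ⟨hz, h⟩; exact ⟨hz, (hag x z (fun h' => hz h'.2)).mp h⟩
    · rintro ⟨hz, h⟩; exact ⟨hz, (hag x z (fun h' => hz h'.2)).mpr h⟩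
  rw [h3] at h1
  have := hd x
  omega

open Classical in
/-- Fix the star of `v`. -/
theorem exists_fix_star (m : ℕ) : ∀ {G G' : Finset (Edge n)} {U : Finset (Fin n)} {v : Fin n},
    v ∈ U → (∀ v, deg G v = deg G' v) →
    (∀ x y, ¬ (x ∈ U ∧ y ∈ U) → (Adj G x y ↔ Adj G' x y)) →
    (univ.filter fun x => Adj G v x ∧ ¬ Adj G' v x).card = m →
    ∃ G₁ G₁', Relation.ReflTransGen SwitchAdj G G₁ ∧ Relation.ReflTransGen SwitchAdj G' G₁' ∧
      ∀ x y, ¬ (x ∈ U.erase v ∧ y ∈ U.erase v) → (Adj G₁ x y ↔ Adj G₁' x y) := by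
  induction m with
  | zero =>
    intro G G' U v hv hd hag hcard
    refine ⟨G, G', Relation.ReflTransGen.refl, Relation.ReflTransGen.refl, ?_⟩
    rw [card_eq_zero, filter_eq_empty_iff] at hcard
    have h1 : ∀ x, Adj G v x → Adj G' v x := by
      intro x hx
      by_contra h
      exact hcard (mem_univ x) ⟨hx, h⟩
    have hsub : (univ.filter fun x => Adj G v x) ⊆ (univ.filter fun x => Adj G' v x) := by
      intro x hx
      rw [mem_filter] at hx ⊢
      exact ⟨mem_univ _, h1 x hx.2⟩
    have heq := eq_of_subset_of_card_le hsub (by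
      rw [← deg_eq_card, ← deg_eq_card, hd])
    have h2 : ∀ x, Adj G v x ↔ Adj G' v x := by
      intro x
      have := congrArg (fun s => x ∈ s) heq
      simpa using this
    intro x y hxy
    by_cases hxv : x = v
    · subst hxv; exact h2 y
    by_cases hyv : y = v
    · subst hyv
      rw [adj_comm, h2 x, adj_comm]
    · apply hag
      rintro ⟨hx, hy⟩
      exact hxy ⟨mem_erase.mpr ⟨hxv, hx⟩, mem_erase.mpr ⟨hyv, hy⟩⟩
  | succ m ih =>
    intro G G' U v hv hd hag hcard
    -- find `u` and `w`
    have hne : (univ.filter fun x => Adj G v x ∧ ¬ Adj G' v x).Nonempty := by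
      rw [← card_pos, hcard]; omega
    obtain ⟨u, hu⟩ := hne
    rw [mem_filter] at hu
    obtain ⟨_, hGu, hG'u⟩ := hu
    obtain ⟨w, hG'w, hGw⟩ : ∃ w, Adj G' v w ∧ ¬ Adj G v w := by
      by_contra hcon
      push Not at hcon
      have hsub : (univ.filter fun x => Adj G' v x) ⊂ (univ.filter fun x => Adj G v x) := by
        rw [ssubset_iff_of_subset]
        · exact ⟨u, by simpa using hGu, by simpa using hG'u⟩
        · intro x hx
          rw [mem_filter] at hx ⊢
          exact ⟨mem_univ _, hcon x hx.2⟩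
      have := card_lt_card hsub
      rw [← deg_eq_card, ← deg_eq_card, hd] at this
      exact lt_irrefl _ this
    have huU : u ∈ U := by
      by_contra h
      exact hG'u ((hag v u (fun h' => h h'.2)).mp hGu)
    have hwU : w ∈ U := by
      by_contra h
      exact hGw ((hag v w (fun h' => h h'.2)).mpr hG'w)
    have huw : u ≠ w := by rintro rfl; exact hGw hGu
    rcases le_total (degIn G U u) (degIn G U w) with hle | hle
    · obtain ⟨G₂, hs, hoff, hstar⟩ := exists_step hv huU hwU hG'w.ne huw hGu hGw hle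
      obtain ⟨G₁, G₁', h1, h2, h3⟩ := ih (G := G₂) (G' := G') (U := U) (v := v) hv
        (fun x => by rw [deg_of_switchAdj hs, hd])
        (fun x y hxy => by rw [hoff x y hxy, hag x y hxy])
        (by
          have : (univ.filter fun x => Adj G₂ v x ∧ ¬ Adj G' v x)
              = (univ.filter fun x => Adj G v x ∧ ¬ Adj G' v x).erase u := by
            ext x
            simp only [mem_filter, mem_univ, true_and, mem_erase, hstar]
            constructor
            · rintro ⟨h | rfl, h'⟩
              · exact ⟨h.2, h.1, h'⟩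
              · exact absurd hG'w h'
            · rintro ⟨h, h', h''⟩
              exact ⟨Or.inl ⟨h', h⟩, h''⟩
          rw [this, card_erase_of_mem (mem_filter.mpr ⟨mem_univ _, hGu, hG'u⟩), hcard]
          rfl)
      exact ⟨G₁, G₁', Relation.ReflTransGen.head hs h1, h2, h3⟩
    · rw [degIn_eq hd hag, degIn_eq hd hag] at hle
      obtain ⟨G₂, hs, hoff, hstar⟩ := exists_step hv hwU huU hGu.ne huw.symm hG'w hG'u hle
      obtain ⟨G₁, G₁', h1, h2, h3⟩ := ih (G := G) (G' := G₂) (U := U) (v := v) hv
        (fun x => by rw [deg_of_switchAdj hs, hd])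
        (fun x y hxy => by rw [hoff x y hxy, hag x y hxy])
        (by
          have : (univ.filter fun x => Adj G v x ∧ ¬ Adj G₂ v x)
              = (univ.filter fun x => Adj G v x ∧ ¬ Adj G' v x).erase u := by
            ext x
            simp only [mem_filter, mem_univ, true_and, mem_erase, hstar, not_or, not_and, not_not]
            constructor
            · rintro ⟨h, h', h''⟩
              refine ⟨h'', h, fun h3 => ?_⟩
              have := h' h3
              subst this
              exact hGw h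
            · rintro ⟨h, h', h''⟩
              exact ⟨h', fun h3 => absurd h3 h'', h⟩
          rw [this, card_erase_of_mem (mem_filter.mpr ⟨mem_univ _, hGu, hG'u⟩), hcard]
          rfl)
      exact ⟨G₁, G₁', h1, Relation.ReflTransGen.head hs h2, h3⟩

theorem deg_of_reflTransGen {G G' : Finset (Edge n)} (h : Relation.ReflTransGen SwitchAdj G G')
    (v : Fin n) : deg G' v = deg G v := by
  induction h with
  | refl => rfl
  | tail _ h ih => rw [deg_of_switchAdj h, ih]

theorem exists_common (k : ℕ) : ∀ {G G' : Finset (Edge n)} {U : Finset (Fin n)}, U.card = k →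
    (∀ v, deg G v = deg G' v) →
    (∀ x y, ¬ (x ∈ U ∧ y ∈ U) → (Adj G x y ↔ Adj G' x y)) →
    ∃ H, Relation.ReflTransGen SwitchAdj G H ∧ Relation.ReflTransGen SwitchAdj G' H := by
  induction k with
  | zero =>
    intro G G' U hU hd hag
    rw [card_eq_zero] at hU
    subst hU
    have : G = G' := ext_adj fun a b => hag a b (by simp)
    subst this
    exact ⟨G, Relation.ReflTransGen.refl, Relation.ReflTransGen.refl⟩
  | succ k ih =>
    intro G G' U hU hd hag
    obtain ⟨v, hv⟩ : U.Nonempty := by rw [← card_pos, hU]; omega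
    obtain ⟨G₁, G₁', h1, h2, h3⟩ := exists_fix_star _ hv hd hag rfl
    obtain ⟨H, h4, h5⟩ := ih (G := G₁) (G' := G₁') (U := U.erase v)
      (by rw [card_erase_of_mem hv, hU]; rfl)
      (fun x => by rw [deg_of_reflTransGen h1, deg_of_reflTransGen h2, hd]) h3
    exact ⟨H, h1.trans h4, h2.trans h5⟩

/-- Two graphs with the same degrees are connected by switches to a common graph. -/
theorem exists_common_of_deg_eq {G G' : Finset (Edge n)} (hd : ∀ v, deg G v = deg G' v) :
    ∃ H, Relation.ReflTransGen SwitchAdj G H ∧ Relation.ReflTransGen SwitchAdj G' H :=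
  exists_common _ (U := univ) rfl hd (fun _ _ h => absurd ⟨mem_univ _, mem_univ _⟩ h)

end Conn

open Crest.SwitchChain

variable {n : ℕ}

/-- **Connectivity.** A function on the realizations that is invariant under switches is
constant. -/
theorem eq_of_switchAdj_invariant {β : Type*} {d : Fin n → ℕ} (f : Finset (Edge n) → β)
    (h : ∀ G ∈ realizations d, ∀ G' ∈ realizations d, SwitchAdj G G' → f G = f G') :
    ∀ G ∈ realizations d, ∀ G' ∈ realizations d, f G = f G' := by
  have key : ∀ {G H : Finset (Edge n)}, Relation.ReflTransGen SwitchAdj G H →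
      G ∈ realizations d → H ∈ realizations d ∧ f G = f H := by
    intro G H hGH hG
    induction hGH with
    | refl => exact ⟨hG, rfl⟩
    | tail _ hs ih =>
      have hm := Conn.mem_realizations_of_switchAdj hs ih.1
      exact ⟨hm, ih.2.trans (h _ ih.1 _ hm hs)⟩
  intro G hG G' hG'
  obtain ⟨H, h1, h2⟩ := Conn.exists_common_of_deg_eq (G := G) (G' := G') (fun v => by
    rw [mem_realizations] at hG hG'
    rw [hG, hG'])
  rw [(key h1 hG).2, (key h2 hG').2]

end Crest.Agent.R299
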