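import Mathlib

/-! # T3b: averaging coupling (row 299) -/

set_option autoImplicit false
open Finset

namespace Crest.Agent.R299

variable {κ : Type*} [DecidableEq κ]

theorem sum_powersetCard_insert (n : ℕ) (a : κ) (s : Finset κ) (ha : a ∉ s) (g : Finset κ → ℝ) :
    ∑ B ∈ powersetCard (n + 1) (insert a s), g B =
      ∑ B ∈ powersetCard (n + 1) s, g B + ∑ B ∈ powersetCard n s, g (insert a B) := by
  rw [powersetCard_succ_insert ha, sum_union, sum_image]
  · intro A hA B hB hAB
    have hA' := (mem_powersetCard.mp hA).1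
    have hB' := (mem_powersetCard.mp hB).1
    have h1 : a ∉ A := fun h => ha (hA' h)
    have h2 : a ∉ B := fun h => ha (hB' h)
    rw [← erase_insert h1, ← erase_insert h2, hAB]
  · rw [disjoint_left]
    intro A hA hA2
    rw [mem_image] at hA2
    obtain ⟨B, _, rfl⟩ := hA2
    exact ha ((mem_powersetCard.mp hA).1 (mem_insert_self _ _))

theorem sum_pairs (M : Finset κ) (x : ℕ) (F : Finset κ → κ → ℝ) :
    ∑ A ∈ powersetCard x M, ∑ e ∈ M \ A, F A e =
      ∑ B ∈ powersetCard (x + 1) M, ∑ e ∈ B, F (B.erase e) e := by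
  rw [sum_sigma', sum_sigma']
  refine sum_bij' (fun p _ => ⟨insert p.2 p.1, p.2⟩) (fun p _ => ⟨p.1.erase p.2, p.2⟩) ?_ ?_ ?_ ?_ ?_
  · rintro ⟨A, e⟩ h
    simp only [mem_sigma, mem_powersetCard, mem_sdiff] at h ⊢
    obtain ⟨⟨h1, h2⟩, h3, h4⟩ := h
    exact ⟨⟨insert_subset h3 h1, by rw [card_insert_of_notMem h4, h2]⟩, mem_insert_self _ _⟩
  · rintro ⟨B, e⟩ h
    simp only [mem_sigma, mem_powersetCard, mem_sdiff] at h ⊢
    obtain ⟨⟨h1, h2⟩, h3⟩ := h
    exact ⟨⟨(erase_subset _ _).trans h1, by rw [card_erase_of_mem h3, h2]; rfl⟩, h1 h3,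
      notMem_erase _ _⟩
  · rintro ⟨A, e⟩ h
    simp only [mem_sigma, mem_powersetCard, mem_sdiff] at h
    simp [erase_insert h.2.2]
  · rintro ⟨B, e⟩ h
    simp only [mem_sigma, mem_powersetCard] at h
    simp [insert_erase h.2]
  · rintro ⟨A, e⟩ h
    simp only [mem_sigma, mem_powersetCard, mem_sdiff] at h
    simp [erase_insert h.2.2]

theorem avg_coupling (M : Finset κ) (j k : κ) (hj : j ∉ M) (hk : k ∉ M) (hjk : j ≠ k)
    (x : ℕ) (hx : x ≤ M.card) (g h : Finset κ → ℝ) (b : ℝ)
    (h1 : ∀ A ∈ powersetCard x M, |g (insert j A) - h A| ≤ b)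
    (h2 : ∀ A ∈ powersetCard x M, |g (insert k A) - h A| ≤ b)
    (h3 : ∀ A ∈ powersetCard x M, ∀ e ∈ A, |g (insert j (insert k (A.erase e))) - h A| ≤ b)
    (h4 : ∀ A ∈ powersetCard x M, ∀ e ∈ M \ A, |g (insert e A) - h A| ≤ b) :
    |(∑ B ∈ powersetCard (x + 1) (insert j (insert k M)), g B) /
        (((M.card + 2).choose (x + 1) : ℕ) : ℝ) -
      (∑ A ∈ powersetCard x M, h A) / ((M.card.choose x : ℕ) : ℝ)| ≤ b := by
  set m := M.card with hm
  have hjk' : j ∉ insert k M := by simp [hj, hjk]
  set D : ℝ := ((m.choose x : ℕ) : ℝ) with hD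
  have hDpos : 0 < D := by
    rw [hD]; exact_mod_cast Nat.choose_pos hx
  set N : ℝ := (((m + 2).choose (x + 1) : ℕ) : ℝ) with hN
  have hNpos : 0 < N := by
    rw [hN]; exact_mod_cast Nat.choose_pos (by omega)
  have hcardP : ((powersetCard x M).card : ℝ) = D := by rw [card_powersetCard]
  -- weights
  set α : ℝ := 1 / ((m : ℝ) - x + 1) with hα
  set β : ℝ := 1 / ((x : ℝ) + 1) with hβ
  have hmx : (0 : ℝ) < (m : ℝ) - x + 1 := by
    have : (x : ℝ) ≤ m := by exact_mod_cast hx
    linarith
  have hx1 : (0 : ℝ) < (x : ℝ) + 1 := by positivity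
  have hα0 : 0 ≤ α := by rw [hα]; positivity
  have hβ0 : 0 ≤ β := by rw [hβ]; positivity
  -- the decomposition of the sum over `B`
  have e4 : ∑ B ∈ powersetCard (x + 1) M, g B =
      ∑ A ∈ powersetCard x M, β * ∑ e ∈ M \ A, g (insert e A) := by
    rw [← mul_sum, sum_pairs M x (fun A e => g (insert e A)), mul_sum]
    apply sum_congr rfl
    intro B hB
    have : ∑ e ∈ B, g (insert e (B.erase e)) = ((x : ℝ) + 1) * g B := by
      rw [sum_congr rfl (fun e he => by rw [insert_erase he]), sum_const,
        (mem_powersetCard.mp hB).2, nsmul_eq_mul]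
      push_cast; ring
    rw [this, hβ]
    field_simp
  have e3 : ∑ B ∈ powersetCard (x + 1) (insert j (insert k M)), g B =
      ∑ A ∈ powersetCard x M, (g (insert j A) + g (insert k A) +
        α * (∑ e ∈ A, g (insert j (insert k (A.erase e)))) +
        β * ∑ e ∈ M \ A, g (insert e A)) := by
    rw [sum_powersetCard_insert x j _ hjk', sum_powersetCard_insert x k M hk, e4]
    simp only [sum_add_distrib]
    have key : ∑ B ∈ powersetCard x (insert k M), g (insert j B) =
        ∑ A ∈ powersetCard x M, g (insert j A) +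
          ∑ A ∈ powersetCard x M, α * ∑ e ∈ A, g (insert j (insert k (A.erase e))) := by
      rcases x with _ | y
      · simp
      · rw [sum_powersetCard_insert y k M hk (fun B => g (insert j B)), ← mul_sum]
        congr 1
        have := sum_pairs M y (fun A _ => g (insert j (insert k A)))
        rw [← this, mul_sum]
        apply sum_congr rfl
        intro A hA
        rw [sum_const, nsmul_eq_mul, card_sdiff_of_subset (mem_powersetCard.mp hA).1,
          (mem_powersetCard.mp hA).2, ← hm, hα]
        rw [Nat.cast_sub (by omega)]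
        have : ((m : ℝ) - (y + 1 : ℕ) + 1) = (m : ℝ) - y := by push_cast; ring
        rw [this]
        rw [this] at hmx
        field_simp
    rw [key]
    ring
  -- the weight identity
  have hW : N = D * (2 + α * x + β * (m - x)) := by
    have c1 : ((m + 2).choose (x + 1) : ℕ) = m.choose (x+1) + 2 * m.choose x +
        (if x = 0 then 0 else m.choose (x - 1)) := by
      rcases x with _ | y
      · simp
      · rw [if_neg (by omega), Nat.choose_succ_succ' (m+1) (y+1), Nat.choose_succ_succ' m (y+1),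
          Nat.choose_succ_succ' m y]
        simp; ring
    have c2 : ((m.choose (x+1) : ℕ) : ℝ) * ((x : ℝ) + 1) = D * ((m : ℝ) - x) := by
      have := Nat.choose_succ_right_eq m x
      rw [hD, ← Nat.cast_sub hx]
      exact_mod_cast this
    have c3 : ((if x = 0 then 0 else m.choose (x - 1) : ℕ) : ℝ) * ((m : ℝ) - x + 1) = D * x := by
      rcases x with _ | y
      · simp
      · rw [if_neg (by omega), hD]
        have := Nat.choose_succ_right_eq m y
        have h5 : ((m.choose (y+1) : ℕ) : ℝ) * ((y : ℝ) + 1) = (m.choose y : ℝ) * ((m : ℝ) - y) := by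
          rw [← Nat.cast_sub (by omega)]
          exact_mod_cast this
        simp only [Nat.add_sub_cancel]
        push_cast
        linear_combination -h5
    rw [hN, c1]
    push_cast at c3 ⊢
    rw [hα, hβ]
    have c2' : ((m.choose (x+1) : ℕ) : ℝ) = D * ((m : ℝ) - x) * (1 / ((x:ℝ) + 1)) := by
      field_simp; exact c2
    have c3' : (if x = 0 then (0:ℝ) else (m.choose (x - 1) : ℝ)) =
        D * x * (1 / ((m : ℝ) - x + 1)) := by
      field_simp; exact c3
    rw [c2', c3', ← hD]
    ring
  have hWpos : 0 < 2 + α * x + β * (m - x) := by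
    have : (0:ℝ) ≤ (m : ℝ) - x := by
      have : (x : ℝ) ≤ m := by exact_mod_cast hx
      linarith
    positivity
  have hsum : |(∑ B ∈ powersetCard (x + 1) (insert j (insert k M)), g B) -
      (2 + α * x + β * (m - x)) * ∑ A ∈ powersetCard x M, h A| ≤ N * b := by
    rw [e3, mul_sum, ← sum_sub_distrib]
    refine (abs_sum_le_sum_abs _ _).trans ?_
    have : N * b = ∑ A ∈ powersetCard x M, (2 + α * x + β * (m - x)) * b := by
      rw [sum_const, nsmul_eq_mul, hcardP, hW]; ring
    rw [this]
    apply sum_le_sum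
    intro A hA
    have hcA := (mem_powersetCard.mp hA).2
    have hsA := (mem_powersetCard.mp hA).1
    have s3 : |∑ e ∈ A, (g (insert j (insert k (A.erase e))) - h A)| ≤ x * b := by
      refine (abs_sum_le_sum_abs _ _).trans ((sum_le_sum (h3 A hA)).trans ?_)
      rw [sum_const, hcA, nsmul_eq_mul]
    have s4 : |∑ e ∈ M \ A, (g (insert e A) - h A)| ≤ (m - x) * b := by
      refine (abs_sum_le_sum_abs _ _).trans ((sum_le_sum (h4 A hA)).trans ?_)
      rw [sum_const, card_sdiff_of_subset hsA, hcA, nsmul_eq_mul, Nat.cast_sub hx]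
    have r3 : ∑ e ∈ A, (g (insert j (insert k (A.erase e))) - h A) =
        (∑ e ∈ A, g (insert j (insert k (A.erase e)))) - x * h A := by
      rw [sum_sub_distrib, sum_const, hcA, nsmul_eq_mul]
    have r4 : ∑ e ∈ M \ A, (g (insert e A) - h A) =
        (∑ e ∈ M \ A, g (insert e A)) - (m - x) * h A := by
      rw [sum_sub_distrib, sum_const, card_sdiff_of_subset hsA, hcA, nsmul_eq_mul,
        Nat.cast_sub hx]
    have e5 : g (insert j A) + g (insert k A) +
        α * (∑ e ∈ A, g (insert j (insert k (A.erase e)))) +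
        β * ∑ e ∈ M \ A, g (insert e A) - (2 + α * x + β * (m - x)) * h A =
        (g (insert j A) - h A) + (g (insert k A) - h A) +
        α * (∑ e ∈ A, (g (insert j (insert k (A.erase e))) - h A)) +
        β * (∑ e ∈ M \ A, (g (insert e A) - h A)) := by
      rw [r3, r4]; ring
    rw [e5]
    have t1 := h1 A hA
    have t2 := h2 A hA
    have t3 : |α * (∑ e ∈ A, (g (insert j (insert k (A.erase e))) - h A))| ≤ α * (x * b) := by
      rw [abs_mul, abs_of_nonneg hα0]
      exact mul_le_mul_of_nonneg_left s3 hα0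
    have t4 : |β * (∑ e ∈ M \ A, (g (insert e A) - h A))| ≤ β * ((m - x) * b) := by
      rw [abs_mul, abs_of_nonneg hβ0]
      exact mul_le_mul_of_nonneg_left s4 hβ0
    calc _ ≤ |g (insert j A) - h A| + |g (insert k A) - h A| +
        |α * (∑ e ∈ A, (g (insert j (insert k (A.erase e))) - h A))| +
        |β * (∑ e ∈ M \ A, (g (insert e A) - h A))| := by
          refine (abs_add_le _ _).trans (add_le_add ?_ le_rfl)
          refine (abs_add_le _ _).trans (add_le_add ?_ le_rfl)
          exact abs_add_le _ _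
      _ ≤ b + b + α * (x * b) + β * ((m - x) * b) := by linarith
      _ = _ := by ring
  have e6 : (∑ B ∈ powersetCard (x + 1) (insert j (insert k M)), g B) / N -
      (∑ A ∈ powersetCard x M, h A) / D =
      ((∑ B ∈ powersetCard (x + 1) (insert j (insert k M)), g B) -
      (2 + α * x + β * (m - x)) * ∑ A ∈ powersetCard x M, h A) / N := by
    rw [hW]
    field_simp
  rw [e6, abs_div, abs_of_pos hNpos, div_le_iff₀ hNpos, mul_comm b N]
  exact hsum

end Crest.Agent.R299
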