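import Mathlib
import Crest.Agent.R299.Defs

/-!
Row 299, T5: averages over two-row relations with disjoint slots commute.
-/

set_option autoImplicit false
open Finset

namespace Crest.Agent.R299

open Classical in
theorem cE_comm_rel {κ S : Type*} [Fintype S] [DecidableEq κ] [DecidableEq S]
    (p q p' q' : κ → S) (U U' : Finset κ)
    (hd : ∀ z ∈ U, ∀ w ∈ U', p z ≠ p' w ∧ p z ≠ q' w ∧ q z ≠ p' w ∧ q z ≠ q' w)
    (f : (S → Bool) → ℝ) :
    cE (rel p q U) (cE (rel p' q' U') f) = cE (rel p' q' U') (cE (rel p q U) f) := by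
  funext x
  set m : (S → Bool) → (S → Bool) → (S → Bool) :=
    fun y w e => if (∃ z ∈ U, e = p z ∨ e = q z) then y e else w e with hm
  -- `m y w` on slots of `(p, q, U)`
  have mp : ∀ y w : S → Bool, ∀ z ∈ U, m y w (p z) = y (p z) := by
    intro y w z hz
    exact if_pos ⟨z, hz, Or.inl rfl⟩
  have mq : ∀ y w : S → Bool, ∀ z ∈ U, m y w (q z) = y (q z) := by
    intro y w z hz
    exact if_pos ⟨z, hz, Or.inr rfl⟩
  -- slots of `(p', q', U')` are not slots of `(p, q, U)`
  have np' : ∀ w ∈ U', ¬ ∃ z ∈ U, p' w = p z ∨ p' w = q z := by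
    rintro w hw ⟨z, hz, h | h⟩
    · exact (hd z hz w hw).1 h.symm
    · exact (hd z hz w hw).2.2.1 h.symm
  have nq' : ∀ w ∈ U', ¬ ∃ z ∈ U, q' w = p z ∨ q' w = q z := by
    rintro w hw ⟨z, hz, h | h⟩
    · exact (hd z hz w hw).2.1 h.symm
    · exact (hd z hz w hw).2.2.2 h.symm
  have mp' : ∀ y w : S → Bool, ∀ v ∈ U', m y w (p' v) = w (p' v) := by
    intro y w v hv
    exact if_neg (np' v hv)
  have mq' : ∀ y w : S → Bool, ∀ v ∈ U', m y w (q' v) = w (q' v) := by
    intro y w v hv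
    exact if_neg (nq' v hv)
  -- agreement
  have ap : ∀ x w : S → Bool, rel p' q' U' x w → ∀ z ∈ U, x (p z) = w (p z) := by
    intro x w h z hz
    exact h.1 _ fun v hv => ⟨(hd z hz v hv).1, (hd z hz v hv).2.1⟩
  have aq : ∀ x w : S → Bool, rel p' q' U' x w → ∀ z ∈ U, x (q z) = w (q z) := by
    intro x w h z hz
    exact h.1 _ fun v hv => ⟨(hd z hz v hv).2.2.1, (hd z hz v hv).2.2.2⟩
  have ap' : ∀ x y : S → Bool, rel p q U x y → ∀ v ∈ U', x (p' v) = y (p' v) := by
    intro x y h v hv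
    exact h.1 _ fun z hz => ⟨fun e => (hd z hz v hv).1 e.symm, fun e => (hd z hz v hv).2.2.1 e.symm⟩
  have aq' : ∀ x y : S → Bool, rel p q U x y → ∀ v ∈ U', x (q' v) = y (q' v) := by
    intro x y h v hv
    exact h.1 _ fun z hz => ⟨fun e => (hd z hz v hv).2.1 e.symm, fun e => (hd z hz v hv).2.2.2 e.symm⟩
  refine cE_comm_on (r := rel p q U) (s := rel p' q' U') (fun _ => True) (fun _ _ _ _ => trivial)
    (fun _ _ _ _ => trivial) m ?_ ?_ ?_ f x trivial
  · intro x y w _ hy hw
    refine ⟨⟨?_, ?_, ?_⟩, ⟨?_, ?_, ?_⟩⟩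
    · intro e he
      symm
      apply if_neg
      rintro ⟨z, hz, h | h⟩
      · exact (he z hz).1 h
      · exact (he z hz).2 h
    · intro z hz
      rw [mp y w z hz, mq y w z hz, ← ap x w hw z hz, ← aq x w hw z hz]
      exact hy.2.1 z hz
    · calc ∑ z ∈ U, (w (p z)).toNat = ∑ z ∈ U, (x (p z)).toNat :=
            sum_congr rfl fun z hz => by rw [ap x w hw z hz]
        _ = ∑ z ∈ U, (y (p z)).toNat := hy.2.2
        _ = _ := sum_congr rfl fun z hz => by rw [mp y w z hz]
    · intro e he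
      by_cases h : ∃ z ∈ U, e = p z ∨ e = q z
      · exact (if_pos h).symm
      · have h1 : x e = y e := hy.1 e fun z hz =>
          ⟨fun h' => h ⟨z, hz, Or.inl h'⟩, fun h' => h ⟨z, hz, Or.inr h'⟩⟩
        have h2 : x e = w e := hw.1 e he
        rw [← h1, h2]
        exact (if_neg h).symm
    · intro v hv
      rw [mp' y w v hv, mq' y w v hv, ← ap' x y hy v hv, ← aq' x y hy v hv]
      exact hw.2.1 v hv
    · calc ∑ v ∈ U', (y (p' v)).toNat = ∑ v ∈ U', (x (p' v)).toNat :=
            sum_congr rfl fun v hv => by rw [ap' x y hy v hv]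
        _ = ∑ v ∈ U', (w (p' v)).toNat := hw.2.2
        _ = _ := sum_congr rfl fun v hv => by rw [mp' y w v hv]
  · intro x y w _ hy hw
    funext e
    by_cases h : ∃ z ∈ U, e = p z ∨ e = q z
    · have e1 : m x (m y w) e = x e := if_pos h
      rw [e1]
      obtain ⟨z, hz, rfl | rfl⟩ := h
      · exact ap x w hw z hz
      · exact aq x w hw z hz
    · have e1 : m x (m y w) e = m y w e := if_neg h
      rw [e1]
      exact if_neg h
  · intro x y w _ hy hw
    funext e
    by_cases h : ∃ z ∈ U, e = p z ∨ e = q z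
    · have e1 : m (m y w) x e = m y w e := if_pos h
      rw [e1]
      exact if_pos h
    · have e1 : m (m y w) x e = x e := if_neg h
      rw [e1]
      exact hy.1 e fun z hz =>
        ⟨fun h' => h ⟨z, hz, Or.inl h'⟩, fun h' => h ⟨z, hz, Or.inr h'⟩⟩

end Crest.Agent.R299
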