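import Mathlib
import Crest.Agent.R299.Defs

/-!
Row 299, T6: the averages `cE (grel a b)` and `cE (grel c d)` commute on the states whose block
`{a,b} × {c,d}` has exactly one or exactly three edges.
-/

set_option autoImplicit false
open Finset

namespace Crest.Agent.R299

section graph

variable {V : Type*} [Fintype V] [DecidableEq V]

/-- number of edges in the block `{a,b} × {c,d}` -/
def blk (a b c d : V) (x : Sym2 V → Bool) : ℕ :=
  (x s(a, c)).toNat + (x s(a, d)).toNat + (x s(b, c)).toNat + (x s(b, d)).toNat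

namespace Odd

theorem mem_cols {a b z : V} : z ∈ cols a b ↔ z ≠ a ∧ z ≠ b := by
  unfold cols
  simp only [mem_erase, mem_univ, and_true, ne_eq]
  tauto

theorem grel_iff {a b : V} {x y : Sym2 V → Bool} : grel a b x y ↔
    (∀ e, (∀ z ∈ cols a b, e ≠ s(a, z) ∧ e ≠ s(b, z)) → x e = y e) ∧
    (∀ z ∈ cols a b, (x s(a, z)).toNat + (x s(b, z)).toNat
      = (y s(a, z)).toNat + (y s(b, z)).toNat) ∧
    ∑ z ∈ cols a b, (x s(a, z)).toNat = ∑ z ∈ cols a b, (y s(a, z)).toNat := Iff.rfl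

omit [Fintype V] [DecidableEq V] in
theorem blk_swap (a b c d : V) (x : Sym2 V → Bool) : blk c d a b x = blk a b c d x := by
  unfold blk
  rw [Sym2.eq_swap (a := c) (b := a), Sym2.eq_swap (a := c) (b := b),
    Sym2.eq_swap (a := d) (b := a), Sym2.eq_swap (a := d) (b := b)]
  ring

theorem blk_inv' (a b c d : V) (hab : a ≠ b) (hac : a ≠ c) (had : a ≠ d) (hbc : b ≠ c)
    (hbd : b ≠ d) (hcd : c ≠ d) (x y : Sym2 V → Bool) (h : grel a b x y) :
    blk a b c d x = blk a b c d y ∧ blk c d a b x = blk c d a b y := by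
  have h' := grel_iff.mp h
  have hc := h'.2.1 c (mem_cols.mpr ⟨hac.symm, hbc.symm⟩)
  have hd := h'.2.1 d (mem_cols.mpr ⟨had.symm, hbd.symm⟩)
  have h1 : blk a b c d x = blk a b c d y := by
    unfold blk; omega
  exact ⟨h1, by rw [blk_swap a b c d x, blk_swap a b c d y, h1]⟩

/-- block entry rule -/
def bE (t p q r s : Bool) : Bool := if t then (p || q) && (r || s) else (p && q) || (r && s)

/-- mixing of two states -/
def mx (t : Bool) (a b c d : V) (y w : Sym2 V → Bool) : Sym2 V → Bool := fun e =>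
  if e = s(a, c) then bE t (y s(a, c)) (y s(a, d)) (w s(a, c)) (w s(b, c))
  else if e = s(a, d) then bE t (y s(a, c)) (y s(a, d)) (w s(a, d)) (w s(b, d))
  else if e = s(b, c) then bE t (y s(b, c)) (y s(b, d)) (w s(a, c)) (w s(b, c))
  else if e = s(b, d) then bE t (y s(b, c)) (y s(b, d)) (w s(a, d)) (w s(b, d))
  else if (∃ z ∈ cols a b, e = s(a, z) ∨ e = s(b, z)) then y e
  else w e

/-- the number of edges of the block for the rule `t` -/
def tn (t : Bool) : ℕ := if t then 1 else 3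

theorem bool1 : ∀ (t p q r s p' q' r' s' : Bool),
    p.toNat + q.toNat + r.toNat + s.toNat = tn t →
    p'.toNat + q'.toNat + r'.toNat + s'.toNat = tn t →
    (bE t p q p' r').toNat + (bE t r s p' r').toNat = p'.toNat + r'.toNat := by
  decide

theorem bool1' : ∀ (t p q r s p' q' r' s' : Bool),
    p.toNat + q.toNat + r.toNat + s.toNat = tn t →
    p'.toNat + q'.toNat + r'.toNat + s'.toNat = tn t →
    (bE t p q q' s').toNat + (bE t r s q' s').toNat = q'.toNat + s'.toNat := by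
  decide

theorem bool2 : ∀ (t p q r s p' q' r' s' : Bool),
    p.toNat + q.toNat + r.toNat + s.toNat = tn t →
    p'.toNat + q'.toNat + r'.toNat + s'.toNat = tn t →
    (bE t p q p' r').toNat + (bE t p q q' s').toNat = p.toNat + q.toNat := by
  decide

theorem bool3 : ∀ (t p q p' r' p'' q'' r'' s'' : Bool),
    p.toNat + q.toNat = p''.toNat + q''.toNat →
    p'.toNat + r'.toNat = p''.toNat + r''.toNat →
    p''.toNat + q''.toNat + r''.toNat + s''.toNat = tn t →
    bE t p q p' r' = p'' := by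
  decide

theorem bool3' : ∀ (t p q p' r' p'' q'' r'' s'' : Bool),
    p.toNat + q.toNat = r''.toNat + s''.toNat →
    p'.toNat + r'.toNat = p''.toNat + r''.toNat →
    p''.toNat + q''.toNat + r''.toNat + s''.toNat = tn t →
    bE t p q p' r' = r'' := by
  decide

theorem bool3'' : ∀ (t p q p' r' p'' q'' r'' s'' : Bool),
    p.toNat + q.toNat = p''.toNat + q''.toNat →
    p'.toNat + r'.toNat = q''.toNat + s''.toNat →
    p''.toNat + q''.toNat + r''.toNat + s''.toNat = tn t →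
    bE t p q p' r' = q'' := by
  decide

theorem bool3''' : ∀ (t p q p' r' p'' q'' r'' s'' : Bool),
    p.toNat + q.toNat = r''.toNat + s''.toNat →
    p'.toNat + r'.toNat = q''.toNat + s''.toNat →
    p''.toNat + q''.toNat + r''.toNat + s''.toNat = tn t →
    bE t p q p' r' = s'' := by
  decide

section mixing

variable {a b c d : V}

theorem mx_ac {t : Bool} {y w : Sym2 V → Bool} : mx t a b c d y w s(a, c)
    = bE t (y s(a, c)) (y s(a, d)) (w s(a, c)) (w s(b, c)) := by
  simp [mx]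

theorem mx_ad (hcd : c ≠ d) {t : Bool} {y w : Sym2 V → Bool} : mx t a b c d y w s(a, d)
    = bE t (y s(a, c)) (y s(a, d)) (w s(a, d)) (w s(b, d)) := by
  have h1 : s(a, d) ≠ s(a, c) := by
    simp only [ne_eq, Sym2.eq_iff]; grind
  simp [mx, h1]

theorem mx_bc (hab : a ≠ b) (hac : a ≠ c) {t : Bool} {y w : Sym2 V → Bool} :
    mx t a b c d y w s(b, c)
    = bE t (y s(b, c)) (y s(b, d)) (w s(a, c)) (w s(b, c)) := by
  have h1 : s(b, c) ≠ s(a, c) := by
    simp only [ne_eq, Sym2.eq_iff]; grind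
  have h2 : s(b, c) ≠ s(a, d) := by
    simp only [ne_eq, Sym2.eq_iff]; grind
  simp only [mx, if_neg h1, if_neg h2, if_true]

theorem mx_bd (hab : a ≠ b) (had : a ≠ d) (hcd : c ≠ d) (hbc : b ≠ c)
    {t : Bool} {y w : Sym2 V → Bool} :
    mx t a b c d y w s(b, d)
    = bE t (y s(b, c)) (y s(b, d)) (w s(a, d)) (w s(b, d)) := by
  have h1 : s(b, d) ≠ s(a, c) := by
    simp only [ne_eq, Sym2.eq_iff]; grind
  have h2 : s(b, d) ≠ s(a, d) := by
    simp only [ne_eq, Sym2.eq_iff]; grind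
  have h3 : s(b, d) ≠ s(b, c) := by
    simp only [ne_eq, Sym2.eq_iff]; grind
  simp only [mx, if_neg h1, if_neg h2, if_neg h3, if_true]

/-- outside the block -/
theorem mx_az (hac : a ≠ c) (had : a ≠ d) {t : Bool} {y w : Sym2 V → Bool} {z : V}
    (hza : z ≠ a) (hzb : z ≠ b) (hzc : z ≠ c) (hzd : z ≠ d) :
    mx t a b c d y w s(a, z) = y s(a, z) := by
  have h1 : s(a, z) ≠ s(a, c) := by simp only [ne_eq, Sym2.eq_iff]; grind
  have h2 : s(a, z) ≠ s(a, d) := by simp only [ne_eq, Sym2.eq_iff]; grind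
  have h3 : s(a, z) ≠ s(b, c) := by simp only [ne_eq, Sym2.eq_iff]; grind
  have h4 : s(a, z) ≠ s(b, d) := by simp only [ne_eq, Sym2.eq_iff]; grind
  have h5 : ∃ z' ∈ cols a b, s(a, z) = s(a, z') ∨ s(a, z) = s(b, z') :=
    ⟨z, mem_cols.mpr ⟨hza, hzb⟩, Or.inl rfl⟩
  simp only [mx, if_neg h1, if_neg h2, if_neg h3, if_neg h4, if_pos h5]

theorem mx_bz (hbc : b ≠ c) (hbd : b ≠ d) {t : Bool} {y w : Sym2 V → Bool} {z : V}
    (hza : z ≠ a) (hzb : z ≠ b) (hzc : z ≠ c) (hzd : z ≠ d) :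
    mx t a b c d y w s(b, z) = y s(b, z) := by
  have h1 : s(b, z) ≠ s(a, c) := by simp only [ne_eq, Sym2.eq_iff]; grind
  have h2 : s(b, z) ≠ s(a, d) := by simp only [ne_eq, Sym2.eq_iff]; grind
  have h3 : s(b, z) ≠ s(b, c) := by simp only [ne_eq, Sym2.eq_iff]; grind
  have h4 : s(b, z) ≠ s(b, d) := by simp only [ne_eq, Sym2.eq_iff]; grind
  have h5 : ∃ z' ∈ cols a b, s(b, z) = s(a, z') ∨ s(b, z) = s(b, z') :=
    ⟨z, mem_cols.mpr ⟨hza, hzb⟩, Or.inr rfl⟩
  simp only [mx, if_neg h1, if_neg h2, if_neg h3, if_neg h4, if_pos h5]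

/-- off the slots of `a, b` -/
theorem mx_off (hac : a ≠ c) (had : a ≠ d) (hbc : b ≠ c) (hbd : b ≠ d)
    {t : Bool} {y w : Sym2 V → Bool} {e : Sym2 V}
    (he : ∀ z ∈ cols a b, e ≠ s(a, z) ∧ e ≠ s(b, z)) :
    mx t a b c d y w e = w e := by
  have hc := he c (mem_cols.mpr ⟨hac.symm, hbc.symm⟩)
  have hd := he d (mem_cols.mpr ⟨had.symm, hbd.symm⟩)
  have h5 : ¬ ∃ z' ∈ cols a b, e = s(a, z') ∨ e = s(b, z') := by
    rintro ⟨z, hz, h | h⟩
    · exact (he z hz).1 h
    · exact (he z hz).2 h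
  simp only [mx, if_neg hc.1, if_neg hd.1, if_neg hc.2, if_neg hd.2, if_neg h5]

theorem sum_cols (hac : a ≠ c) (had : a ≠ d) (hbc : b ≠ c) (hbd : b ≠ d) (hcd : c ≠ d)
    (F : V → ℕ) : ∑ z ∈ cols a b, F z
      = F c + F d + ∑ z ∈ ((cols a b).erase c).erase d, F z := by
  have hc : c ∈ cols a b := mem_cols.mpr ⟨hac.symm, hbc.symm⟩
  have hd : d ∈ (cols a b).erase c := mem_erase.mpr ⟨hcd.symm, mem_cols.mpr ⟨had.symm, hbd.symm⟩⟩
  rw [← add_sum_erase _ _ hc, ← add_sum_erase _ _ hd, add_assoc]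

/-- off the slots of the pair, related states agree -/
theorem grel_off {x w : Sym2 V → Bool} (h : grel c d x w) {u z : V} (huc : u ≠ c) (hud : u ≠ d)
    (hzc : z ≠ c) (hzd : z ≠ d) : x s(u, z) = w s(u, z) := by
  apply (grel_iff.mp h).1
  intro z' hz'
  simp only [ne_eq, Sym2.eq_iff]
  grind

/-- row sums of the block are preserved by the trades of the other pair -/
theorem grel_row {x w : Sym2 V → Bool} (h : grel c d x w) {u : V} (huc : u ≠ c) (hud : u ≠ d) :
    (x s(u, c)).toNat + (x s(u, d)).toNat = (w s(u, c)).toNat + (w s(u, d)).toNat := by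
  have := (grel_iff.mp h).2.1 u (mem_cols.mpr ⟨huc, hud⟩)
  rwa [Sym2.eq_swap (a := c) (b := u), Sym2.eq_swap (a := d) (b := u)] at this

theorem mx_rel (hab : a ≠ b) (hac : a ≠ c) (had : a ≠ d) (hbc : b ≠ c)
    (hbd : b ≠ d) (hcd : c ≠ d) {t : Bool} {x y w : Sym2 V → Bool}
    (hx : blk a b c d x = tn t) (hy : grel a b x y) (hw : grel c d x w) :
    grel a b w (mx t a b c d y w) := by
  have hyb : blk a b c d y = tn t :=
    ((blk_inv' a b c d hab hac had hbc hbd hcd x y hy).1).symm.trans hx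
  have hwb : blk a b c d w = tn t := by
    have := (blk_inv' c d a b hcd hac.symm hbc.symm had.symm hbd.symm hab x w hw).2
    exact this.symm.trans hx
  have hy' := grel_iff.mp hy
  unfold blk at hyb hwb
  refine grel_iff.mpr ⟨?_, ?_, ?_⟩
  · intro e he
    exact (mx_off hac had hbc hbd he).symm
  · intro z hz
    obtain ⟨hza, hzb⟩ := mem_cols.mp hz
    by_cases hzc : z = c
    · subst hzc
      rw [mx_ac, mx_bc hab hac]
      exact (bool1 t _ _ _ _ _ _ _ _ hyb hwb).symm
    by_cases hzd : z = d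
    · subst hzd
      rw [mx_ad hcd, mx_bd hab had hcd hbc]
      exact (bool1' t _ _ _ _ _ _ _ _ hyb hwb).symm
    rw [mx_az hac had hza hzb hzc hzd, mx_bz hbc hbd hza hzb hzc hzd,
      ← grel_off hw hac had hzc hzd, ← grel_off hw hbc hbd hzc hzd]
    exact hy'.2.1 z hz
  · have h1 := hy'.2.2
    rw [sum_cols hac had hbc hbd hcd, sum_cols hac had hbc hbd hcd] at h1 ⊢
    rw [mx_ac, mx_ad hcd]
    have h2 : ∑ z ∈ ((cols a b).erase c).erase d, (w s(a, z)).toNat
        = ∑ z ∈ ((cols a b).erase c).erase d, (x s(a, z)).toNat := by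
      apply sum_congr rfl
      intro z hz
      simp only [mem_erase] at hz
      rw [grel_off hw hac had hz.2.1 hz.1]
    have h3 : ∑ z ∈ ((cols a b).erase c).erase d, (mx t a b c d y w s(a, z)).toNat
        = ∑ z ∈ ((cols a b).erase c).erase d, (y s(a, z)).toNat := by
      apply sum_congr rfl
      intro z hz
      simp only [mem_erase, mem_cols] at hz
      rw [mx_az hac had hz.2.2.1 hz.2.2.2 hz.2.1 hz.1]
    have h4 := bool2 t _ _ _ _ _ _ _ _ hyb hwb
    have h5 := grel_row hw hac had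
    rw [h2, h3]
    omega

theorem bE_comm : ∀ (t p q r s : Bool), bE t p q r s = bE t r s p q := by decide

theorem mx_symm (hab : a ≠ b) (hac : a ≠ c) (had : a ≠ d) (hbc : b ≠ c)
    (hbd : b ≠ d) (hcd : c ≠ d) {t : Bool} {x y w : Sym2 V → Bool}
    (hy : grel a b x y) (hw : grel c d x w) :
    mx t a b c d y w = mx t c d a b w y := by
  have hy' := grel_iff.mp hy
  have hw' := grel_iff.mp hw
  funext e
  by_cases h1 : ∀ z ∈ cols a b, e ≠ s(a, z) ∧ e ≠ s(b, z)
  · rw [mx_off hac had hbc hbd h1]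
    by_cases h2 : ∀ z ∈ cols c d, e ≠ s(c, z) ∧ e ≠ s(d, z)
    · rw [mx_off hac.symm hbc.symm had.symm hbd.symm h2, ← hy'.1 e h1, ← hw'.1 e h2]
    · push Not at h2
      obtain ⟨z, hz, h2⟩ := h2
      obtain ⟨hzc, hzd⟩ := mem_cols.mp hz
      have hza : z ≠ a := by
        rintro rfl
        by_cases h3 : e = s(c, z)
        · exact (h1 c (mem_cols.mpr ⟨hac.symm, hbc.symm⟩)).1 (h3.trans Sym2.eq_swap)
        · exact (h1 d (mem_cols.mpr ⟨had.symm, hbd.symm⟩)).1 ((h2 h3).trans Sym2.eq_swap)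
      have hzb : z ≠ b := by
        rintro rfl
        by_cases h3 : e = s(c, z)
        · exact (h1 c (mem_cols.mpr ⟨hac.symm, hbc.symm⟩)).2 (h3.trans Sym2.eq_swap)
        · exact (h1 d (mem_cols.mpr ⟨had.symm, hbd.symm⟩)).2 ((h2 h3).trans Sym2.eq_swap)
      by_cases h3 : e = s(c, z)
      · rw [h3, mx_az hac.symm hbc.symm hzc hzd hza hzb]
      · rw [h2 h3, mx_bz had.symm hbd.symm hzc hzd hza hzb]
  · push Not at h1
    obtain ⟨z, hz, h1⟩ := h1
    obtain ⟨hza, hzb⟩ := mem_cols.mp hz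
    by_cases hzc : z = c
    · subst hzc
      by_cases h3 : e = s(a, z)
      · rw [h3, mx_ac, Sym2.eq_swap (a := a) (b := z), mx_ac, bE_comm,
          Sym2.eq_swap (a := b) (b := z), Sym2.eq_swap (a := a) (b := d)]
      · rw [h1 h3, mx_bc hab hac, Sym2.eq_swap (a := b) (b := z), mx_ad hab, bE_comm,
          Sym2.eq_swap (a := a) (b := z), Sym2.eq_swap (a := b) (b := d)]
    by_cases hzd : z = d
    · subst hzd
      by_cases h3 : e = s(a, z)
      · rw [h3, mx_ad hcd, Sym2.eq_swap (a := a) (b := z), mx_bc hcd hac.symm, bE_comm,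
          Sym2.eq_swap (a := b) (b := z), Sym2.eq_swap (a := a) (b := c)]
      · rw [h1 h3, mx_bd hab had hcd hbc, Sym2.eq_swap (a := b) (b := z),
          mx_bd hcd hbc.symm hab had.symm, bE_comm,
          Sym2.eq_swap (a := a) (b := z), Sym2.eq_swap (a := b) (b := c)]
    have hoff : ∀ z' ∈ cols c d, e ≠ s(c, z') ∧ e ≠ s(d, z') := by
      intro z' hz'
      by_cases h3 : e = s(a, z)
      · rw [h3]; simp only [ne_eq, Sym2.eq_iff]; grind
      · rw [h1 h3]; simp only [ne_eq, Sym2.eq_iff]; grind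
    rw [mx_off hac.symm hbc.symm had.symm hbd.symm hoff]
    by_cases h3 : e = s(a, z)
    · rw [h3, mx_az hac had hza hzb hzc hzd]
    · rw [h1 h3, mx_bz hbc hbd hza hzb hzc hzd]

theorem mx_mx (hab : a ≠ b) (hac : a ≠ c) (had : a ≠ d) (hbc : b ≠ c)
    (hbd : b ≠ d) (hcd : c ≠ d) {t : Bool} {x y w : Sym2 V → Bool}
    (hx : blk a b c d x = tn t) (hy : grel a b x y) (hw : grel c d x w) :
    mx t a b c d x (mx t a b c d y w) = w := by
  have hm := grel_iff.mp (mx_rel hab hac had hbc hbd hcd hx hy hw)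
  have hwb : blk a b c d w = tn t := by
    have := (blk_inv' c d a b hcd hac.symm hbc.symm had.symm hbd.symm hab x w hw).2
    exact this.symm.trans hx
  unfold blk at hwb
  have hra := grel_row hw hac had
  have hrb := grel_row hw hbc hbd
  have hcc := hm.2.1 c (mem_cols.mpr ⟨hac.symm, hbc.symm⟩)
  have hcd' := hm.2.1 d (mem_cols.mpr ⟨had.symm, hbd.symm⟩)
  funext e
  by_cases h1 : ∀ z ∈ cols a b, e ≠ s(a, z) ∧ e ≠ s(b, z)
  · rw [mx_off hac had hbc hbd h1, mx_off hac had hbc hbd h1]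
  · push Not at h1
    obtain ⟨z, hz, h1⟩ := h1
    obtain ⟨hza, hzb⟩ := mem_cols.mp hz
    by_cases hzc : z = c
    · subst hzc
      by_cases h3 : e = s(a, z)
      · rw [h3, mx_ac]
        exact bool3 t _ _ _ _ _ _ _ _ hra hcc.symm hwb
      · rw [h1 h3, mx_bc hab hac]
        rw [bool3' t _ _ _ _ _ _ _ _ hrb hcc.symm hwb]
    by_cases hzd : z = d
    · subst hzd
      by_cases h3 : e = s(a, z)
      · rw [h3, mx_ad hcd]
        rw [bool3'' t _ _ _ _ _ _ _ _ hra hcd'.symm hwb]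
      · rw [h1 h3, mx_bd hab had hcd hbc]
        rw [bool3''' t _ _ _ _ _ _ _ _ hrb hcd'.symm hwb]
    by_cases h3 : e = s(a, z)
    · rw [h3, mx_az hac had hza hzb hzc hzd, grel_off hw hac had hzc hzd]
    · rw [h1 h3, mx_bz hbc hbd hza hzb hzc hzd, grel_off hw hbc hbd hzc hzd]

end mixing

theorem cE_comm_blk (a b c d : V) (hab : a ≠ b) (hac : a ≠ c) (had : a ≠ d) (hbc : b ≠ c)
    (hbd : b ≠ d) (hcd : c ≠ d) (f : (Sym2 V → Bool) → ℝ) (x : Sym2 V → Bool) (t : Bool)
    (hx : blk a b c d x = tn t) :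
    cE (grel a b) (cE (grel c d) f) x = cE (grel c d) (cE (grel a b) f) x := by
  apply cE_comm_on (fun x => blk a b c d x = tn t) ?_ ?_ (mx t a b c d) ?_ ?_ ?_ f x hx
  · intro x y hx hy
    exact ((blk_inv' a b c d hab hac had hbc hbd hcd x y hy).1).symm.trans hx
  · intro x y hx hy
    have := (blk_inv' c d a b hcd hac.symm hbc.symm had.symm hbd.symm hab x y hy).2
    exact this.symm.trans hx
  · intro x y w hx hy hw
    refine ⟨mx_rel hab hac had hbc hbd hcd hx hy hw, ?_⟩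
    rw [mx_symm hab hac had hbc hbd hcd hy hw]
    exact mx_rel hcd hac.symm hbc.symm had.symm hbd.symm hab ((blk_swap a b c d x).trans hx) hw hy
  · intro x y w hx hy hw
    exact mx_mx hab hac had hbc hbd hcd hx hy hw
  · intro x y w hx hy hw
    have hm := mx_rel hab hac had hbc hbd hcd hx hy hw
    rw [mx_symm hab hac had hbc hbd hcd hm ((grel c d).symm' hw),
      mx_symm hab hac had hbc hbd hcd hy hw]
    exact mx_mx hcd hac.symm hbc.symm had.symm hbd.symm hab ((blk_swap a b c d x).trans hx) hw hy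

end Odd

theorem blk_inv (a b c d : V) (hab : a ≠ b) (hac : a ≠ c) (had : a ≠ d) (hbc : b ≠ c)
    (hbd : b ≠ d) (hcd : c ≠ d) (x y : Sym2 V → Bool) (h : grel a b x y) :
    blk a b c d x = blk a b c d y ∧ blk c d a b x = blk c d a b y :=
  Odd.blk_inv' a b c d hab hac had hbc hbd hcd x y h

theorem cE_comm_odd (a b c d : V) (hab : a ≠ b) (hac : a ≠ c) (had : a ≠ d) (hbc : b ≠ c)
    (hbd : b ≠ d) (hcd : c ≠ d) (f : (Sym2 V → Bool) → ℝ) (x : Sym2 V → Bool)
    (hx : blk a b c d x = 1 ∨ blk a b c d x = 3) :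
    cE (grel a b) (cE (grel c d) f) x = cE (grel c d) (cE (grel a b) f) x := by
  rcases hx with hx | hx
  · exact Odd.cE_comm_blk a b c d hab hac had hbc hbd hcd f x true hx
  · exact Odd.cE_comm_blk a b c d hab hac had hbc hbd hcd f x false hx

end graph

end Crest.Agent.R299
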