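import Mathlib
import Crest.Agent.R299.Defs
import Crest.Agent.R299.LocalComm
import Crest.Agent.R299.OddBlock

/-!
Row 299, T7: the disjoint pair inequality.
-/

set_option autoImplicit false
set_option linter.unusedSectionVars false
open Finset

namespace Crest.Agent.R299

namespace Disj

/-! ### projections -/

section proj

variable {α : Type*} [Fintype α]

/-- If the two expectations commute on `f`, the fluctuations of `f` have nonnegative inner product. -/
theorem inner_nonneg_of_comm' {r s : Setoid α} (f : α → ℝ)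
    (hc : cE r (cE s f) = cE s (cE r f)) :
    0 ≤ ∑ x, (f x - cE r f x) * (f x - cE s f x) := by
  set g : α → ℝ := fun x => f x - cE s f x with hg
  have hRg : ∀ x, cE r g x = cE r f x - cE s (cE r f) x := by
    intro x; rw [hg, cE_sub, ← hc]
  have h1 : ∑ x, (f x - cE r f x) * g x = ∑ x, (f x - cE r f x) * (g x - cE r g x) := by
    have := sum_inv_mul_sub r f (cE r g) (fun x y hxy => cE_congr hxy)
    have e : ∀ x, (f x - cE r f x) * (g x - cE r g x)
        = (f x - cE r f x) * g x - cE r g x * (f x - cE r f x) := by intro x; ring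
    rw [sum_congr rfl fun x _ => e x, sum_sub_distrib, this, sub_zero]
  have h2 : ∑ x, (f x - cE r f x) * (g x - cE r g x)
      = ∑ x, (g x - cE r g x) ^ 2 := by
    have hk : ∀ x, g x - cE r g x = (f x - cE r f x) - cE s (fun y => f y - cE r f y) x := by
      intro x
      rw [hRg, cE_sub, hg]; ring
    have hz := sum_inv_mul_sub s (fun y => f y - cE r f y) (cE s (fun y => f y - cE r f y))
      (fun x y hxy => cE_congr hxy)
    have e : ∀ x, (f x - cE r f x) * (g x - cE r g x)
        = (g x - cE r g x) ^ 2 + cE s (fun y => f y - cE r f y) x *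
          ((f x - cE r f x) - cE s (fun y => f y - cE r f y) x) := by
      intro x; rw [hk]; ring
    rw [sum_congr rfl fun x _ => e x, sum_add_distrib, hz, add_zero]
  rw [h1, h2]
  exact sum_nonneg fun x _ => sq_nonneg _

/-- Two commuting orthogonal projections. -/
theorem proj_inner_nonneg (P Q : (α → ℝ) → (α → ℝ))
    (hPs : ∀ f g : α → ℝ, ∑ x, P f x * g x = ∑ x, f x * P g x) (hPP : ∀ f, P (P f) = P f)
    (hQs : ∀ f g : α → ℝ, ∑ x, Q f x * g x = ∑ x, f x * Q g x) (hQQ : ∀ f, Q (Q f) = Q f)
    (hc : ∀ f, P (Q f) = Q (P f)) (g : α → ℝ) : 0 ≤ ∑ x, P g x * Q g x := by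
  have h1 : ∑ x, P g x * Q g x = ∑ x, Q (P g) x * Q (P g) x := by
    calc ∑ x, P g x * Q g x = ∑ x, P (P g) x * Q g x := by rw [hPP]
      _ = ∑ x, P g x * P (Q g) x := hPs _ _
      _ = ∑ x, P g x * Q (P g) x := by rw [hc]
      _ = ∑ x, P g x * Q (Q (P g)) x := by rw [hQQ]
      _ = ∑ x, Q (P g) x * Q (P g) x := (hQs _ _).symm
  rw [h1]
  exact sum_nonneg fun x _ => mul_self_nonneg _

theorem symm_sub_cE (r : Setoid α) (f g : α → ℝ) :
    ∑ x, (f x - cE r f x) * g x = ∑ x, f x * (g x - cE r g x) := by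
  simp only [sub_mul, mul_sub, sum_sub_distrib]
  rw [cE_symm]

theorem symm_cE_sub_cE (r s : Setoid α) (f g : α → ℝ) :
    ∑ x, (cE r f x - cE s f x) * g x = ∑ x, f x * (cE r g x - cE s g x) := by
  simp only [sub_mul, mul_sub, sum_sub_distrib]
  rw [cE_symm, cE_symm]

theorem cE_sub' (r : Setoid α) (f g : α → ℝ) :
    cE r (fun y => f y - g y) = fun x => cE r f x - cE r g x := by
  funext x; exact cE_sub r f g x

theorem idem_sub_cE (r : Setoid α) (f : α → ℝ) :
    (fun x => (fun x => f x - cE r f x) x - cE r (fun x => f x - cE r f x) x)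
      = fun x => f x - cE r f x := by
  funext x
  rw [cE_sub', cE_idem]
  ring

theorem idem_cE_sub_cE {r s : Setoid α} (h : r ≤ s) (f : α → ℝ) :
    (fun x => cE r (fun x => cE r f x - cE s f x) x - cE s (fun x => cE r f x - cE s f x) x)
      = fun x => cE r f x - cE s f x := by
  funext x
  rw [cE_sub', cE_sub', cE_idem, cE_idem, cE_cE_of_le h, cE_cE_of_ge h]
  ring

/-- The basic decomposition: with finer relations `r0 ≤ r`, `s0 ≤ s` and commutations. -/
theorem inner_decomp {r s r0 s0 : Setoid α} (hr : r0 ≤ r) (hs : s0 ≤ s)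
    (c1 : ∀ f : α → ℝ, cE r0 (cE s f) = cE s (cE r0 f))
    (c2 : ∀ f : α → ℝ, cE s0 (cE r f) = cE r (cE s0 f))
    (c3 : ∀ f : α → ℝ, cE r0 (cE s0 f) = cE s0 (cE r0 f)) (g : α → ℝ) :
    ∑ x, (cE r0 (cE s0 g) x - cE r (cE r0 (cE s0 g)) x) *
        (cE r0 (cE s0 g) x - cE s (cE r0 (cE s0 g)) x)
      ≤ ∑ x, (g x - cE r g x) * (g x - cE s g x) := by
  -- the four terms
  have t1 : 0 ≤ ∑ x, (g x - cE r0 g x) * (g x - cE s0 g x) :=
    inner_nonneg_of_comm' g (c3 g)
  have t2 : 0 ≤ ∑ x, (g x - cE r0 g x) * (cE s0 g x - cE s g x) := by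
    apply proj_inner_nonneg (fun f x => f x - cE r0 f x) (fun f x => cE s0 f x - cE s f x)
    · exact symm_sub_cE r0
    · exact idem_sub_cE r0
    · exact symm_cE_sub_cE s0 s
    · exact idem_cE_sub_cE hs
    · intro f
      funext x
      simp only [cE_sub', c1, c3]
      ring
  have t3 : 0 ≤ ∑ x, (cE r0 g x - cE r g x) * (g x - cE s0 g x) := by
    have : 0 ≤ ∑ x, (g x - cE s0 g x) * (cE r0 g x - cE r g x) := by
      apply proj_inner_nonneg (fun f x => f x - cE s0 f x) (fun f x => cE r0 f x - cE r f x)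
      · exact symm_sub_cE s0
      · exact idem_sub_cE s0
      · exact symm_cE_sub_cE r0 r
      · exact idem_cE_sub_cE hr
      · intro f
        funext x
        simp only [cE_sub', c2, c3]
        ring
    rw [sum_congr rfl fun x _ => mul_comm _ _]
    exact this
  have t4 : ∑ x, (cE r0 g x - cE r g x) * (cE s0 g x - cE s g x)
      = ∑ x, (cE r0 (cE s0 g) x - cE r (cE r0 (cE s0 g)) x) *
        (cE r0 (cE s0 g) x - cE s (cE r0 (cE s0 g)) x) := by
    -- insert `s0` then `r0`
    have e1 : ∀ u : α → ℝ, ∑ x, u x * (cE s0 g x - cE s g x)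
        = ∑ x, cE s0 u x * (cE s0 g x - cE s g x) := by
      intro u
      have := cE_symm s0 (fun x => cE s0 g x - cE s g x) u
      rw [cE_sub', cE_idem, cE_cE_of_le hs] at this
      exact this
    have e2 : ∀ u : α → ℝ, ∑ x, (cE r0 u x - cE r u x) * (cE s0 g x - cE s g x)
        = ∑ x, (cE r0 u x - cE r u x) * cE r0 (fun x => cE s0 g x - cE s g x) x := by
      intro u
      have := cE_symm r0 (fun x => cE s0 g x - cE s g x) (fun x => cE r0 u x - cE r u x)
      rw [this]
      rw [cE_sub', cE_idem, cE_cE_of_le hr]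
    rw [e1]
    have e3 : cE s0 (fun x => cE r0 g x - cE r g x)
        = fun x => cE r0 (cE s0 g) x - cE r (cE s0 g) x := by
      rw [cE_sub', c2, c3]
    rw [e3, e2]
    apply sum_congr rfl
    intro x _
    rw [cE_sub', c1, cE_cE_of_ge hr]
    have e4 : cE s (cE r0 (cE s0 g)) = cE s (cE r0 g) := by
      rw [c3, cE_cE_of_ge hs]
    rw [e4]
  have expand : ∀ x, (g x - cE r g x) * (g x - cE s g x)
      = (g x - cE r0 g x) * (g x - cE s0 g x) + (g x - cE r0 g x) * (cE s0 g x - cE s g x)
        + (cE r0 g x - cE r g x) * (g x - cE s0 g x)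
        + (cE r0 g x - cE r g x) * (cE s0 g x - cE s g x) := by
    intro x; ring
  rw [sum_congr rfl fun x _ => expand x, sum_add_distrib, sum_add_distrib, sum_add_distrib, t4]
  linarith

/-- Restriction of the nonnegativity of the inner product to an invariant set on which the two
expectations commute. -/
theorem inner_nonneg_on {r s : Setoid α} (P : α → Prop) [DecidablePred P]
    (hPr : ∀ x y, P x → r x y → P y) (hPs : ∀ x y, P x → s x y → P y) (f : α → ℝ)
    (hc : ∀ (g : α → ℝ) x, P x → cE r (cE s g) x = cE s (cE r g) x) :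
    0 ≤ ∑ x, if P x then (f x - cE r f x) * (f x - cE s f x) else 0 := by
  set F : α → ℝ := fun x => if P x then f x else 0 with hF
  have key : ∀ (t : Setoid α), (∀ x y, P x → t x y → P y) → ∀ (h : α → ℝ) (x : α),
      cE t (fun x => if P x then h x else 0) x = if P x then cE t h x else 0 := by
    intro t ht h x
    have e : (fun x => if P x then h x else 0) = fun x => (if P x then (1 : ℝ) else 0) * h x := by
      funext x; split_ifs <;> simp
    rw [e, cE_mul_inv (g := fun x => if P x then (1 : ℝ) else 0)]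
    · split_ifs <;> simp
    · intro y hy
      by_cases hx : P x
      · simp [hx, ht x y hx hy]
      · have : ¬ P y := fun h' => hx (ht y x h' (t.symm' hy))
        simp [hx, this]
  have hcomm : cE r (cE s F) = cE s (cE r F) := by
    funext x
    have e1 : cE s F = fun x => if P x then cE s f x else 0 := by
      funext y; exact key s hPs f y
    have e2 : cE r F = fun x => if P x then cE r f x else 0 := by
      funext y; exact key r hPr f y
    rw [e1, e2, key r hPr, key s hPs]
    split_ifs with hx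
    · exact hc f x hx
    · rfl
  have := inner_nonneg_of_comm' F hcomm
  refine this.trans (le_of_eq (sum_congr rfl fun x _ => ?_))
  rw [hF, key r hPr, key s hPs]
  by_cases hx : P x <;> simp [hx]

end proj

/-! ### slots -/

section slots

variable {κ S : Type*} [DecidableEq κ] [DecidableEq S]

theorem toNat_inj' {a b : Bool} (h : a.toNat = b.toNat) : a = b := by
  cases a <;> cases b <;> simp_all

/-- a finer relation: fewer columns -/
theorem rel_mono {p q : κ → S} {U0 U : Finset κ} (h : U0 ⊆ U) (hp : Set.InjOn p U)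
    (hq : Set.InjOn q U) (hpq : ∀ z ∈ U, ∀ w ∈ U, p z ≠ q w) : rel p q U0 ≤ rel p q U := by
  intro x y hxy
  rw [rel_iff] at hxy ⊢
  obtain ⟨h1, h2, h3⟩ := hxy
  have hout : ∀ z ∈ U, z ∉ U0 → x (p z) = y (p z) ∧ x (q z) = y (q z) := by
    intro z hz hz0
    constructor
    · apply h1
      intro w hw
      refine ⟨fun h' => hz0 ?_, fun h' => ?_⟩
      · rw [hp hz (h hw) h']; exact hw
      · exact hpq z hz w (h hw) h'
    · apply h1
      intro w hw
      refine ⟨fun h' => ?_, fun h' => hz0 ?_⟩
      · exact hpq w (h hw) z hz h'.symm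
      · rw [hq hz (h hw) h']; exact hw
  refine ⟨fun e he => h1 e fun z hz => he z (h hz), ?_, ?_⟩
  · intro z hz
    by_cases hz0 : z ∈ U0
    · exact h2 z hz0
    · rw [(hout z hz hz0).1, (hout z hz hz0).2]
  · rw [← sum_sdiff h, ← sum_sdiff h (f := fun z => (y (p z)).toNat), h3]
    congr 1
    apply sum_congr rfl
    intro z hz
    rw [mem_sdiff] at hz
    rw [(hout z hz.1 hz.2).1]

/-- restriction of the relation to fewer columns when the states agree on the other columns -/
theorem rel_restrict {p q : κ → S} {U0 U : Finset κ} (h : U0 ⊆ U) {x y : S → Bool}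
    (hxy : rel p q U x y) (hout : ∀ z ∈ U, z ∉ U0 → x (p z) = y (p z) ∧ x (q z) = y (q z)) :
    rel p q U0 x y := by
  rw [rel_iff] at hxy ⊢
  obtain ⟨h1, h2, h3⟩ := hxy
  refine ⟨?_, fun z hz => h2 z (h hz), ?_⟩
  · intro e he
    by_cases hU : ∀ z ∈ U, e ≠ p z ∧ e ≠ q z
    · exact h1 e hU
    · push Not at hU
      obtain ⟨z, hz, hez⟩ := hU
      have hz0 : z ∉ U0 := fun hz0 => by
        obtain ⟨h4, h5⟩ := he z hz0
        exact h5 (hez h4)
      by_cases hep : e = p z
      · rw [hep]; exact (hout z hz hz0).1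
      · rw [hez hep]; exact (hout z hz hz0).2
  · rw [← sum_sdiff h, ← sum_sdiff h (f := fun z => (y (p z)).toNat)] at h3
    have : ∑ z ∈ U \ U0, (x (p z)).toNat = ∑ z ∈ U \ U0, (y (p z)).toNat := by
      apply sum_congr rfl
      intro z hz
      rw [mem_sdiff] at hz
      rw [(hout z hz.1 hz.2).1]
    omega

omit [DecidableEq κ] in
theorem sw_apply_of_not {p q : κ → S} {c d : κ} {x : S → Bool} (h : ¬ Osep p q c d x) :
    sw p q c d x = x := by
  funext e; unfold sw; rw [if_neg]; tauto

omit [DecidableEq κ] in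
theorem Osep_sw {p q : κ → S} {c d : κ} {x : S → Bool} :
    Osep p q c d (sw p q c d x) ↔ Osep p q c d x := by
  by_cases h : Osep p q c d x
  · have h' := h
    unfold Osep at h ⊢
    have e1 : sw p q c d x (p c) = !(x (p c)) := by unfold sw; rw [if_pos ⟨h', by tauto⟩]
    have e2 : sw p q c d x (p d) = !(x (p d)) := by unfold sw; rw [if_pos ⟨h', by tauto⟩]
    have e3 : sw p q c d x (q c) = !(x (q c)) := by unfold sw; rw [if_pos ⟨h', by tauto⟩]
    have e4 : sw p q c d x (q d) = !(x (q d)) := by unfold sw; rw [if_pos ⟨h', by tauto⟩]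
    rw [e1, e2, e3, e4]
    obtain ⟨h1, h2, h3⟩ := h
    constructor
    · intro _
      exact ⟨h1, h2, h3⟩
    · intro _
      refine ⟨by rw [h1], by rw [h2], ?_⟩
      intro h4
      exact h3 (by simpa using h4)
  · rw [sw_apply_of_not h]

theorem sw_sw (p q : κ → S) (c d : κ) (x : S → Bool) : sw p q c d (sw p q c d x) = x := by
  by_cases h : Osep p q c d x
  · have h' : Osep p q c d (sw p q c d x) := Osep_sw.mpr h
    funext e
    unfold sw at h' ⊢
    by_cases he : e = p c ∨ e = p d ∨ e = q c ∨ e = q d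
    · rw [if_pos ⟨h', he⟩, if_pos ⟨h, he⟩, Bool.not_not]
    · rw [if_neg (by tauto), if_neg (by tauto)]
  · rw [sw_apply_of_not h, sw_apply_of_not h]

/-- the switch as a permutation -/
def swP (p q : κ → S) (c d : κ) : Equiv.Perm (S → Bool) where
  toFun := sw p q c d
  invFun := sw p q c d
  left_inv := sw_sw p q c d
  right_inv := sw_sw p q c d

@[simp] theorem swP_apply (p q : κ → S) (c d : κ) (x : S → Bool) :
    swP p q c d x = sw p q c d x := rfl

theorem rel_sw {p q : κ → S} {U : Finset κ} (hp : Set.InjOn p U) (hq : Set.InjOn q U)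
    (hpq : ∀ z ∈ U, ∀ w ∈ U, p z ≠ q w) {c d : κ} (hc : c ∈ U) (hd : d ∈ U) (x : S → Bool) :
    rel p q U x (sw p q c d x) := by
  by_cases h : Osep p q c d x
  · have h' := h
    obtain ⟨h1, h2, h3⟩ := h
    have hcd : c ≠ d := by rintro rfl; exact h3 rfl
    have e1 : sw p q c d x (p c) = !(x (p c)) := by unfold sw; rw [if_pos ⟨h', by tauto⟩]
    have e2 : sw p q c d x (p d) = !(x (p d)) := by unfold sw; rw [if_pos ⟨h', by tauto⟩]
    have e3 : sw p q c d x (q c) = !(x (q c)) := by unfold sw; rw [if_pos ⟨h', by tauto⟩]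
    have e4 : sw p q c d x (q d) = !(x (q d)) := by unfold sw; rw [if_pos ⟨h', by tauto⟩]
    have e5 : ∀ z ∈ U, z ≠ c → z ≠ d → sw p q c d x (p z) = x (p z) := by
      intro z hz hzc hzd
      unfold sw
      rw [if_neg]
      rintro ⟨_, h | h | h | h⟩
      · exact hzc (hp hz hc h)
      · exact hzd (hp hz hd h)
      · exact hpq z hz c hc h
      · exact hpq z hz d hd h
    have e6 : ∀ z ∈ U, z ≠ c → z ≠ d → sw p q c d x (q z) = x (q z) := by
      intro z hz hzc hzd
      unfold sw
      rw [if_neg]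
      rintro ⟨_, h | h | h | h⟩
      · exact hpq c hc z hz h.symm
      · exact hpq d hd z hz h.symm
      · exact hzc (hq hz hc h)
      · exact hzd (hq hz hd h)
    rw [rel_iff]
    refine ⟨?_, ?_, ?_⟩
    · intro e he
      unfold sw
      rw [if_neg]
      rintro ⟨_, h | h | h | h⟩
      · exact (he c hc).1 h
      · exact (he d hd).1 h
      · exact (he c hc).2 h
      · exact (he d hd).2 h
    · intro z hz
      by_cases hzc : z = c
      · subst hzc
        rw [e1, e3, ← h2]
        revert h3
        cases x (p z) <;> cases x (p d) <;> simp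
      · by_cases hzd : z = d
        · subst hzd
          rw [e2, e4, ← h1]
          revert h3
          cases x (p c) <;> cases x (p z) <;> simp
        · rw [e5 z hz hzc hzd, e6 z hz hzc hzd]
    · have hd' : d ∈ U.erase c := mem_erase.mpr ⟨hcd.symm, hd⟩
      rw [← add_sum_erase U _ hc, ← add_sum_erase (U.erase c) _ hd',
        ← add_sum_erase U (fun z => (sw p q c d x (p z)).toNat) hc,
        ← add_sum_erase (U.erase c) (fun z => (sw p q c d x (p z)).toNat) hd']
      have : ∑ z ∈ (U.erase c).erase d, (sw p q c d x (p z)).toNat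
          = ∑ z ∈ (U.erase c).erase d, (x (p z)).toNat := by
        apply sum_congr rfl
        intro z hz
        simp only [mem_erase] at hz
        rw [e5 z hz.2.2 hz.2.1 hz.1]
      simp only [this, e1, e2]
      revert h3
      cases x (p c) <;> cases x (p d) <;> simp
  · rw [sw_apply_of_not h]

end slots

/-! ### graphs -/

section graph

variable {V : Type*} [Fintype V] [DecidableEq V]

/-- four distinct vertices -/
structure D4 (a b c d : V) : Prop where
  hab : a ≠ b
  hac : a ≠ c
  had : a ≠ d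
  hbc : b ≠ c
  hbd : b ≠ d
  hcd : c ≠ d

omit [Fintype V] [DecidableEq V] in
theorem D4.swap {a b c d : V} (h : D4 a b c d) : D4 c d a b :=
  ⟨h.hcd, h.hac.symm, h.hbc.symm, h.had.symm, h.hbd.symm, h.hab⟩

/-- the columns outside of the block -/
def cols0 (a b c d : V) : Finset V := univ.filter fun z => z ≠ a ∧ z ≠ b ∧ z ≠ c ∧ z ≠ d

/-- the trade relation of `a`, `b` on the columns outside of `{c, d}` -/
def grel0 (a b c d : V) : Setoid (Sym2 V → Bool) :=
  rel (fun z => s(a, z)) (fun z => s(b, z)) (cols0 a b c d)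

theorem mem_cols0 {a b c d z : V} : z ∈ cols0 a b c d ↔ z ≠ a ∧ z ≠ b ∧ z ≠ c ∧ z ≠ d := by
  simp [cols0]

theorem mem_cols' {a b z : V} : z ∈ cols a b ↔ z ≠ a ∧ z ≠ b := by
  simp [cols, and_comm]

theorem cols0_sub (a b c d : V) : cols0 a b c d ⊆ cols a b := by
  intro z hz
  rw [mem_cols0] at hz
  rw [mem_cols']
  exact ⟨hz.1, hz.2.1⟩

omit [Fintype V] [DecidableEq V] in
theorem injOn_slot (a : V) (U : Finset V) : Set.InjOn (fun z => s(a, z)) (U : Set V) := by
  intro z _ w _ h
  exact Sym2.congr_right.mp h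

theorem slot_ne {a b : V} (hab : a ≠ b) :
    ∀ z ∈ cols a b, ∀ w ∈ cols a b, s(a, z) ≠ s(b, w) := by
  intro z hz w hw h
  rw [mem_cols'] at hz hw
  rw [Sym2.eq_iff] at h
  rcases h with h | h
  · exact hab h.1
  · exact hz.2 h.2

theorem grel0_le {a b c d : V} (h : D4 a b c d) : grel0 a b c d ≤ grel a b :=
  rel_mono (cols0_sub a b c d) (injOn_slot a _) (injOn_slot b _) (slot_ne h.hab)

theorem comm1 {a b c d : V} (h : D4 a b c d) (f : (Sym2 V → Bool) → ℝ) :
    cE (grel0 a b c d) (cE (grel c d) f) = cE (grel c d) (cE (grel0 a b c d) f) := by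
  apply cE_comm_rel
  intro z hz w hw
  rw [mem_cols0] at hz
  obtain ⟨_, _, h3, h4⟩ := hz
  obtain ⟨hab, hac, had, hbc, hbd, hcd⟩ := h
  simp only [ne_eq, Sym2.eq_iff, not_or, not_and]
  tauto

theorem comm3 {a b c d : V} (h : D4 a b c d) (f : (Sym2 V → Bool) → ℝ) :
    cE (grel0 a b c d) (cE (grel0 c d a b) f) = cE (grel0 c d a b) (cE (grel0 a b c d) f) := by
  apply cE_comm_rel
  intro z hz w hw
  rw [mem_cols0] at hz
  obtain ⟨_, _, h3, h4⟩ := hz
  obtain ⟨hab, hac, had, hbc, hbd, hcd⟩ := h
  simp only [ne_eq, Sym2.eq_iff, not_or, not_and]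
  tauto

/-- separated block -/
abbrev OO (a b c d : V) (x : Sym2 V → Bool) : Prop :=
  Osep (fun z => s(a, z)) (fun z => s(b, z)) c d x

/-- switch of the block -/
abbrev tt (a b c d : V) (x : Sym2 V → Bool) : Sym2 V → Bool :=
  sw (fun z => s(a, z)) (fun z => s(b, z)) c d x

theorem OO_swap (a b c d : V) (x : Sym2 V → Bool) : OO a b c d x ↔ OO c d a b x := by
  unfold OO Osep
  beta_reduce
  rw [Sym2.eq_swap (a := c) (b := a), Sym2.eq_swap (a := d) (b := b),
    Sym2.eq_swap (a := c) (b := b), Sym2.eq_swap (a := d) (b := a)]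
  cases x s(a, c) <;> cases x s(a, d) <;> cases x s(b, c) <;> cases x s(b, d) <;> simp

theorem tt_swap (a b c d : V) (x : Sym2 V → Bool) : tt a b c d x = tt c d a b x := by
  funext e
  unfold tt sw
  have h1 := OO_swap a b c d x
  unfold OO at h1
  beta_reduce
  rw [Sym2.eq_swap (a := c) (b := a), Sym2.eq_swap (a := d) (b := b),
    Sym2.eq_swap (a := c) (b := b), Sym2.eq_swap (a := d) (b := a)]
  by_cases h : Osep (fun z => s(a, z)) (fun z => s(b, z)) c d x
  · have h' := h1.mp h
    simp only [h, h', true_and]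
    congr 1
    apply propext
    tauto
  · have h' : ¬ Osep (fun z => s(c, z)) (fun z => s(d, z)) a b x := fun h2 => h (h1.mpr h2)
    simp only [h, h', false_and]

theorem grel_tt {a b c d : V} (h : D4 a b c d) (x : Sym2 V → Bool) :
    grel a b x (tt a b c d x) := by
  apply rel_sw (injOn_slot a _) (injOn_slot b _) (slot_ne h.hab)
  · rw [mem_cols']; exact ⟨h.hac.symm, h.hbc.symm⟩
  · rw [mem_cols']; exact ⟨h.had.symm, h.hbd.symm⟩

/-- the even part -/
noncomputable def ev (a b c d : V) (f : (Sym2 V → Bool) → ℝ) (x : Sym2 V → Bool) : ℝ :=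
  (f x + f (tt a b c d x)) / 2

theorem ev_swap (a b c d : V) (f : (Sym2 V → Bool) → ℝ) : ev a b c d f = ev c d a b f := by
  funext x
  unfold ev
  rw [tt_swap]

theorem cE_ev {a b c d : V} (h : D4 a b c d) (f : (Sym2 V → Bool) → ℝ) :
    cE (grel a b) (ev a b c d f) = cE (grel a b) f := by
  funext x
  have h1 := cE_comp_of_rel (r := grel a b) (swP (fun z => s(a, z)) (fun z => s(b, z)) c d)
    (fun x => grel_tt h x) f x
  have h2 : ev a b c d f = fun x => (1 / 2) * (f x + f (tt a b c d x)) := by
    funext y; unfold ev; ring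
  rw [h2, cE_mul_const, cE_add]
  have h3 : cE (grel a b) (fun y => f (tt a b c d y)) x = cE (grel a b) f x := h1
  rw [h3]
  ring

theorem inner_ev {a b c d : V} (h : D4 a b c d) (f : (Sym2 V → Bool) → ℝ) :
    ∑ x, hh a b f x * hh c d f x =
      (1 / 4) * en (fun z => s(a, z)) (fun z => s(b, z)) c d f
      + ∑ x, (ev a b c d f x - cE (grel a b) (ev a b c d f) x) *
          (ev a b c d f x - cE (grel c d) (ev a b c d f) x) := by
  have e1 := cE_ev h f
  have e2 : cE (grel c d) (ev a b c d f) = cE (grel c d) f := by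
    rw [ev_swap, cE_ev h.swap]
  rw [e1, e2]
  have iR : ∀ x, cE (grel a b) f (tt a b c d x) = cE (grel a b) f x :=
    fun x => (cE_congr (grel_tt h x)).symm
  have iS : ∀ x, cE (grel c d) f (tt a b c d x) = cE (grel c d) f x := by
    intro x
    rw [tt_swap]
    exact (cE_congr (grel_tt h.swap x)).symm
  have hsum : ∀ F : (Sym2 V → Bool) → ℝ, ∑ x, F (tt a b c d x) = ∑ x, F x :=
    fun F => Equiv.sum_comp (swP (fun z => s(a, z)) (fun z => s(b, z)) c d) F
  have itt : ∀ x, tt a b c d (tt a b c d x) = x := fun x => sw_sw _ _ _ _ x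
  set X : (Sym2 V → Bool) → ℝ := fun x => (f x - f (tt a b c d x)) / 2 *
    (f x + f (tt a b c d x) - cE (grel a b) f x - cE (grel c d) f x) with hX
  have hX0 : ∑ x, X x = 0 := by
    have h1 := hsum X
    have h2 : ∀ x, X (tt a b c d x) = - X x := by
      intro x
      simp only [hX]
      rw [iR, iS, itt]
      ring
    rw [sum_congr rfl fun x _ => h2 x, sum_neg_distrib] at h1
    linarith
  have h3 : ∀ x, hh a b f x * hh c d f x = (1 / 4) * (f x - f (tt a b c d x)) ^ 2
      + (ev a b c d f x - cE (grel a b) f x) * (ev a b c d f x - cE (grel c d) f x) + X x := by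
    intro x
    simp only [hh, ev, hX]
    ring
  rw [sum_congr rfl fun x _ => h3 x, sum_add_distrib, sum_add_distrib, hX0, ← mul_sum]
  simp only [en]
  ring

theorem frozen {a b c d : V} {x y : Sym2 V → Bool} (hc : x s(a, c) = x s(b, c))
    (hd : x s(a, d) = x s(b, d)) (hxy : grel a b x y) : grel0 a b c d x y := by
  apply rel_restrict (cols0_sub a b c d) hxy
  intro z hz hz0
  have hzz : z = c ∨ z = d := by
    rw [mem_cols'] at hz
    rw [mem_cols0] at hz0
    tauto
  have h2 := (rel_iff.mp hxy).2.1 z hz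
  beta_reduce at h2 ⊢
  rcases hzz with rfl | rfl
  · revert h2 hc
    cases x s(a, z) <;> cases x s(b, z) <;> cases y s(a, z) <;> cases y s(b, z) <;> simp
  · revert h2 hd
    cases x s(a, z) <;> cases x s(b, z) <;> cases y s(a, z) <;> cases y s(b, z) <;> simp

theorem grel0_block {a b c d : V} (h : D4 a b c d) {x y : Sym2 V → Bool}
    (hxy : grel0 a b c d x y) :
    x s(a, c) = y s(a, c) ∧ x s(a, d) = y s(a, d) ∧ x s(b, c) = y s(b, c) ∧
      x s(b, d) = y s(b, d) := by
  have h1 := (rel_iff.mp hxy).1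
  obtain ⟨hab, hac, had, hbc, hbd, hcd⟩ := h
  refine ⟨h1 _ ?_, h1 _ ?_, h1 _ ?_, h1 _ ?_⟩ <;>
  · intro z hz
    rw [mem_cols0] at hz
    obtain ⟨h1, h2, h3, h4⟩ := hz
    simp only [ne_eq, Sym2.eq_iff, not_or, not_and]
    constructor <;> constructor <;> intro h5 h6 <;> simp_all

theorem OO_grel0 {a b c d : V} (h : D4 a b c d) {x y : Sym2 V → Bool}
    (hxy : grel0 a b c d x y) : OO a b c d x ↔ OO a b c d y := by
  obtain ⟨h1, h2, h3, h4⟩ := grel0_block h hxy
  unfold OO Osep
  beta_reduce
  rw [h1, h2, h3, h4]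

theorem OO_grel0' {a b c d : V} (h : D4 a b c d) {x y : Sym2 V → Bool}
    (hxy : grel0 c d a b x y) : OO a b c d x ↔ OO a b c d y := by
  rw [OO_swap, OO_swap a b c d y]
  exact OO_grel0 h.swap hxy

theorem tt_block {a b c d : V} {x : Sym2 V → Bool} (hx : OO a b c d x) :
    tt a b c d x s(a, c) = !(x s(a, c)) ∧ tt a b c d x s(a, d) = !(x s(a, d)) ∧
    tt a b c d x s(b, c) = !(x s(b, c)) ∧ tt a b c d x s(b, d) = !(x s(b, d)) := by
  unfold OO at hx
  refine ⟨?_, ?_, ?_, ?_⟩ <;>
  · unfold tt sw
    rw [if_pos ⟨hx, by tauto⟩]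

/-- a related state with the same block -/
theorem grel0_of_block {a b c d : V} {x y : Sym2 V → Bool} (hxy : grel a b x y)
    (h1 : x s(a, c) = y s(a, c)) (h2 : x s(a, d) = y s(a, d)) (h3 : x s(b, c) = y s(b, c))
    (h4 : x s(b, d) = y s(b, d)) : grel0 a b c d x y := by
  apply rel_restrict (cols0_sub a b c d) hxy
  intro z hz hz0
  have hzz : z = c ∨ z = d := by
    rw [mem_cols'] at hz
    rw [mem_cols0] at hz0
    tauto
  rcases hzz with rfl | rfl
  · exact ⟨h1, h3⟩
  · exact ⟨h2, h4⟩

open Classical in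
theorem filter_OO {a b c d : V} (h : D4 a b c d) {x : Sym2 V → Bool} (hx : OO a b c d x) :
    (cls (grel a b) x).filter (fun y => OO a b c d y) =
      cls (grel0 a b c d) x ∪ (cls (grel0 a b c d) x).map
        (swP (fun z => s(a, z)) (fun z => s(b, z)) c d).toEmbedding := by
  ext y
  simp only [mem_filter, mem_cls, mem_union, mem_map, Equiv.coe_toEmbedding, swP_apply]
  constructor
  · rintro ⟨hxy, hy⟩
    by_cases hb : x s(a, c) = y s(a, c)
    · left
      have hx' := hx
      unfold OO Osep at hx' hy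
      beta_reduce at hx' hy
      apply grel0_of_block hxy hb
      · revert hx' hy hb
        cases x s(a, c) <;> cases x s(a, d) <;> cases x s(b, c) <;> cases x s(b, d) <;>
          cases y s(a, c) <;> cases y s(a, d) <;> cases y s(b, c) <;> cases y s(b, d) <;> simp
      · revert hx' hy hb
        cases x s(a, c) <;> cases x s(a, d) <;> cases x s(b, c) <;> cases x s(b, d) <;>
          cases y s(a, c) <;> cases y s(a, d) <;> cases y s(b, c) <;> cases y s(b, d) <;> simp
      · revert hx' hy hb
        cases x s(a, c) <;> cases x s(a, d) <;> cases x s(b, c) <;> cases x s(b, d) <;>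
          cases y s(a, c) <;> cases y s(a, d) <;> cases y s(b, c) <;> cases y s(b, d) <;> simp
    · right
      refine ⟨tt a b c d y, ?_, sw_sw _ _ _ _ y⟩
      have hxy' : grel a b x (tt a b c d y) := (grel a b).trans' hxy (grel_tt h y)
      obtain ⟨b1, b2, b3, b4⟩ := tt_block hy
      have hx' := hx
      unfold OO Osep at hx' hy
      beta_reduce at hx' hy
      apply grel0_of_block hxy'
      · rw [b1]
        revert hx' hy hb
        cases x s(a, c) <;> cases x s(a, d) <;> cases x s(b, c) <;> cases x s(b, d) <;>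
          cases y s(a, c) <;> cases y s(a, d) <;> cases y s(b, c) <;> cases y s(b, d) <;> simp
      · rw [b2]
        revert hx' hy hb
        cases x s(a, c) <;> cases x s(a, d) <;> cases x s(b, c) <;> cases x s(b, d) <;>
          cases y s(a, c) <;> cases y s(a, d) <;> cases y s(b, c) <;> cases y s(b, d) <;> simp
      · rw [b3]
        revert hx' hy hb
        cases x s(a, c) <;> cases x s(a, d) <;> cases x s(b, c) <;> cases x s(b, d) <;>
          cases y s(a, c) <;> cases y s(a, d) <;> cases y s(b, c) <;> cases y s(b, d) <;> simp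
      · rw [b4]
        revert hx' hy hb
        cases x s(a, c) <;> cases x s(a, d) <;> cases x s(b, c) <;> cases x s(b, d) <;>
          cases y s(a, c) <;> cases y s(a, d) <;> cases y s(b, c) <;> cases y s(b, d) <;> simp
  · rintro (hxy | ⟨w, hw, rfl⟩)
    · exact ⟨grel0_le h hxy, (OO_grel0 h hxy).mp hx⟩
    · refine ⟨(grel a b).trans' (grel0_le h hw) (grel_tt h w), ?_⟩
      exact Osep_sw.mpr ((OO_grel0 h hw).mp hx)

open Classical in
theorem disj_OO {a b c d : V} (h : D4 a b c d) {x : Sym2 V → Bool} (hx : OO a b c d x) :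
    Disjoint (cls (grel0 a b c d) x) ((cls (grel0 a b c d) x).map
        (swP (fun z => s(a, z)) (fun z => s(b, z)) c d).toEmbedding) := by
  rw [disjoint_left]
  intro y hy hy'
  simp only [mem_cls, mem_map, Equiv.coe_toEmbedding, swP_apply] at hy hy'
  obtain ⟨w, hw, rfl⟩ := hy'
  have h1 := (grel0_block h hy).1
  have h2 := (grel0_block h hw).1
  have h3 := (tt_block ((OO_grel0 h hw).mp hx)).1
  rw [h1] at h2
  have h4 : tt a b c d w s(a, c) = w s(a, c) := h2
  rw [h4] at h3
  revert h3
  cases w s(a, c) <;> simp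

/-- on the separated part, the fine average of the even part is the average over the separated part
of the class -/
theorem cE0_ev {a b c d : V} (h : D4 a b c d) (f : (Sym2 V → Bool) → ℝ) {x : Sym2 V → Bool}
    (hx : OO a b c d x) :
    cE (grel0 a b c d) (ev a b c d f) x =
      avO (grel a b) (fun z => s(a, z)) (fun z => s(b, z)) c d f x := by
  classical
  have h1 := filter_OO h hx
  have h2 := disj_OO h hx
  have h3 : (cls (grel a b) x).filter
      (fun y => Osep (fun z => s(a, z)) (fun z => s(b, z)) c d y) =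
      cls (grel0 a b c d) x ∪ (cls (grel0 a b c d) x).map
        (swP (fun z => s(a, z)) (fun z => s(b, z)) c d).toEmbedding := by
    rw [← h1]
  have hcard := card_cls_ne (grel0 a b c d) x
  unfold avO cE
  rw [filter_congr_decidable, h3, sum_union h2, card_union_of_disjoint h2, card_map, sum_map]
  simp only [Equiv.coe_toEmbedding, swP_apply]
  rw [← sum_add_distrib]
  simp only [ev]
  rw [← sum_div]
  push_cast
  field_simp
  ring

/-- the smoothed even part -/
noncomputable def FF (a b c d : V) (f : (Sym2 V → Bool) → ℝ) : (Sym2 V → Bool) → ℝ :=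
  cE (grel0 a b c d) (cE (grel0 c d a b) (ev a b c d f))

theorem FF_swap {a b c d : V} (h : D4 a b c d) (f : (Sym2 V → Bool) → ℝ) :
    FF a b c d f = FF c d a b f := by
  unfold FF
  rw [comm3 h, ev_swap]

/-- on the separated part, `F - R F` is a fine average of the mean discrepancy -/
theorem FF_sub {a b c d : V} (h : D4 a b c d) (f : (Sym2 V → Bool) → ℝ) {x : Sym2 V → Bool}
    (hx : OO a b c d x) :
    FF a b c d f x - cE (grel a b) (FF a b c d f) x =
      cE (grel0 c d a b) (fun y => if OO a b c d y then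
        avO (grel a b) (fun z => s(a, z)) (fun z => s(b, z)) c d f y - cE (grel a b) f y else 0)
        x := by
  have h1 : cE (grel a b) (FF a b c d f) = cE (grel0 c d a b) (cE (grel a b) f) := by
    unfold FF
    rw [cE_cE_of_ge (grel0_le h), ← comm1 h.swap, cE_ev h]
  have h2 : FF a b c d f = cE (grel0 c d a b) (cE (grel0 a b c d) (ev a b c d f)) := by
    unfold FF
    rw [comm3 h]
  rw [h1, h2, ← cE_sub]
  apply cE_eq_of_eqOn
  intro y hy
  have hy' : OO a b c d y := (OO_grel0' h hy).mp hx
  rw [if_pos hy', cE0_ev h f hy']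

theorem half_bound {a b c d : V} (h : D4 a b c d) (f : (Sym2 V → Bool) → ℝ) :
    ∑ x, (if OO a b c d x then (FF a b c d f x - cE (grel a b) (FF a b c d f) x) ^ 2 else 0)
      ≤ ∑ x, (if OO a b c d x then
        (avO (grel a b) (fun z => s(a, z)) (fun z => s(b, z)) c d f x - cE (grel a b) f x) ^ 2
        else 0) := by
  have h1 := sum_cE_sq_le (grel0 c d a b) (fun y => if OO a b c d y then
        avO (grel a b) (fun z => s(a, z)) (fun z => s(b, z)) c d f y - cE (grel a b) f y else 0)
  have h2 : ∑ x, (if OO a b c d x then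
        (avO (grel a b) (fun z => s(a, z)) (fun z => s(b, z)) c d f x - cE (grel a b) f x) ^ 2
        else 0) = ∑ x, (if OO a b c d x then
        avO (grel a b) (fun z => s(a, z)) (fun z => s(b, z)) c d f x - cE (grel a b) f x
        else 0) ^ 2 := by
    apply sum_congr rfl
    intro x _
    split_ifs <;> simp
  rw [h2]
  refine le_trans (sum_le_sum fun x _ => ?_) h1
  split_ifs with hx
  · rw [FF_sub h f hx]
  · exact sq_nonneg _

/-- states with an odd number of edges in the block -/
def odd' (a b c d : V) (x : Sym2 V → Bool) : Prop :=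
  blk a b c d x = 1 ∨ blk a b c d x = 3

instance (a b c d : V) (x : Sym2 V → Bool) : Decidable (odd' a b c d x) := by
  unfold odd'; infer_instance

theorem FF_inv (a b c d : V) (f : (Sym2 V → Bool) → ℝ) {x y : Sym2 V → Bool}
    (hxy : grel0 a b c d x y) : FF a b c d f x = FF a b c d f y := cE_congr hxy

theorem FF_inv' {a b c d : V} (h : D4 a b c d) (f : (Sym2 V → Bool) → ℝ) {x y : Sym2 V → Bool}
    (hxy : grel0 c d a b x y) : FF a b c d f x = FF a b c d f y := by
  rw [FF_swap h]; exact cE_congr hxy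

/-- the four cases of the block -/
theorem pointwise {a b c d : V} (h : D4 a b c d) (f : (Sym2 V → Bool) → ℝ)
    (x : Sym2 V → Bool) :
    (if odd' a b c d x then (FF a b c d f x - cE (grel a b) (FF a b c d f) x) *
        (FF a b c d f x - cE (grel c d) (FF a b c d f) x) else 0)
      - (1 / 2) * (if OO a b c d x then
          (FF a b c d f x - cE (grel a b) (FF a b c d f) x) ^ 2 else 0)
      - (1 / 2) * (if OO a b c d x then
          (FF a b c d f x - cE (grel c d) (FF a b c d f) x) ^ 2 else 0)
      ≤ (FF a b c d f x - cE (grel a b) (FF a b c d f) x) *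
        (FF a b c d f x - cE (grel c d) (FF a b c d f) x) := by
  by_cases hO : OO a b c d x
  · have hodd : ¬ odd' a b c d x := by
      unfold OO Osep at hO
      unfold odd' blk
      beta_reduce at hO
      revert hO
      cases x s(a, c) <;> cases x s(a, d) <;> cases x s(b, c) <;> cases x s(b, d) <;> simp
    rw [if_neg hodd, if_pos hO, if_pos hO]
    nlinarith [sq_nonneg ((FF a b c d f x - cE (grel a b) (FF a b c d f) x) +
      (FF a b c d f x - cE (grel c d) (FF a b c d f) x))]
  · rw [if_neg hO, if_neg hO]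
    by_cases hodd : odd' a b c d x
    · rw [if_pos hodd]; simp
    · rw [if_neg hodd]
      have hcase : (x s(a, c) = x s(b, c) ∧ x s(a, d) = x s(b, d)) ∨
          (x s(c, a) = x s(d, a) ∧ x s(c, b) = x s(d, b)) := by
        rw [Sym2.eq_swap (a := c) (b := a), Sym2.eq_swap (a := d) (b := b),
          Sym2.eq_swap (a := c) (b := b), Sym2.eq_swap (a := d) (b := a)]
        unfold OO Osep at hO
        unfold odd' blk at hodd
        beta_reduce at hO
        revert hO hodd
        cases x s(a, c) <;> cases x s(a, d) <;> cases x s(b, c) <;> cases x s(b, d) <;> simp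
      rcases hcase with ⟨h1, h2⟩ | ⟨h1, h2⟩
      · have h3 : cE (grel a b) (FF a b c d f) x = FF a b c d f x :=
          cE_of_inv fun y hy => (FF_inv a b c d f (frozen h1 h2 hy)).symm
        rw [h3]; simp
      · have h3 : cE (grel c d) (FF a b c d f) x = FF a b c d f x :=
          cE_of_inv fun y hy => (FF_inv' h f (frozen h1 h2 hy)).symm
        rw [h3]; simp

end graph

end Disj

open Disj in
theorem disjoint_pair {V : Type*} [Fintype V] [DecidableEq V] (a b c d : V) (hab : a ≠ b)
    (hac : a ≠ c) (had : a ≠ d) (hbc : b ≠ c)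
    (hbd : b ≠ d) (hcd : c ≠ d) (f : (Sym2 V → Bool) → ℝ) :
    (1 / 2) * en (fun z => s(a, z)) (fun z => s(b, z)) c d f
      - ∑ x, (if Osep (fun z => s(a, z)) (fun z => s(b, z)) c d x then
          (avO (grel a b) (fun z => s(a, z)) (fun z => s(b, z)) c d f x
            - cE (grel a b) f x) ^ 2 else 0)
      - ∑ x, (if Osep (fun z => s(c, z)) (fun z => s(d, z)) a b x then
          (avO (grel c d) (fun z => s(c, z)) (fun z => s(d, z)) a b f x
            - cE (grel c d) f x) ^ 2 else 0)
      ≤ 2 * ∑ x, hh a b f x * hh c d f x := by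
  have h : D4 a b c d := ⟨hab, hac, had, hbc, hbd, hcd⟩
  have h1 := inner_ev h f
  have h2 := inner_decomp (grel0_le h) (grel0_le h.swap) (comm1 h) (comm1 h.swap) (comm3 h)
    (ev a b c d f)
  have h3 : 0 ≤ ∑ x, (if odd' a b c d x then
      (FF a b c d f x - cE (grel a b) (FF a b c d f) x) *
        (FF a b c d f x - cE (grel c d) (FF a b c d f) x) else 0) := by
    apply inner_nonneg_on (odd' a b c d)
    · intro x y hx hxy
      unfold odd' at hx ⊢
      rw [← (blk_inv a b c d hab hac had hbc hbd hcd x y hxy).1]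
      exact hx
    · intro x y hx hxy
      unfold odd' at hx ⊢
      rw [← (blk_inv c d a b hcd hac.symm hbc.symm had.symm hbd.symm hab x y hxy).2]
      exact hx
    · intro g x hx
      exact cE_comm_odd a b c d hab hac had hbc hbd hcd g x hx
  have h4 := half_bound h f
  have h5 := half_bound h.swap f
  have h6 := sum_le_sum (s := univ) fun x _ => pointwise h f x
  rw [sum_sub_distrib, sum_sub_distrib, ← mul_sum, ← mul_sum] at h6
  have h7 : ∑ x, (if OO c d a b x then
      (FF c d a b f x - cE (grel c d) (FF c d a b f) x) ^ 2 else 0)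
      = ∑ x, (if OO a b c d x then
      (FF a b c d f x - cE (grel c d) (FF a b c d f) x) ^ 2 else 0) := by
    apply sum_congr rfl
    intro x _
    rw [← FF_swap h]
    have := OO_swap a b c d x
    by_cases hx : OO a b c d x
    · rw [if_pos hx, if_pos (this.mp hx)]
    · rw [if_neg hx, if_neg (fun h' => hx (this.mpr h'))]
  rw [h7] at h5
  have h8 : ∑ x, (FF a b c d f x - cE (grel a b) (FF a b c d f) x) *
        (FF a b c d f x - cE (grel c d) (FF a b c d f) x) ≤
      ∑ x, (ev a b c d f x - cE (grel a b) (ev a b c d f) x) *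
          (ev a b c d f x - cE (grel c d) (ev a b c d f) x) := h2
  linarith

end Crest.Agent.R299
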