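import Mathlib
import Crest.Prelude.Def_SwitchChain
import Crest.Agent.R299.Dirichlet

/-!
Row 299 (S0453): the total variation bound `≤ 1/4` at time `2 n^8` from the Poincaré inequality.
-/

set_option autoImplicit false
open Finset

namespace Crest.Agent.R299

open Crest.SwitchChain

variable {n : ℕ}

/-! ### generic facts on a lazy symmetric kernel on a finite set -/

section generic

variable {α : Type*} [DecidableEq α] (Ω : Finset α) (P : α → α → ℝ)

/-- Contraction in `ℓ²` of a symmetric stochastic kernel. -/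
theorem sum_sq_le_of_stoch (Q : α → α → ℝ) (hQ0 : ∀ x ∈ Ω, ∀ y ∈ Ω, 0 ≤ Q x y)
    (hs : ∀ x y, Q x y = Q y x) (h1 : ∀ x ∈ Ω, ∑ y ∈ Ω, Q x y = 1) (g : α → ℝ) :
    ∑ x ∈ Ω, (∑ y ∈ Ω, Q x y * g y) ^ 2 ≤ ∑ x ∈ Ω, g x ^ 2 := by
  have hx : ∀ x ∈ Ω, (∑ y ∈ Ω, Q x y * g y) ^ 2 ≤ ∑ y ∈ Ω, Q x y * g y ^ 2 := by
    intro x hx
    have hcs := Finset.sum_mul_sq_le_sq_mul_sq Ω (fun y => Real.sqrt (Q x y))
      (fun y => Real.sqrt (Q x y) * g y)
    have e1 : ∑ y ∈ Ω, Real.sqrt (Q x y) * (Real.sqrt (Q x y) * g y) = ∑ y ∈ Ω, Q x y * g y := by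
      apply sum_congr rfl
      intro y hy
      rw [← mul_assoc, Real.mul_self_sqrt (hQ0 x hx y hy)]
    have e2 : ∑ y ∈ Ω, Real.sqrt (Q x y) ^ 2 = 1 := by
      rw [← h1 x hx]
      apply sum_congr rfl
      intro y hy
      rw [Real.sq_sqrt (hQ0 x hx y hy)]
    have e3 : ∑ y ∈ Ω, (Real.sqrt (Q x y) * g y) ^ 2 = ∑ y ∈ Ω, Q x y * g y ^ 2 := by
      apply sum_congr rfl
      intro y hy
      rw [mul_pow, Real.sq_sqrt (hQ0 x hx y hy)]
    rw [e1, e2, e3, one_mul] at hcs
    exact hcs
  calc ∑ x ∈ Ω, (∑ y ∈ Ω, Q x y * g y) ^ 2 ≤ ∑ x ∈ Ω, ∑ y ∈ Ω, Q x y * g y ^ 2 :=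
        sum_le_sum hx
    _ = ∑ y ∈ Ω, ∑ x ∈ Ω, Q y x * g y ^ 2 := by
        rw [sum_comm]
        apply sum_congr rfl
        intro y _
        apply sum_congr rfl
        intro x _
        rw [hs]
    _ = ∑ y ∈ Ω, g y ^ 2 := by
        apply sum_congr rfl
        intro y hy
        rw [← sum_mul, h1 y hy, one_mul]

/-- For a lazy symmetric kernel, `‖P g‖² ≤ ⟨g, P g⟩`. -/
theorem sq_le_inner_of_lazy (hP0 : ∀ x ∈ Ω, ∀ y ∈ Ω, 0 ≤ P x y)
    (hlazy : ∀ x ∈ Ω, 1 / 2 ≤ P x x)
    (hs : ∀ x y, P x y = P y x) (h1 : ∀ x ∈ Ω, ∑ y ∈ Ω, P x y = 1) (g : α → ℝ) :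
    ∑ x ∈ Ω, (∑ y ∈ Ω, P x y * g y) ^ 2 ≤ ∑ x ∈ Ω, g x * ∑ y ∈ Ω, P x y * g y := by
  set Q : α → α → ℝ := fun x y => 2 * P x y - if x = y then 1 else 0 with hQ
  have hQg : ∀ x ∈ Ω, ∑ y ∈ Ω, Q x y * g y = 2 * (∑ y ∈ Ω, P x y * g y) - g x := by
    intro x hx
    simp only [hQ, sub_mul, sum_sub_distrib, ite_mul, one_mul, zero_mul, sum_ite_eq, hx, if_true,
      mul_sum, mul_assoc]
  have hQ0 : ∀ x ∈ Ω, ∀ y ∈ Ω, 0 ≤ Q x y := by
    intro x hx y hy
    simp only [hQ]
    split_ifs with h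
    · subst h; linarith [hlazy x hx]
    · have := hP0 x hx y hy; linarith
  have hQs : ∀ x y, Q x y = Q y x := by
    intro x y
    simp only [hQ, hs x y, eq_comm]
  have hQ1 : ∀ x ∈ Ω, ∑ y ∈ Ω, Q x y = 1 := by
    intro x hx
    simp only [hQ, sum_sub_distrib, ← mul_sum, h1 x hx, sum_ite_eq, hx, if_true]
    norm_num
  have key := sum_sq_le_of_stoch Ω Q hQ0 hQs hQ1 g
  rw [sum_congr rfl (fun x hx => by rw [hQg x hx])] at key
  have e : ∀ x, (2 * (∑ y ∈ Ω, P x y * g y) - g x) ^ 2
      = 4 * (∑ y ∈ Ω, P x y * g y) ^ 2 - 4 * (g x * ∑ y ∈ Ω, P x y * g y) + g x ^ 2 := by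
    intro x; ring
  simp only [e, sum_add_distrib, sum_sub_distrib, ← mul_sum] at key
  linarith

end generic

/-! ### powers of the kernel -/

theorem kernel_lazy (E : Finset (Edge n)) : 1 / 2 ≤ kernel n E E := by
  unfold kernel
  rw [if_pos rfl]
  have : (0 : ℝ) ≤ (proposalCount E E : ℝ) / (12 * (n.choose 4 : ℝ)) := by positivity
  linarith

theorem kernel_pow_eq_zero {d : Fin n → ℕ} {G : Finset (Edge n)} (hG : G ∈ realizations d)
    (t : ℕ) : ∀ G' ∉ realizations d, (kernel n ^ t) G G' = 0 := by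
  induction t with
  | zero =>
    intro G' hG'
    rw [pow_zero, Matrix.one_apply_ne]
    rintro rfl; exact hG' hG
  | succ t ih =>
    intro G' hG'
    rw [pow_succ, Matrix.mul_apply]
    apply sum_eq_zero
    intro x _
    by_cases hx : x ∈ realizations d
    · rw [kernel_eq_zero hx hG', mul_zero]
    · rw [ih x hx, zero_mul]

/-- The recursion for the powers restricted to the realizations. -/
theorem kernel_pow_succ {d : Fin n → ℕ} {G : Finset (Edge n)} (hG : G ∈ realizations d)
    (t : ℕ) (G' : Finset (Edge n)) :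
    (kernel n ^ (t + 1)) G G' = ∑ x ∈ realizations d, kernel n G' x * (kernel n ^ t) G x := by
  rw [pow_succ, Matrix.mul_apply]
  symm
  rw [← sum_subset (subset_univ (realizations d))]
  · apply sum_congr rfl
    intro x _
    rw [kernel_symm, mul_comm]
  · intro x _ hx
    rw [kernel_pow_eq_zero hG t x hx, zero_mul]

theorem kernel_pow_sum (hn : 4 ≤ n) {d : Fin n → ℕ} {G : Finset (Edge n)}
    (hG : G ∈ realizations d) (t : ℕ) :
    ∑ G' ∈ realizations d, (kernel n ^ t) G G' = 1 := by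
  induction t with
  | zero =>
    simp only [pow_zero, Matrix.one_apply, sum_ite_eq, hG, if_true]
  | succ t ih =>
    rw [sum_congr rfl (fun G' _ => kernel_pow_succ hG t G'), sum_comm]
    rw [← ih]
    apply sum_congr rfl
    intro x hx
    rw [← sum_mul]
    rw [sum_congr rfl (fun y _ => kernel_symm y x), kernel_sum_realizations hn hx, one_mul]

/-- The centred law after `t` steps. -/
noncomputable def cen (d : Fin n → ℕ) (G : Finset (Edge n)) (t : ℕ) (G' : Finset (Edge n)) : ℝ :=
  (kernel n ^ t) G G' - 1 / ((realizations d).card : ℝ)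

theorem cen_sum (hn : 4 ≤ n) {d : Fin n → ℕ} {G : Finset (Edge n)}
    (hG : G ∈ realizations d) (t : ℕ) :
    ∑ G' ∈ realizations d, cen d G t G' = 0 := by
  unfold cen
  rw [sum_sub_distrib, kernel_pow_sum hn hG t, sum_const, nsmul_eq_mul, mul_one_div, div_self,
    sub_self]
  have : 0 < (realizations d).card := card_pos.mpr ⟨G, hG⟩
  exact_mod_cast this.ne'

theorem cen_succ (hn : 4 ≤ n) {d : Fin n → ℕ} {G : Finset (Edge n)}
    (hG : G ∈ realizations d) (t : ℕ) {G' : Finset (Edge n)} (hG' : G' ∈ realizations d) :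
    cen d G (t + 1) G' = ∑ x ∈ realizations d, kernel n G' x * cen d G t x := by
  unfold cen
  rw [kernel_pow_succ hG t G']
  simp only [mul_sub, sum_sub_distrib, ← sum_mul]
  rw [kernel_sum_realizations hn hG', one_mul]

/-- The constant in the Poincaré inequality. -/
noncomputable def pcst (n : ℕ) : ℝ := 24 * (n : ℝ) ^ 2 * (n.choose 4 : ℝ)

theorem pcst_le (n : ℕ) : pcst n ≤ (n : ℝ) ^ 6 := by
  unfold pcst
  have h : 24 * n.choose 4 ≤ n ^ 4 := by
    have h1 : (Nat.factorial 4) * n.choose 4 = n.descFactorial 4 :=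
      (Nat.descFactorial_eq_factorial_mul_choose n 4).symm
    have h2 : n.descFactorial 4 ≤ n ^ 4 := Nat.descFactorial_le_pow n 4
    have h3 : Nat.factorial 4 = 24 := rfl
    rw [h3] at h1
    omega
  have h' : 24 * (n.choose 4 : ℝ) ≤ (n : ℝ) ^ 4 := by exact_mod_cast h
  nlinarith [sq_nonneg (n : ℝ)]

theorem one_le_pcst (hn : 4 ≤ n) : 1 ≤ pcst n := by
  unfold pcst
  have h1 : (1 : ℝ) ≤ n.choose 4 := by exact_mod_cast Nat.choose_pos hn
  have h2 : (4 : ℝ) ≤ n := by exact_mod_cast hn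
  nlinarith [sq_nonneg (n : ℝ)]

/-- One-step decay. -/
theorem cen_decay (hn : 4 ≤ n) {d : Fin n → ℕ} {G : Finset (Edge n)}
    (hG : G ∈ realizations d)
    (hP : ∀ f : Finset (Edge n) → ℝ,
        ((realizations d).card : ℝ) * (∑ G ∈ realizations d, f G ^ 2) -
            (∑ G ∈ realizations d, f G) ^ 2 ≤
          24 * (n : ℝ) ^ 2 * (n.choose 4 : ℝ) * (realizations d).card *
            ∑ G ∈ realizations d,
              f G * (f G - ∑ G' ∈ realizations d, kernel n G G' * f G')) (t : ℕ) :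
    ∑ G' ∈ realizations d, cen d G (t + 1) G' ^ 2
      ≤ (1 - 1 / pcst n) * ∑ G' ∈ realizations d, cen d G t G' ^ 2 := by
  have hN : (0 : ℝ) < (realizations d).card := by
    exact_mod_cast card_pos.mpr ⟨G, hG⟩
  have hC : 1 ≤ pcst n := one_le_pcst hn
  have hCpos : 0 < pcst n := by linarith
  rw [sum_congr rfl (fun G' hG' => by rw [cen_succ hn hG t hG'])]
  have h1 := sq_le_inner_of_lazy (realizations d) (kernel n)
    (fun x _ y _ => kernel_nonneg x y) (fun x _ => kernel_lazy x) kernel_symm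
    (fun x hx => kernel_sum_realizations hn hx) (cen d G t)
  refine h1.trans ?_
  have h2 := hP (cen d G t)
  rw [cen_sum hn hG t] at h2
  have e : ∑ x ∈ realizations d, cen d G t x *
      (cen d G t x - ∑ G' ∈ realizations d, kernel n x G' * cen d G t G')
      = ∑ x ∈ realizations d, cen d G t x ^ 2 -
        ∑ x ∈ realizations d, cen d G t x * ∑ G' ∈ realizations d, kernel n x G' * cen d G t G' := by
    rw [← sum_sub_distrib]
    apply sum_congr rfl
    intro x _
    ring
  rw [e] at h2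
  set A := ∑ x ∈ realizations d, cen d G t x ^ 2 with hA
  set B := ∑ x ∈ realizations d,
    cen d G t x * ∑ G' ∈ realizations d, kernel n x G' * cen d G t G' with hB
  have h3 : ((realizations d).card : ℝ) * A ≤ ((realizations d).card : ℝ) * (pcst n * (A - B)) := by
    have : 24 * (n : ℝ) ^ 2 * (n.choose 4 : ℝ) * (realizations d).card * (A - B)
        = ((realizations d).card : ℝ) * (pcst n * (A - B)) := by
      unfold pcst; ring
    rw [← this]
    linarith
  have h4 : A ≤ pcst n * (A - B) := le_of_mul_le_mul_left h3 hN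
  have h5 : A / pcst n ≤ A - B := by
    rw [div_le_iff₀ hCpos]; linarith
  have : (1 - 1 / pcst n) * A = A - A / pcst n := by ring
  rw [this]
  linarith

theorem cen_pow (hn : 4 ≤ n) {d : Fin n → ℕ} {G : Finset (Edge n)}
    (hG : G ∈ realizations d)
    (hP : ∀ f : Finset (Edge n) → ℝ,
        ((realizations d).card : ℝ) * (∑ G ∈ realizations d, f G ^ 2) -
            (∑ G ∈ realizations d, f G) ^ 2 ≤
          24 * (n : ℝ) ^ 2 * (n.choose 4 : ℝ) * (realizations d).card *
            ∑ G ∈ realizations d,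
              f G * (f G - ∑ G' ∈ realizations d, kernel n G G' * f G')) (t : ℕ) :
    ∑ G' ∈ realizations d, cen d G t G' ^ 2 ≤ (1 - 1 / pcst n) ^ t := by
  have hC : 1 ≤ pcst n := one_le_pcst hn
  have hCpos : 0 < pcst n := by linarith
  have hnn : 0 ≤ 1 - 1 / pcst n := by
    rw [sub_nonneg, div_le_one hCpos]; exact hC
  induction t with
  | zero =>
    have hN : (0 : ℝ) < (realizations d).card := by
      exact_mod_cast card_pos.mpr ⟨G, hG⟩
    have h0 : ∀ G' ∈ realizations d, cen d G 0 G' ^ 2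
        = (if G = G' then 1 else 0) * (1 - 2 / ((realizations d).card : ℝ))
          + (1 / ((realizations d).card : ℝ)) ^ 2 := by
      intro G' _
      unfold cen
      rw [pow_zero, Matrix.one_apply]
      split_ifs <;> ring
    rw [sum_congr rfl h0, sum_add_distrib, ← sum_mul]
    simp only [sum_ite_eq, hG, if_true, sum_const, nsmul_eq_mul, pow_zero, one_mul]
    have : ((realizations d).card : ℝ) * (1 / ((realizations d).card : ℝ)) ^ 2
        = 1 / ((realizations d).card : ℝ) := by field_simp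
    rw [this]
    have h1 : 0 ≤ 1 / ((realizations d).card : ℝ) := by positivity
    have h2 : 2 / ((realizations d).card : ℝ) = 2 * (1 / ((realizations d).card : ℝ)) := by ring
    rw [h2]
    linarith
  | succ t ih =>
    refine (cen_decay hn hG hP t).trans ?_
    rw [pow_succ, mul_comm]
    exact mul_le_mul_of_nonneg_right ih hnn

theorem card_realizations_le (d : Fin n → ℕ) :
    ((realizations d).card : ℝ) ≤ Real.exp ((n : ℝ) ^ 2 / 2) := by
  have h1 : (realizations d).card ≤ 2 ^ (n.choose 2) := by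
    refine (card_le_univ _).trans ?_
    rw [Fintype.card_finset]
    apply Nat.pow_le_pow_right (by norm_num)
    rw [Sym2.card_subtype_not_diag, Fintype.card_fin]
  have h2 : ((realizations d).card : ℝ) ≤ 2 ^ (n.choose 2) := by exact_mod_cast h1
  refine h2.trans ?_
  have h3 : (2 : ℝ) ≤ Real.exp 1 := by
    have := Real.add_one_le_exp (1 : ℝ)
    linarith
  calc (2 : ℝ) ^ (n.choose 2) ≤ (Real.exp 1) ^ (n.choose 2) :=
        pow_le_pow_left₀ (by norm_num) h3 _
    _ = Real.exp (n.choose 2 : ℝ) := by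
        rw [← Real.exp_nat_mul, mul_one]
    _ ≤ Real.exp ((n : ℝ) ^ 2 / 2) := by
        apply Real.exp_le_exp.mpr
        rw [Nat.cast_choose_two]
        have : (0 : ℝ) ≤ n := Nat.cast_nonneg n
        nlinarith

/-- **TV bound from the Poincaré inequality.** -/
theorem tv_of_poincare (hn : 4 ≤ n) (d : Fin n → ℕ)
    (hP : ∀ f : Finset (Edge n) → ℝ,
        ((realizations d).card : ℝ) * (∑ G ∈ realizations d, f G ^ 2) -
            (∑ G ∈ realizations d, f G) ^ 2 ≤
          24 * (n : ℝ) ^ 2 * (n.choose 4 : ℝ) * (realizations d).card *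
            ∑ G ∈ realizations d,
              f G * (f G - ∑ G' ∈ realizations d, kernel n G G' * f G'))
    (G : Finset (Edge n)) (hG : G ∈ realizations d) :
    tvDist (fun G' => (kernel n ^ (2 * n ^ 8)) G G') (unifOn (realizations d)) ≤ 1 / 4 := by
  set t := 2 * n ^ 8 with ht
  have hN : (0 : ℝ) < (realizations d).card := by
    exact_mod_cast card_pos.mpr ⟨G, hG⟩
  have hC : 1 ≤ pcst n := one_le_pcst hn
  have hCpos : 0 < pcst n := by linarith
  have hnpos : (4 : ℝ) ≤ n := by exact_mod_cast hn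
  -- the TV distance as an `ℓ¹` norm on the realizations
  have e1 : ∑ a : Finset (Edge n), |(kernel n ^ t) G a - unifOn (realizations d) a|
      = ∑ a ∈ realizations d, |cen d G t a| := by
    rw [← sum_subset (subset_univ (realizations d))]
    · apply sum_congr rfl
      intro a ha
      unfold cen unifOn
      rw [if_pos ha]
    · intro a _ ha
      unfold unifOn
      rw [if_neg ha, kernel_pow_eq_zero hG t a ha]
      simp
  have hcs : (∑ a ∈ realizations d, |cen d G t a|) ^ 2
      ≤ (realizations d).card * ∑ a ∈ realizations d, cen d G t a ^ 2 := by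
    have := sq_sum_le_card_mul_sum_sq (s := realizations d) (f := fun a => |cen d G t a|)
    simpa [sq_abs] using this
  have hdec := cen_pow hn hG hP t
  have hexp : (1 - 1 / pcst n) ^ t ≤ Real.exp (-(2 * (n : ℝ) ^ 2)) := by
    have h1 : 1 - 1 / pcst n ≤ Real.exp (-(1 / pcst n)) := by
      have := Real.add_one_le_exp (-(1 / pcst n))
      linarith
    have hnn : 0 ≤ 1 - 1 / pcst n := by
      rw [sub_nonneg, div_le_one hCpos]; exact hC
    calc (1 - 1 / pcst n) ^ t ≤ (Real.exp (-(1 / pcst n))) ^ t :=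
          pow_le_pow_left₀ hnn h1 t
      _ = Real.exp (t * (-(1 / pcst n))) := by rw [Real.exp_nat_mul]
      _ ≤ Real.exp (-(2 * (n : ℝ) ^ 2)) := by
          apply Real.exp_le_exp.mpr
          have h2 : (2 * (n : ℝ) ^ 2) ≤ (t : ℝ) / pcst n := by
            rw [le_div_iff₀ hCpos]
            have h3 : (t : ℝ) = 2 * (n : ℝ) ^ 8 := by rw [ht]; push_cast; ring
            rw [h3]
            have h4 := pcst_le n
            nlinarith [sq_nonneg (n : ℝ)]
          have h5 : (t : ℝ) * (-(1 / pcst n)) = -((t : ℝ) / pcst n) := by ring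
          rw [h5]
          linarith
  have hfin : (∑ a ∈ realizations d, |cen d G t a|) ^ 2 ≤ (1 / 2) ^ 2 := by
    calc (∑ a ∈ realizations d, |cen d G t a|) ^ 2
        ≤ (realizations d).card * ∑ a ∈ realizations d, cen d G t a ^ 2 := hcs
      _ ≤ (realizations d).card * (1 - 1 / pcst n) ^ t :=
          mul_le_mul_of_nonneg_left hdec hN.le
      _ ≤ Real.exp ((n : ℝ) ^ 2 / 2) * Real.exp (-(2 * (n : ℝ) ^ 2)) := by
          apply mul_le_mul (card_realizations_le d) hexp _ (Real.exp_nonneg _)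
          apply pow_nonneg
          rw [sub_nonneg, div_le_one hCpos]; exact hC
      _ = Real.exp (-(3 / 2 * (n : ℝ) ^ 2)) := by
          rw [← Real.exp_add]; congr 1; ring
      _ ≤ Real.exp (-3) := by
          apply Real.exp_le_exp.mpr
          nlinarith
      _ ≤ (1 / 2) ^ 2 := by
          rw [Real.exp_neg]
          have : (4 : ℝ) ≤ Real.exp 3 := by
            have := Real.add_one_le_exp (3 : ℝ)
            linarith
          calc (Real.exp 3)⁻¹ ≤ (4 : ℝ)⁻¹ := inv_anti₀ (by norm_num) this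
            _ = (1 / 2) ^ 2 := by norm_num
  have h0 : 0 ≤ ∑ a ∈ realizations d, |cen d G t a| := sum_nonneg (fun _ _ => abs_nonneg _)
  have h1 : ∑ a ∈ realizations d, |cen d G t a| ≤ 1 / 2 :=
    abs_le_of_sq_le_sq' hfin (by norm_num) |>.2
  unfold tvDist
  rw [e1]
  linarith

end Crest.Agent.R299
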