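import Mathlib
import Crest.Agent.R299.Defs
import Crest.Agent.R299.Dirichlet
import Crest.Agent.R299.Mixing

/-!
Row 299 (S0453), task T11: transfer of the Poincaré inequality from `Sym2 (Fin n) → Bool` to the
switch graph on `Finset (Edge n)`.
-/

set_option autoImplicit false
open Finset

namespace Crest.Agent.R299

open Crest.SwitchChain

variable {n : ℕ}

/-! ### the two encodings of a graph -/

open Classical in
/-- indicator of an edge set on `Sym2` -/
noncomputable def toB (G : Finset (Edge n)) : Sym2 (Fin n) → Bool := fun e =>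
  decide (∃ h : ¬ e.IsDiag, (⟨e, h⟩ : Edge n) ∈ G)

/-- edge set of an indicator -/
def ofB (x : Sym2 (Fin n) → Bool) : Finset (Edge n) := univ.filter fun e => x e.1 = true

theorem mem_ofB {x : Sym2 (Fin n) → Bool} {e : Edge n} : e ∈ ofB x ↔ x e.1 = true := by
  simp [ofB]

theorem toB_iff {G : Finset (Edge n)} {e : Sym2 (Fin n)} :
    toB G e = true ↔ ∃ h : ¬ e.IsDiag, (⟨e, h⟩ : Edge n) ∈ G := by
  simp [toB]

theorem ofB_toB (G : Finset (Edge n)) : ofB (toB G) = G := by
  ext e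
  rw [mem_ofB, toB_iff]
  constructor
  · rintro ⟨_, h⟩; exact h
  · intro h; exact ⟨e.2, h⟩

theorem toB_ofB {x : Sym2 (Fin n) → Bool} (hx : ∀ v, x s(v, v) = false) : toB (ofB x) = x := by
  funext e
  rw [Bool.eq_iff_iff, toB_iff]
  constructor
  · rintro ⟨h, h'⟩; exact mem_ofB.mp h'
  · intro h
    have hd : ¬ e.IsDiag := by
      intro hd
      induction e using Sym2.ind with
      | _ a b =>
        rw [Sym2.mk_isDiag_iff] at hd
        subst hd
        rw [hx] at h
        exact Bool.false_ne_true h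
    exact ⟨hd, mem_ofB.mpr h⟩

/-- the degree of `v` in the graph `x` -/
def dg (x : Sym2 (Fin n) → Bool) (v : Fin n) : ℕ := ∑ w ∈ univ.erase v, (x s(v, w)).toNat

theorem deg_ofB (x : Sym2 (Fin n) → Bool) (v : Fin n) : deg (ofB x) v = dg x v := by
  unfold deg dg
  have h1 : ∑ w ∈ univ.erase v, (x s(v, w)).toNat
      = ((univ.erase v).filter fun w => x s(v, w) = true).card := by
    rw [card_filter]
    apply sum_congr rfl
    intro w _
    cases x s(v, w) <;> simp
  rw [h1]
  symm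
  apply card_bij (fun w hw => mkE v w (by
    rw [mem_filter, mem_erase] at hw; exact fun h => hw.1.1 h.symm))
  · intro w hw
    rw [mem_filter, mem_erase] at hw
    rw [mem_filter, mem_ofB]
    exact ⟨hw.2, by simp [mkE]⟩
  · intro a ha b hb hab
    rw [mkE_inj] at hab
    rw [mem_filter, mem_erase] at ha hb
    rcases hab with h | h
    · exact h.2
    · exact absurd h.1.symm hb.1.1
  · intro e he
    rw [mem_filter] at he
    obtain ⟨w, hw, rfl⟩ := exists_mkE e he.2
    refine ⟨w, ?_, rfl⟩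
    rw [mem_filter, mem_erase]
    exact ⟨⟨hw.symm, mem_univ _⟩, mem_ofB.mp he.1⟩

/-- the realizations as indicators -/
def realB (d : Fin n → ℕ) : Finset (Sym2 (Fin n) → Bool) :=
  univ.filter fun x => (∀ v, x s(v, v) = false) ∧ ∀ v, dg x v = d v

theorem mem_realB {d : Fin n → ℕ} {x : Sym2 (Fin n) → Bool} :
    x ∈ realB d ↔ (∀ v, x s(v, v) = false) ∧ ∀ v, dg x v = d v := by simp [realB]

theorem toB_diag (G : Finset (Edge n)) (v : Fin n) : toB G s(v, v) = false := by
  rw [← Bool.not_eq_true, toB_iff]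
  rintro ⟨h, _⟩
  exact h (by simp)

theorem toB_mem {d : Fin n → ℕ} {G : Finset (Edge n)} (hG : G ∈ realizations d) :
    toB G ∈ realB d := by
  rw [mem_realB]
  refine ⟨toB_diag G, fun v => ?_⟩
  rw [← deg_ofB, ofB_toB]
  exact mem_realizations.mp hG v

theorem ofB_mem {d : Fin n → ℕ} {x : Sym2 (Fin n) → Bool} (hx : x ∈ realB d) :
    ofB x ∈ realizations d := by
  rw [mem_realizations]
  intro v
  rw [deg_ofB]
  exact (mem_realB.mp hx).2 v

theorem sum_realB (d : Fin n → ℕ) (φ : Finset (Edge n) → ℝ) :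
    ∑ x ∈ realB d, φ (ofB x) = ∑ G ∈ realizations d, φ G := by
  apply sum_bij' (fun x _ => ofB x) (fun G _ => toB G)
  · intro x hx; exact ofB_mem hx
  · intro G hG; exact toB_mem hG
  · intro x hx; exact toB_ofB (mem_realB.mp hx).1
  · intro G _; exact ofB_toB G
  · intro x _; rfl

theorem card_realB (d : Fin n → ℕ) : (realB d).card = (realizations d).card := by
  apply card_bij' (fun x _ => ofB x) (fun G _ => toB G)
  · intro x hx; exact ofB_mem hx
  · intro G hG; exact toB_mem hG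
  · intro x hx; exact toB_ofB (mem_realB.mp hx).1
  · intro G _; exact ofB_toB G

/-! ### the realizations are closed under trades -/

theorem dg_split (x : Sym2 (Fin n) → Bool) {a b : Fin n} (hab : a ≠ b) :
    dg x a = (x s(a, b)).toNat + ∑ z ∈ cols a b, (x s(a, z)).toNat := by
  unfold dg cols
  have hb : b ∈ (univ : Finset (Fin n)).erase a := by simp [hab.symm]
  rw [← add_sum_erase _ _ hb]

theorem dg_split' (x : Sym2 (Fin n) → Bool) {a b v : Fin n} (hab : a ≠ b) (hva : v ≠ a)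
    (hvb : v ≠ b) :
    dg x v = (x s(v, a)).toNat + (x s(v, b)).toNat
      + ∑ z ∈ ((univ.erase v).erase a).erase b, (x s(v, z)).toNat := by
  unfold dg
  have ha : a ∈ (univ : Finset (Fin n)).erase v := by simp [hva.symm]
  have hb : b ∈ ((univ : Finset (Fin n)).erase v).erase a := by simp [hvb.symm, hab.symm]
  rw [← add_sum_erase _ _ ha, ← add_sum_erase _ _ hb, add_assoc]

theorem mem_cols_fin {a b z : Fin n} : z ∈ cols a b ↔ z ≠ a ∧ z ≠ b := by
  simp [cols, and_comm]

theorem grel_off {a b : Fin n} {x y : Sym2 (Fin n) → Bool} (h : grel a b x y) (e : Sym2 (Fin n))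
    (he : ∀ z, z ≠ a → z ≠ b → e ≠ s(a, z) ∧ e ≠ s(b, z)) : x e = y e := by
  apply h.1
  intro z hz
  rw [mem_cols_fin] at hz
  exact he z hz.1 hz.2

theorem realB_closed {d : Fin n → ℕ} {a b : Fin n} (hab : a ≠ b) {x y : Sym2 (Fin n) → Bool}
    (hx : x ∈ realB d) (h : grel a b x y) : y ∈ realB d := by
  rw [mem_realB] at hx ⊢
  have hdiag : ∀ v, x s(v, v) = y s(v, v) := by
    intro v
    apply grel_off h
    intro z hza hzb
    constructor
    · intro he
      rw [Sym2.eq_iff] at he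
      rcases he with he | he
      · exact hza (he.2.symm.trans he.1)
      · exact hza (he.1.symm.trans he.2)
    · intro he
      rw [Sym2.eq_iff] at he
      rcases he with he | he
      · exact hzb (he.2.symm.trans he.1)
      · exact hzb (he.1.symm.trans he.2)
  have hab' : x s(a, b) = y s(a, b) := by
    apply grel_off h
    intro z hza hzb
    constructor
    · intro he
      rw [Sym2.eq_iff] at he
      rcases he with he | he
      · exact hzb he.2.symm
      · exact hza he.1.symm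
    · intro he
      rw [Sym2.eq_iff] at he
      rcases he with he | he
      · exact hzb he.2.symm
      · exact hza he.1.symm
  have hcol : ∀ z ∈ cols a b, (x s(a, z)).toNat + (x s(b, z)).toNat
      = (y s(a, z)).toNat + (y s(b, z)).toNat := h.2.1
  have hrow : ∑ z ∈ cols a b, (x s(a, z)).toNat = ∑ z ∈ cols a b, (y s(a, z)).toNat := h.2.2
  have hrow' : ∑ z ∈ cols a b, (x s(b, z)).toNat = ∑ z ∈ cols a b, (y s(b, z)).toNat := by
    have := sum_congr (rfl : cols a b = cols a b) hcol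
    rw [sum_add_distrib, sum_add_distrib, hrow] at this
    omega
  refine ⟨fun v => by rw [← hdiag v]; exact hx.1 v, fun v => ?_⟩
  rw [← hx.2 v]
  by_cases hva : v = a
  · subst hva
    rw [dg_split _ hab, dg_split _ hab, hab', hrow]
  by_cases hvb : v = b
  · subst hvb
    have hc : cols v a = cols a v := by
      ext z; rw [mem_cols_fin, mem_cols_fin]; tauto
    rw [dg_split _ hab.symm, dg_split _ hab.symm, Sym2.eq_swap, hab', hc, hrow']
  rw [dg_split' _ hab hva hvb, dg_split' _ hab hva hvb]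
  have hz := hcol v (mem_cols_fin.mpr ⟨hva, hvb⟩)
  rw [Sym2.eq_swap (a := a), Sym2.eq_swap (a := b)] at hz
  rw [← hz]
  congr 1
  apply sum_congr rfl
  intro w hw
  simp only [mem_erase, mem_univ, and_true] at hw
  rw [grel_off h s(v, w)]
  intro z _ _
  constructor
  · intro he
    rw [Sym2.eq_iff] at he
    rcases he with he | he
    · exact hva he.1
    · exact hw.2.1 he.2
  · intro he
    rw [Sym2.eq_iff] at he
    rcases he with he | he
    · exact hvb he.1
    · exact hw.1 he.2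

/-! ### switches -/

theorem sw_of_not {κ S : Type*} [DecidableEq κ] [DecidableEq S] {p q : κ → S} {c d : κ}
    {x : S → Bool} (h : ¬ Osep p q c d x) : sw p q c d x = x := by
  funext e
  unfold sw
  rw [if_neg]
  rintro ⟨h', _⟩
  exact h h'

theorem sw_of {κ S : Type*} [DecidableEq κ] [DecidableEq S] {p q : κ → S} {c d : κ}
    {x : S → Bool} (h : Osep p q c d x) (e : S) :
    sw p q c d x e = if (e = p c ∨ e = p d ∨ e = q c ∨ e = q d) then !(x e) else x e := by
  unfold sw
  simp only [h, true_and]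

theorem Osep.ne {κ S : Type*} [DecidableEq κ] [DecidableEq S] {p q : κ → S} {c d : κ}
    {x : S → Bool} (h : Osep p q c d x) : c ≠ d := by
  rintro rfl
  exact h.2.2 rfl

theorem rel_sw' {κ S : Type*} [DecidableEq κ] [DecidableEq S] {p q : κ → S} {U : Finset κ}
    (hp : Set.InjOn p U) (hq : Set.InjOn q U) (hpq : ∀ z ∈ U, ∀ w ∈ U, p z ≠ q w) {c d : κ}
    (hc : c ∈ U) (hd : d ∈ U) (x : S → Bool) : rel p q U x (sw p q c d x) := by
  by_cases hO : Osep p q c d x
  swap
  · rw [sw_of_not hO]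
  have hcd := hO.ne
  have hpc : sw p q c d x (p c) = !(x (p c)) := by rw [sw_of hO]; simp
  have hpd : sw p q c d x (p d) = !(x (p d)) := by rw [sw_of hO]; simp
  have hqc : sw p q c d x (q c) = !(x (q c)) := by rw [sw_of hO]; simp
  have hqd : sw p q c d x (q d) = !(x (q d)) := by rw [sw_of hO]; simp
  have hpz : ∀ z ∈ U, z ≠ c → z ≠ d → sw p q c d x (p z) = x (p z) := by
    intro z hz hzc hzd
    rw [sw_of hO, if_neg]
    rintro (h | h | h | h)
    · exact hzc (hp hz hc h)
    · exact hzd (hp hz hd h)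
    · exact hpq z hz c hc h
    · exact hpq z hz d hd h
  have hqz : ∀ z ∈ U, z ≠ c → z ≠ d → sw p q c d x (q z) = x (q z) := by
    intro z hz hzc hzd
    rw [sw_of hO, if_neg]
    rintro (h | h | h | h)
    · exact hpq c hc z hz h.symm
    · exact hpq d hd z hz h.symm
    · exact hzc (hq hz hc h)
    · exact hzd (hq hz hd h)
  obtain ⟨h1, h2, h3⟩ := hO
  refine ⟨?_, ?_, ?_⟩
  · intro e he
    rw [sw_of ⟨h1, h2, h3⟩, if_neg]
    rintro (h | h | h | h)
    · exact (he c hc).1 h
    · exact (he d hd).1 h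
    · exact (he c hc).2 h
    · exact (he d hd).2 h
  · intro z hz
    by_cases hzc : z = c
    · subst hzc
      rw [hpc, hqc]
      rw [h2] at h3
      revert h3
      cases x (p z) <;> cases x (q z) <;> simp
    by_cases hzd : z = d
    · subst hzd
      rw [hpd, hqd]
      rw [h1] at h3
      revert h3
      cases x (p z) <;> cases x (q z) <;> simp
    rw [hpz z hz hzc hzd, hqz z hz hzc hzd]
  · have hd' : d ∈ U.erase c := mem_erase.mpr ⟨hcd.symm, hd⟩
    rw [← add_sum_erase _ _ hc, ← add_sum_erase _ _ hd', ← add_sum_erase U _ hc,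
      ← add_sum_erase _ _ hd', hpc, hpd, ← add_assoc, ← add_assoc]
    congr 1
    · revert h3
      cases x (p c) <;> cases x (p d) <;> simp
    · apply sum_congr rfl
      intro z hz
      simp only [mem_erase] at hz
      rw [hpz z hz.2.2 hz.2.1 hz.1]

theorem slot_inj (a : Fin n) (U : Set (Fin n)) :
    Set.InjOn (fun z => s(a, z)) U := by
  intro z _ w _ h
  simp only [Sym2.eq_iff] at h
  rcases h with h | h
  · exact h.2
  · exact h.2.trans h.1

theorem slot_ne {a b : Fin n} (hab : a ≠ b) : ∀ z ∈ cols a b, ∀ w ∈ cols a b,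
    (fun z => s(a, z)) z ≠ (fun z => s(b, z)) w := by
  intro z hz w hw h
  rw [mem_cols_fin] at hz hw
  simp only [Sym2.eq_iff] at h
  rcases h with h | h
  · exact hab h.1
  · exact hw.1 h.1.symm

/-- the switch for a tuple `(a, b, c, d)` -/
def SW (a b c d : Fin n) (x : Sym2 (Fin n) → Bool) : Sym2 (Fin n) → Bool :=
  sw (fun z => s(a, z)) (fun z => s(b, z)) c d x

theorem grel_SW {a b c d : Fin n} (hab : a ≠ b) (hc : c ∈ cols a b) (hd : d ∈ cols a b)
    (x : Sym2 (Fin n) → Bool) : grel a b x (SW a b c d x) :=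
  rel_sw' (slot_inj a _) (slot_inj b _) (slot_ne hab) hc hd x

/-! ### restriction to the realizations -/

theorem restrict_T1
    (hT1 : ∀ (p q : Fin n → Sym2 (Fin n)) (U : Finset (Fin n)), Set.InjOn p U → Set.InjOn q U →
      (∀ z ∈ U, ∀ w ∈ U, p z ≠ q w) → ∀ f : (Sym2 (Fin n) → Bool) → ℝ,
      ∑ x, (f x - cE (rel p q U) f x) ^ 2 ≤ (1 / 8) * ∑ c ∈ U, ∑ d ∈ U, en p q c d f)
    {d : Fin n → ℕ} {a b : Fin n} (hab : a ≠ b) (F : (Sym2 (Fin n) → Bool) → ℝ) :
    ∑ x ∈ realB d, hh a b F x ^ 2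
      ≤ (1 / 8) * ∑ c ∈ cols a b, ∑ e ∈ cols a b, ∑ x ∈ realB d, (F x - F (SW a b c e x)) ^ 2 := by
  set g : (Sym2 (Fin n) → Bool) → ℝ := fun x => if x ∈ realB d then F x else 0 with hg
  have h1 : ∀ x ∈ realB d, hh a b F x = g x - cE (grel a b) g x := by
    intro x hx
    unfold hh
    have : cE (grel a b) F x = cE (grel a b) g x := by
      apply cE_eq_of_eqOn
      intro y hy
      simp only [hg]
      rw [if_pos (realB_closed hab hx hy)]
    rw [this]
    simp only [hg]
    rw [if_pos hx]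
  have h2 := hT1 (fun z => s(a, z)) (fun z => s(b, z)) (cols a b) (slot_inj a _) (slot_inj b _)
    (slot_ne hab) g
  have h3 : ∑ x ∈ realB d, hh a b F x ^ 2 ≤ ∑ x, (g x - cE (grel a b) g x) ^ 2 := by
    rw [sum_congr rfl fun x hx => by rw [h1 x hx]]
    exact sum_le_sum_of_subset_of_nonneg (subset_univ _) fun x _ _ => sq_nonneg _
  refine h3.trans (h2.trans (le_of_eq ?_))
  congr 1
  apply sum_congr rfl
  intro c hc
  apply sum_congr rfl
  intro e he
  unfold en
  rw [← sum_subset (subset_univ (realB d))]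
  · apply sum_congr rfl
    intro x hx
    simp only [hg]
    rw [if_pos hx]
    have := realB_closed hab hx (grel_SW hab hc he x)
    unfold SW at this
    rw [if_pos this]
    rfl
  · intro x _ hx
    simp only [hg]
    rw [if_neg hx]
    have : SW a b c e x ∉ realB d := fun h =>
      hx (realB_closed hab h ((grel a b).symm' (grel_SW hab hc he x)))
    unfold SW at this
    rw [if_neg this]
    simp

/-! ### a switch is a `SwitchAdj` pair -/

theorem osep_of_ne {a b c d : Fin n} {x : Sym2 (Fin n) → Bool} (h : SW a b c d x ≠ x) :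
    Osep (fun z => s(a, z)) (fun z => s(b, z)) c d x := by
  by_contra h'
  exact h (sw_of_not h')

theorem SW_apply {a b c d : Fin n} {x : Sym2 (Fin n) → Bool}
    (h : Osep (fun z => s(a, z)) (fun z => s(b, z)) c d x) (e : Sym2 (Fin n)) :
    SW a b c d x e =
      if (e = s(a, c) ∨ e = s(a, d) ∨ e = s(b, c) ∨ e = s(b, d)) then !(x e) else x e :=
  sw_of h e

theorem adj_SW {a b c d : Fin n} (hab : a ≠ b) (hc : c ∈ cols a b) (hd : d ∈ cols a b)
    {x : Sym2 (Fin n) → Bool} (h : SW a b c d x ≠ x) :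
    SwitchAdj (ofB x) (ofB (SW a b c d x)) := by
  have hO := osep_of_ne h
  have hcd := hO.ne
  have hS := SW_apply hO
  obtain ⟨h1, h2, h3⟩ := hO
  rw [mem_cols_fin] at hc hd
  have hval : ∀ (u v : Fin n) (huv : u ≠ v), (mkE u v huv).1 = s(u, v) := fun _ _ _ => rfl
  simp only at h1 h2 h3
  rcases Bool.eq_false_or_eq_true (x s(a, c)) with hac | hac
  · -- `ac`, `bd` present
    have hbd : x s(b, d) = true := by rw [← h1]; exact hac
    have had : x s(a, d) = false := by
      rw [hac] at h3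
      simpa using h3.symm
    have hbc : x s(b, c) = false := by rw [← h2]; exact had
    refine ⟨a, c, d, b, hc.1.symm, hd.2, hd.1.symm, hc.2, hab, hcd, ?_, ?_, ?_, ?_, ?_⟩
    · rw [mem_ofB, hval]; exact hac
    · rw [mem_ofB, hval, Sym2.eq_swap]; exact hbd
    · rw [mem_ofB, hval, had]; simp
    · rw [mem_ofB, hval, Sym2.eq_swap, hbc]; simp
    · ext e
      have e1 : e = mkE a c hc.1.symm ↔ e.1 = s(a, c) := by rw [Subtype.ext_iff, hval]
      have e2 : e = mkE d b hd.2 ↔ e.1 = s(b, d) := by rw [Subtype.ext_iff, hval, Sym2.eq_swap]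
      have e3 : e = mkE a d hd.1.symm ↔ e.1 = s(a, d) := by rw [Subtype.ext_iff, hval]
      have e4 : e = mkE c b hc.2 ↔ e.1 = s(b, c) := by rw [Subtype.ext_iff, hval, Sym2.eq_swap]
      simp only [mem_union, mem_sdiff, mem_insert, mem_singleton, mem_ofB, hS, e1, e2, e3, e4]
      by_cases q1 : e.1 = s(a, c)
      · rw [q1]
        have : s(a, c) ≠ s(a, d) := by
          intro h'; rw [h'] at hac; rw [had] at hac; exact Bool.false_ne_true hac
        have : s(a, c) ≠ s(b, c) := by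
          intro h'; rw [h'] at hac; rw [hbc] at hac; exact Bool.false_ne_true hac
        simp [*]
      by_cases q2 : e.1 = s(b, d)
      · rw [q2]
        have : s(b, d) ≠ s(a, d) := by
          intro h'; rw [h'] at hbd; rw [had] at hbd; exact Bool.false_ne_true hbd
        have : s(b, d) ≠ s(b, c) := by
          intro h'; rw [h'] at hbd; rw [hbc] at hbd; exact Bool.false_ne_true hbd
        simp [*]
      by_cases q3 : e.1 = s(a, d)
      · simp [q3, had]
      by_cases q4 : e.1 = s(b, c)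
      · simp [q4, hbc]
      simp [q1, q2, q3, q4]
  · -- `ad`, `bc` present
    have hbd : x s(b, d) = false := by rw [← h1]; exact hac
    have had : x s(a, d) = true := by
      rw [hac] at h3
      simpa using h3.symm
    have hbc : x s(b, c) = true := by rw [← h2]; exact had
    refine ⟨a, d, c, b, hd.1.symm, hc.2, hc.1.symm, hd.2, hab, hcd.symm, ?_, ?_, ?_, ?_, ?_⟩
    · rw [mem_ofB, hval]; exact had
    · rw [mem_ofB, hval, Sym2.eq_swap]; exact hbc
    · rw [mem_ofB, hval, hac]; simp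
    · rw [mem_ofB, hval, Sym2.eq_swap, hbd]; simp
    · ext e
      have e1 : e = mkE a c hc.1.symm ↔ e.1 = s(a, c) := by rw [Subtype.ext_iff, hval]
      have e2 : e = mkE d b hd.2 ↔ e.1 = s(b, d) := by rw [Subtype.ext_iff, hval, Sym2.eq_swap]
      have e3 : e = mkE a d hd.1.symm ↔ e.1 = s(a, d) := by rw [Subtype.ext_iff, hval]
      have e4 : e = mkE c b hc.2 ↔ e.1 = s(b, c) := by rw [Subtype.ext_iff, hval, Sym2.eq_swap]
      simp only [mem_union, mem_sdiff, mem_insert, mem_singleton, mem_ofB, hS, e1, e2, e3, e4]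
      by_cases q1 : e.1 = s(a, d)
      · rw [q1]
        have : s(a, d) ≠ s(a, c) := by
          intro h'; rw [h'] at had; rw [hac] at had; exact Bool.false_ne_true had
        have : s(a, d) ≠ s(b, d) := by
          intro h'; rw [h'] at had; rw [hbd] at had; exact Bool.false_ne_true had
        simp [*]
      by_cases q2 : e.1 = s(b, c)
      · rw [q2]
        have : s(b, c) ≠ s(a, c) := by
          intro h'; rw [h'] at hbc; rw [hac] at hbc; exact Bool.false_ne_true hbc
        have : s(b, c) ≠ s(b, d) := by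
          intro h'; rw [h'] at hbc; rw [hbd] at hbc; exact Bool.false_ne_true hbc
        simp [*]
      by_cases q3 : e.1 = s(a, c)
      · simp [q3, hac]
      by_cases q4 : e.1 = s(b, d)
      · simp [q4, hbd]
      simp [q1, q2, q3, q4]

/-! ### counting the tuples of a given switch -/

/-- vertices at which `x` and `y` differ -/
def diffV (x y : Sym2 (Fin n) → Bool) : Finset (Fin n) :=
  univ.filter fun v => ∃ w, x s(v, w) ≠ y s(v, w)

theorem mem_diffV {x y : Sym2 (Fin n) → Bool} {v : Fin n} :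
    v ∈ diffV x y ↔ ∃ w, x s(v, w) ≠ y s(v, w) := by simp [diffV]

theorem diffV_subset {a b c d : Fin n} {x : Sym2 (Fin n) → Bool} :
    diffV x (SW a b c d x) ⊆ {a, b, c, d} := by
  intro v hv
  rw [mem_diffV] at hv
  obtain ⟨w, hw⟩ := hv
  by_cases hO : Osep (fun z => s(a, z)) (fun z => s(b, z)) c d x
  · rw [SW_apply hO] at hw
    split_ifs at hw with h
    · simp only [Sym2.eq_iff] at h
      simp only [mem_insert, mem_singleton]
      tauto
    · exact absurd rfl hw
  · exfalso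
    apply hw
    unfold SW
    rw [sw_of_not hO]

theorem card_diffV_le {a b c d : Fin n} {x : Sym2 (Fin n) → Bool} :
    (diffV x (SW a b c d x)).card ≤ 4 :=
  (card_le_card diffV_subset).trans card_le_four

theorem mem_diffV_of_ne {a b c d : Fin n} {x : Sym2 (Fin n) → Bool} (h : SW a b c d x ≠ x) :
    a ∈ diffV x (SW a b c d x) ∧ b ∈ diffV x (SW a b c d x) ∧ c ∈ diffV x (SW a b c d x) ∧
      d ∈ diffV x (SW a b c d x) := by
  have hO := osep_of_ne h
  have hS := SW_apply hO
  refine ⟨?_, ?_, ?_, ?_⟩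
  · rw [mem_diffV]
    refine ⟨c, ?_⟩
    rw [hS, if_pos (Or.inl rfl)]
    cases x s(a, c) <;> simp
  · rw [mem_diffV]
    refine ⟨c, ?_⟩
    rw [hS, if_pos (Or.inr (Or.inr (Or.inl rfl)))]
    cases x s(b, c) <;> simp
  · rw [mem_diffV]
    refine ⟨a, ?_⟩
    rw [Sym2.eq_swap, hS, if_pos (Or.inl rfl)]
    cases x s(a, c) <;> simp
  · rw [mem_diffV]
    refine ⟨a, ?_⟩
    rw [Sym2.eq_swap, hS, if_pos (Or.inr (Or.inl rfl))]
    cases x s(a, d) <;> simp

/-- the admissible tuples -/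
def tup (n : ℕ) : Finset (Fin n × Fin n × Fin n × Fin n) :=
  univ.filter fun t => t.2.1 ≠ t.1 ∧ t.2.2.1 ∈ cols t.1 t.2.1 ∧ t.2.2.2 ∈ cols t.1 t.2.1

theorem mem_tup {t : Fin n × Fin n × Fin n × Fin n} :
    t ∈ tup n ↔ t.2.1 ≠ t.1 ∧ t.2.2.1 ∈ cols t.1 t.2.1 ∧ t.2.2.2 ∈ cols t.1 t.2.1 := by
  simp [tup]

theorem sum_tup (ψ : Fin n → Fin n → Fin n → Fin n → ℝ) :
    ∑ a, ∑ b ∈ univ.erase a, ∑ c ∈ cols a b, ∑ e ∈ cols a b, ψ a b c e
      = ∑ t ∈ tup n, ψ t.1 t.2.1 t.2.2.1 t.2.2.2 := by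
  unfold tup
  rw [sum_filter, Fintype.sum_prod_type]
  apply sum_congr rfl
  intro a _
  rw [Fintype.sum_prod_type]
  have : (univ : Finset (Fin n)).erase a = univ.filter fun b => b ≠ a := by
    ext b; simp
  rw [this, sum_filter]
  apply sum_congr rfl
  intro b _
  rw [Fintype.sum_prod_type]
  split_ifs with hb
  · have hc : cols a b = univ.filter fun z => z ∈ cols a b := by ext z; simp
    conv_lhs => rw [hc]
    rw [sum_filter]
    apply sum_congr rfl
    intro c _
    split_ifs with h1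
    · rw [sum_filter]
      apply sum_congr rfl
      intro e _
      by_cases h2 : e ∈ cols a b
      · rw [if_pos h2, if_pos ⟨hb, h1, h2⟩]
      · rw [if_neg h2, if_neg]
        rintro ⟨_, _, h⟩; exact h2 h
    · symm
      apply sum_eq_zero
      intro e _
      rw [if_neg]
      rintro ⟨_, h, _⟩; exact h1 h
  · symm
    apply sum_eq_zero
    intro c _
    apply sum_eq_zero
    intro e _
    rw [if_neg]
    rintro ⟨h, _⟩
    exact hb h

open Classical in
theorem count_le {d : Fin n → ℕ} (F : (Sym2 (Fin n) → Bool) → ℝ) {x : Sym2 (Fin n) → Bool}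
    (hx : x ∈ realB d) :
    ∑ t ∈ tup n, (F x - F (SW t.1 t.2.1 t.2.2.1 t.2.2.2 x)) ^ 2
      ≤ 256 * ∑ y ∈ realB d, if SwitchAdj (ofB x) (ofB y) then (F x - F y) ^ 2 else 0 := by
  have h1 : ∀ t ∈ tup n, (F x - F (SW t.1 t.2.1 t.2.2.1 t.2.2.2 x)) ^ 2
      = ∑ y ∈ realB d, if SW t.1 t.2.1 t.2.2.1 t.2.2.2 x = y then (F x - F y) ^ 2 else 0 := by
    intro t ht
    rw [mem_tup] at ht
    rw [sum_ite_eq, if_pos]
    exact realB_closed ht.1.symm hx (grel_SW ht.1.symm ht.2.1 ht.2.2 x)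
  rw [sum_congr rfl h1, sum_comm, mul_sum]
  apply sum_le_sum
  intro y _
  rw [← sum_filter, sum_const, nsmul_eq_mul]
  by_cases hyx : y = x
  · subst hyx
    simp only [sub_self, ne_eq, OfNat.ofNat_ne_zero, not_false_eq_true, zero_pow, mul_zero]
    split_ifs <;> simp
  rcases (filter (fun t : Fin n × Fin n × Fin n × Fin n =>
      SW t.1 t.2.1 t.2.2.1 t.2.2.2 x = y) (tup n)).eq_empty_or_nonempty with he | hne
  · rw [he, card_empty, Nat.cast_zero, zero_mul]
    split_ifs <;> positivity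
  obtain ⟨t0, ht0⟩ := hne
  rw [mem_filter, mem_tup] at ht0
  obtain ⟨⟨hb0, hc0, hd0⟩, hy0⟩ := ht0
  have hne0 : SW t0.1 t0.2.1 t0.2.2.1 t0.2.2.2 x ≠ x := by rw [hy0]; exact hyx
  have hadj := adj_SW hb0.symm hc0 hd0 hne0
  rw [hy0] at hadj
  rw [if_pos hadj]
  apply mul_le_mul_of_nonneg_right _ (sq_nonneg _)
  have hsub : filter (fun t : Fin n × Fin n × Fin n × Fin n =>
      SW t.1 t.2.1 t.2.2.1 t.2.2.2 x = y) (tup n)
      ⊆ diffV x y ×ˢ diffV x y ×ˢ diffV x y ×ˢ diffV x y := by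
    intro t ht
    rw [mem_filter] at ht
    have hne : SW t.1 t.2.1 t.2.2.1 t.2.2.2 x ≠ x := by rw [ht.2]; exact hyx
    have := mem_diffV_of_ne hne
    rw [ht.2] at this
    simp only [mem_product]
    exact this
  have hcard : (diffV x y).card ≤ 4 := by
    rw [← hy0]; exact card_diffV_le
  have hle := card_le_card hsub
  rw [card_product, card_product, card_product] at hle
  have h4 : (diffV x y).card * ((diffV x y).card * ((diffV x y).card * (diffV x y).card))
      ≤ 4 * (4 * (4 * 4)) := by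
    gcongr
  have : (filter (fun t : Fin n × Fin n × Fin n × Fin n =>
      SW t.1 t.2.1 t.2.2.1 t.2.2.2 x = y) (tup n)).card ≤ 256 := by omega
  exact_mod_cast this

open Classical in
/-- **T11**: the hypothesis of `poincare_of_switchAdj`. -/
theorem switch_poincare (hn : 4 ≤ n)
    (hT1 : ∀ (p q : Fin n → Sym2 (Fin n)) (U : Finset (Fin n)), Set.InjOn p U → Set.InjOn q U →
      (∀ z ∈ U, ∀ w ∈ U, p z ≠ q w) → ∀ f : (Sym2 (Fin n) → Bool) → ℝ,
      ∑ x, (f x - cE (rel p q U) f x) ^ 2 ≤ (1 / 8) * ∑ c ∈ U, ∑ d ∈ U, en p q c d f)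
    (hT9 : ∀ C : Finset (Sym2 (Fin n) → Bool),
      (∀ a b : Fin n, a ≠ b → ∀ x y, x ∈ C → grel a b x y → y ∈ C) →
      (∀ g : (Sym2 (Fin n) → Bool) → ℝ, (∀ a b, a ≠ b → ∀ x y, grel a b x y → g x = g y) →
        ∀ x ∈ C, ∀ y ∈ C, g x = g y) →
      ∀ f : (Sym2 (Fin n) → Bool) → ℝ,
      (C.card : ℝ) * (∑ x ∈ C, f x ^ 2) - (∑ x ∈ C, f x) ^ 2
        ≤ (C.card : ℝ) * ((1 / 2) * ∑ a, ∑ b ∈ univ.erase a, ∑ x ∈ C, hh a b f x ^ 2))
    (hT10 : ∀ g : (Sym2 (Fin n) → Bool) → ℝ,
      (∀ a b, a ≠ b → ∀ x y, grel a b x y → g x = g y) → ∀ x y : Sym2 (Fin n) → Bool,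
      (∀ v, x s(v, v) = y s(v, v)) →
      (∀ v, ∑ w ∈ univ.erase v, (x s(v, w)).toNat = ∑ w ∈ univ.erase v, (y s(v, w)).toNat) →
      g x = g y)
    (d : Fin n → ℕ) (f : Finset (Edge n) → ℝ) :
    ((realizations d).card : ℝ) * (∑ G ∈ realizations d, f G ^ 2) -
            (∑ G ∈ realizations d, f G) ^ 2 ≤
          (n : ℝ) ^ 2 * (realizations d).card *
            ∑ G ∈ realizations d, ∑ G' ∈ realizations d,
              if SwitchAdj G G' then (f G - f G') ^ 2 else 0 := by
  set F : (Sym2 (Fin n) → Bool) → ℝ := fun x => f (ofB x) with hF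
  have h9 := hT9 (realB d) (fun a b hab x y hx h => realB_closed hab hx h)
    (fun g hg x hx y hy => hT10 g hg x y
      (fun v => by rw [(mem_realB.mp hx).1, (mem_realB.mp hy).1])
      (fun v => ((mem_realB.mp hx).2 v).trans ((mem_realB.mp hy).2 v).symm)) F
  rw [card_realB, sum_realB d (fun G => f G ^ 2), sum_realB d f] at h9
  refine h9.trans ?_
  have hS : ∑ x ∈ realB d, ∑ y ∈ realB d,
        (if SwitchAdj (ofB x) (ofB y) then (F x - F y) ^ 2 else 0)
      = ∑ G ∈ realizations d, ∑ G' ∈ realizations d,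
          (if SwitchAdj G G' then (f G - f G') ^ 2 else 0) := by
    rw [← sum_realB d (fun G => ∑ G' ∈ realizations d,
      (if SwitchAdj G G' then (f G - f G') ^ 2 else 0))]
    apply sum_congr rfl
    intro x _
    rw [← sum_realB d (fun G' => (if SwitchAdj (ofB x) G' then (f (ofB x) - f G') ^ 2 else 0))]
  rw [← hS]
  set Sg := ∑ x ∈ realB d, ∑ y ∈ realB d,
        (if SwitchAdj (ofB x) (ofB y) then (F x - F y) ^ 2 else 0) with hSg
  have hSg0 : 0 ≤ Sg := by
    apply sum_nonneg; intro x _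
    apply sum_nonneg; intro y _
    split_ifs <;> positivity
  have hA : ∑ a, ∑ b ∈ univ.erase a, ∑ x ∈ realB d, hh a b F x ^ 2
      ≤ (1 / 8) * (256 * Sg) := by
    calc ∑ a, ∑ b ∈ univ.erase a, ∑ x ∈ realB d, hh a b F x ^ 2
        ≤ ∑ a, ∑ b ∈ univ.erase a, (1 / 8) * ∑ c ∈ cols a b, ∑ e ∈ cols a b,
            ∑ x ∈ realB d, (F x - F (SW a b c e x)) ^ 2 := by
          apply sum_le_sum; intro a _
          apply sum_le_sum; intro b hb
          exact restrict_T1 hT1 (ne_of_mem_erase hb).symm F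
      _ = (1 / 8) * ∑ a, ∑ b ∈ univ.erase a, ∑ c ∈ cols a b, ∑ e ∈ cols a b,
            ∑ x ∈ realB d, (F x - F (SW a b c e x)) ^ 2 := by
          simp only [mul_sum]
      _ = (1 / 8) * ∑ x ∈ realB d, ∑ t ∈ tup n,
            (F x - F (SW t.1 t.2.1 t.2.2.1 t.2.2.2 x)) ^ 2 := by
          rw [sum_tup (fun a b c e => ∑ x ∈ realB d, (F x - F (SW a b c e x)) ^ 2), sum_comm]
      _ ≤ (1 / 8) * ∑ x ∈ realB d, 256 * ∑ y ∈ realB d,
            (if SwitchAdj (ofB x) (ofB y) then (F x - F y) ^ 2 else 0) := by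
          apply mul_le_mul_of_nonneg_left _ (by norm_num)
          apply sum_le_sum
          intro x hx
          exact count_le F hx
      _ = (1 / 8) * (256 * Sg) := by rw [← mul_sum]
  have hn' : (4 : ℝ) ≤ n := by exact_mod_cast hn
  have hcard : (0 : ℝ) ≤ (realizations d).card := Nat.cast_nonneg _
  have hn2 : (16 : ℝ) ≤ (n : ℝ) ^ 2 := by nlinarith
  calc ((realizations d).card : ℝ) * ((1 / 2) * ∑ a, ∑ b ∈ univ.erase a, ∑ x ∈ realB d,
        hh a b F x ^ 2)
      ≤ ((realizations d).card : ℝ) * ((1 / 2) * ((1 / 8) * (256 * Sg))) := by gcongr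
    _ = 16 * ((realizations d).card * Sg) := by ring
    _ ≤ (n : ℝ) ^ 2 * ((realizations d).card * Sg) := by gcongr
    _ = (n : ℝ) ^ 2 * (realizations d).card * Sg := by ring

/-- The Poincaré part of S0453, from T1, T9, T10. -/
theorem final_poincare (hn : 4 ≤ n)
    (hT1 : ∀ (p q : Fin n → Sym2 (Fin n)) (U : Finset (Fin n)), Set.InjOn p U → Set.InjOn q U →
      (∀ z ∈ U, ∀ w ∈ U, p z ≠ q w) → ∀ f : (Sym2 (Fin n) → Bool) → ℝ,
      ∑ x, (f x - cE (rel p q U) f x) ^ 2 ≤ (1 / 8) * ∑ c ∈ U, ∑ d ∈ U, en p q c d f)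
    (hT9 : ∀ C : Finset (Sym2 (Fin n) → Bool),
      (∀ a b : Fin n, a ≠ b → ∀ x y, x ∈ C → grel a b x y → y ∈ C) →
      (∀ g : (Sym2 (Fin n) → Bool) → ℝ, (∀ a b, a ≠ b → ∀ x y, grel a b x y → g x = g y) →
        ∀ x ∈ C, ∀ y ∈ C, g x = g y) →
      ∀ f : (Sym2 (Fin n) → Bool) → ℝ,
      (C.card : ℝ) * (∑ x ∈ C, f x ^ 2) - (∑ x ∈ C, f x) ^ 2
        ≤ (C.card : ℝ) * ((1 / 2) * ∑ a, ∑ b ∈ univ.erase a, ∑ x ∈ C, hh a b f x ^ 2))
    (hT10 : ∀ g : (Sym2 (Fin n) → Bool) → ℝ,
      (∀ a b, a ≠ b → ∀ x y, grel a b x y → g x = g y) → ∀ x y : Sym2 (Fin n) → Bool,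
      (∀ v, x s(v, v) = y s(v, v)) →
      (∀ v, ∑ w ∈ univ.erase v, (x s(v, w)).toNat = ∑ w ∈ univ.erase v, (y s(v, w)).toNat) →
      g x = g y)
    (d : Fin n → ℕ) (f : Finset (Edge n) → ℝ) :
    ((realizations d).card : ℝ) * (∑ G ∈ realizations d, f G ^ 2) -
            (∑ G ∈ realizations d, f G) ^ 2 ≤
          24 * (n : ℝ) ^ 2 * (n.choose 4 : ℝ) * (realizations d).card *
            ∑ G ∈ realizations d,
              f G * (f G - ∑ G' ∈ realizations d, kernel n G G' * f G') :=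
  poincare_of_switchAdj hn d f (switch_poincare hn hT1 hT9 hT10 d f)

/-- **S0453 from T1, T9, T10.** -/
theorem final_S0453 (hn : 4 ≤ n)
    (hT1 : ∀ (p q : Fin n → Sym2 (Fin n)) (U : Finset (Fin n)), Set.InjOn p U → Set.InjOn q U →
      (∀ z ∈ U, ∀ w ∈ U, p z ≠ q w) → ∀ f : (Sym2 (Fin n) → Bool) → ℝ,
      ∑ x, (f x - cE (rel p q U) f x) ^ 2 ≤ (1 / 8) * ∑ c ∈ U, ∑ d ∈ U, en p q c d f)
    (hT9 : ∀ C : Finset (Sym2 (Fin n) → Bool),
      (∀ a b : Fin n, a ≠ b → ∀ x y, x ∈ C → grel a b x y → y ∈ C) →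
      (∀ g : (Sym2 (Fin n) → Bool) → ℝ, (∀ a b, a ≠ b → ∀ x y, grel a b x y → g x = g y) →
        ∀ x ∈ C, ∀ y ∈ C, g x = g y) →
      ∀ f : (Sym2 (Fin n) → Bool) → ℝ,
      (C.card : ℝ) * (∑ x ∈ C, f x ^ 2) - (∑ x ∈ C, f x) ^ 2
        ≤ (C.card : ℝ) * ((1 / 2) * ∑ a, ∑ b ∈ univ.erase a, ∑ x ∈ C, hh a b f x ^ 2))
    (hT10 : ∀ g : (Sym2 (Fin n) → Bool) → ℝ,
      (∀ a b, a ≠ b → ∀ x y, grel a b x y → g x = g y) → ∀ x y : Sym2 (Fin n) → Bool,
      (∀ v, x s(v, v) = y s(v, v)) →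
      (∀ v, ∑ w ∈ univ.erase v, (x s(v, w)).toNat = ∑ w ∈ univ.erase v, (y s(v, w)).toNat) →
      g x = g y)
    (d : Fin n → ℕ) :
    (∃ t : ℕ, t ≤ 2 * n ^ 8 ∧ ∀ G ∈ Crest.SwitchChain.realizations d,
        Crest.SwitchChain.tvDist (fun G' => (Crest.SwitchChain.kernel n ^ t) G G')
          (Crest.SwitchChain.unifOn (Crest.SwitchChain.realizations d)) ≤ 1 / 4) ∧
      ∀ f : Finset (Crest.SwitchChain.Edge n) → ℝ,
        ((Crest.SwitchChain.realizations d).card : ℝ) *
              (∑ G ∈ Crest.SwitchChain.realizations d, f G ^ 2) -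
            (∑ G ∈ Crest.SwitchChain.realizations d, f G) ^ 2 ≤
          24 * (n : ℝ) ^ 2 * (n.choose 4 : ℝ) * (Crest.SwitchChain.realizations d).card *
            ∑ G ∈ Crest.SwitchChain.realizations d,
              f G * (f G - ∑ G' ∈ Crest.SwitchChain.realizations d,
                Crest.SwitchChain.kernel n G G' * f G') := by
  refine ⟨⟨2 * n ^ 8, le_refl _, fun G hG => ?_⟩, fun f => final_poincare hn hT1 hT9 hT10 d f⟩
  exact tv_of_poincare hn d (fun f => final_poincare hn hT1 hT9 hT10 d f) G hG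

end Crest.Agent.R299
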