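import Mathlib

/-! The two inequalities on one Johnson class `M.powersetCard x` used in row 299. -/

set_option autoImplicit false

namespace Crest.Agent.R299.Johnson

open Finset

section Sw
variable {α : Type*} [DecidableEq α]

/-- Exchange two elements in a finite set. -/
def sw (c d : α) (A : Finset α) : Finset α := A.map (Equiv.swap c d).toEmbedding

theorem mem_sw {c d a : α} {A : Finset α} : a ∈ sw c d A ↔ Equiv.swap c d a ∈ A := by
  simp only [sw, Finset.mem_map_equiv, Equiv.symm_swap]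

@[simp] theorem sw_sw (c d : α) (A : Finset α) : sw c d (sw c d A) = A := by
  ext a
  rw [mem_sw, mem_sw, Equiv.swap_apply_self]

theorem sw_comm (c d : α) (A : Finset α) : sw c d A = sw d c A := by
  rw [sw, sw, Equiv.swap_comm]

@[simp] theorem sw_self (c : α) (A : Finset α) : sw c c A = A := by
  ext a
  rw [mem_sw, Equiv.swap_self, Equiv.refl_apply]

@[simp] theorem card_sw (c d : α) (A : Finset α) : (sw c d A).card = A.card := by
  rw [sw, Finset.card_map]

theorem swap_mem {M : Finset α} {c d : α} (hc : c ∈ M) (hd : d ∈ M) (a : α) :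
    Equiv.swap c d a ∈ M ↔ a ∈ M := by
  by_cases h1 : a = c
  · subst h1; simp [hc, hd]
  · by_cases h2 : a = d
    · subst h2; simp [hc, hd]
    · rw [Equiv.swap_apply_of_ne_of_ne h1 h2]

theorem sw_mem {M : Finset α} {x : ℕ} {c d : α} (hc : c ∈ M) (hd : d ∈ M) {A : Finset α}
    (hA : A ∈ M.powersetCard x) : sw c d A ∈ M.powersetCard x := by
  rw [Finset.mem_powersetCard] at hA ⊢
  refine ⟨?_, by rw [card_sw]; exact hA.2⟩
  intro a ha
  rw [mem_sw] at ha
  have := hA.1 ha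
  rwa [swap_mem hc hd] at this

theorem sum_sw {M : Finset α} {x : ℕ} {c d : α} (hc : c ∈ M) (hd : d ∈ M)
    (F : Finset α → ℝ) :
    ∑ A ∈ M.powersetCard x, F (sw c d A) = ∑ A ∈ M.powersetCard x, F A := by
  apply Finset.sum_nbij' (sw c d) (sw c d)
  · intro A hA; exact sw_mem hc hd hA
  · intro A hA; exact sw_mem hc hd hA
  · intro A _; exact sw_sw c d A
  · intro A _; exact sw_sw c d A
  · intro A _; rfl

/-- The Dirichlet form of one pair. -/
noncomputable def Epair (M : Finset α) (x : ℕ) (f : Finset α → ℝ) (c d : α) : ℝ :=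
  (1 / 2) * ∑ A ∈ M.powersetCard x, (f A - f (sw c d A)) ^ 2

/-- The Dirichlet form, summed over ordered pairs. -/
noncomputable def Etot (M : Finset α) (x : ℕ) (f : Finset α → ℝ) : ℝ :=
  ∑ c ∈ M, ∑ d ∈ M, Epair M x f c d

theorem Epair_nonneg (M : Finset α) (x : ℕ) (f : Finset α → ℝ) (c d : α) :
    0 ≤ Epair M x f c d := by
  unfold Epair
  positivity

theorem Epair_self (M : Finset α) (x : ℕ) (f : Finset α → ℝ) (c : α) :
    Epair M x f c c = 0 := by
  unfold Epair
  simp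

theorem Etot_nonneg (M : Finset α) (x : ℕ) (f : Finset α → ℝ) : 0 ≤ Etot M x f := by
  unfold Etot
  exact Finset.sum_nonneg fun c _ => Finset.sum_nonneg fun d _ => Epair_nonneg M x f c d

/-- `1` if exactly one of `c`, `d` lies in `A`, else `0`. -/
def sep (c d : α) (A : Finset α) : ℝ := if (c ∈ A ↔ d ∈ A) then 0 else 1

/-- `∑ f` over the sets separating `c` and `d`. -/
noncomputable def Ssum (M : Finset α) (x : ℕ) (f : Finset α → ℝ) (c d : α) : ℝ :=
  ∑ A ∈ M.powersetCard x, sep c d A * f A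

/-- `∑ f` over the sets containing `c`. -/
noncomputable def asum (M : Finset α) (x : ℕ) (f : Finset α → ℝ) (c : α) : ℝ :=
  ∑ A ∈ M.powersetCard x, (if c ∈ A then f A else 0)

/-- number of sets separating `c` and `d` (as a real). -/
noncomputable def wsum (M : Finset α) (x : ℕ) (c d : α) : ℝ :=
  ∑ A ∈ M.powersetCard x, sep c d A

theorem Ssum_self (M : Finset α) (x : ℕ) (f : Finset α → ℝ) (c : α) :
    Ssum M x f c c = 0 := by
  unfold Ssum sep
  simp

/-- A common Cauchy–Schwarz step. -/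
theorem cs_step {M : Finset α} {x : ℕ} {f : Finset α → ℝ} {c c' : α} (hc : c ∈ M)
    (hc' : c' ∈ M) (u u' : Finset α → ℝ) (huu : ∀ A, u' (sw c c' A) = u A)
    (hu2 : ∀ A, (u A - u' A) ^ 2 ≤ sep c c' A) :
    (∑ A ∈ M.powersetCard x, u A * f A - ∑ A ∈ M.powersetCard x, u' A * f A) ^ 2 ≤
      (wsum M x c c' / 2) * Epair M x f c c' := by
  set P := M.powersetCard x with hP
  set g : Finset α → ℝ := fun A => f A - f (sw c c' A) with hg
  have h1 : ∑ A ∈ P, u' A * f A = ∑ A ∈ P, u A * f (sw c c' A) := by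
    rw [← sum_sw hc hc' (fun A => u' A * f A)]
    exact Finset.sum_congr rfl fun A _ => by simp only [huu]
  have h1' : ∑ A ∈ P, u A * f A = ∑ A ∈ P, u' A * f (sw c c' A) := by
    rw [← sum_sw hc hc' (fun A => u' A * f (sw c c' A))]
    exact Finset.sum_congr rfl fun A _ => by simp only [huu, sw_sw]
  have h2 : ∑ A ∈ P, u A * f A - ∑ A ∈ P, u' A * f A =
      (1 / 2) * ∑ A ∈ P, (u A - u' A) * g A := by
    have e1 : ∑ A ∈ P, (u A - u' A) * g A =
        ∑ A ∈ P, u A * f A - ∑ A ∈ P, u A * f (sw c c' A) - ∑ A ∈ P, u' A * f A +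
          ∑ A ∈ P, u' A * f (sw c c' A) := by
      rw [← Finset.sum_sub_distrib, ← Finset.sum_sub_distrib, ← Finset.sum_add_distrib]
      exact Finset.sum_congr rfl fun A _ => by simp only [hg]; ring
    rw [e1, ← h1, ← h1']
    ring
  have h3 : (∑ A ∈ P, (u A - u' A) * g A) ^ 2 ≤
      (∑ A ∈ P, (u A - u' A) ^ 2) * ∑ A ∈ P, g A ^ 2 :=
    Finset.sum_mul_sq_le_sq_mul_sq P _ _
  have h4 : ∑ A ∈ P, (u A - u' A) ^ 2 ≤ wsum M x c c' :=
    Finset.sum_le_sum fun A _ => hu2 A
  have h5 : 0 ≤ ∑ A ∈ P, g A ^ 2 := Finset.sum_nonneg fun A _ => sq_nonneg _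
  have h6 : Epair M x f c c' = (1 / 2) * ∑ A ∈ P, g A ^ 2 := rfl
  rw [h2, h6]
  have h7 := h3.trans (mul_le_mul_of_nonneg_right h4 h5)
  nlinarith [h7]

theorem Ssum_diff {M : Finset α} {x : ℕ} {f : Finset α → ℝ} {c c' d : α} (hc : c ∈ M)
    (hc' : c' ∈ M) (hdc : d ≠ c) (hdc' : d ≠ c') :
    (Ssum M x f c d - Ssum M x f c' d) ^ 2 ≤
      (wsum M x c c' / 2) * Epair M x f c c' := by
  refine cs_step hc hc' (sep c d) (sep c' d) ?_ ?_
  · intro A
    unfold sep
    simp only [mem_sw, Equiv.swap_apply_right, Equiv.swap_apply_of_ne_of_ne hdc hdc']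
  · intro A
    unfold sep
    by_cases h1 : c ∈ A <;> by_cases h2 : c' ∈ A <;> by_cases h3 : d ∈ A <;>
      simp [h1, h2, h3]

theorem asum_eq (M : Finset α) (x : ℕ) (f : Finset α → ℝ) (c : α) :
    asum M x f c = ∑ A ∈ M.powersetCard x, (if c ∈ A then (1 : ℝ) else 0) * f A := by
  unfold asum
  exact Finset.sum_congr rfl fun A _ => by split_ifs <;> simp

theorem asum_diff {M : Finset α} {x : ℕ} {f : Finset α → ℝ} {c c' : α} (hc : c ∈ M)
    (hc' : c' ∈ M) :
    (asum M x f c - asum M x f c') ^ 2 ≤ (wsum M x c c' / 2) * Epair M x f c c' := by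
  rw [asum_eq, asum_eq]
  refine cs_step hc hc' (fun A => if c ∈ A then (1 : ℝ) else 0)
    (fun A => if c' ∈ A then (1 : ℝ) else 0) ?_ ?_
  · intro A
    simp only [mem_sw, Equiv.swap_apply_right]
  · intro A
    unfold sep
    by_cases h1 : c ∈ A <;> by_cases h2 : c' ∈ A <;> simp [h1, h2]

theorem sum_sep {M : Finset α} {x : ℕ} {A : Finset α} (hA : A ∈ M.powersetCard x) (d : α) :
    ∑ c ∈ M, sep c d A = if d ∈ A then (M.card : ℝ) - x else x := by
  rw [Finset.mem_powersetCard] at hA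
  obtain ⟨hAM, hAx⟩ := hA
  have h1 : ∑ c ∈ M, (if c ∈ A then (1 : ℝ) else 0) = x := by
    rw [Finset.sum_ite_mem, Finset.inter_eq_right.mpr hAM]
    simp [hAx]
  by_cases hd : d ∈ A
  · rw [if_pos hd]
    have h2 : ∀ c ∈ M, sep c d A = 1 - (if c ∈ A then (1 : ℝ) else 0) := by
      intro c _
      unfold sep
      by_cases hc : c ∈ A <;> simp [hc, hd]
    rw [Finset.sum_congr rfl h2, Finset.sum_sub_distrib, h1]
    simp
  · rw [if_neg hd]
    have h2 : ∀ c ∈ M, sep c d A = (if c ∈ A then (1 : ℝ) else 0) := by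
      intro c _
      unfold sep
      by_cases hc : c ∈ A <;> simp [hc, hd]
    rw [Finset.sum_congr rfl h2, h1]

theorem sum_Ssum {M : Finset α} {x : ℕ} {f : Finset α → ℝ}
    (hf : ∑ A ∈ M.powersetCard x, f A = 0) (d : α) :
    ∑ c ∈ M, Ssum M x f c d = ((M.card : ℝ) - 2 * x) * asum M x f d := by
  unfold Ssum
  rw [Finset.sum_comm]
  have h1 : ∀ A ∈ M.powersetCard x, ∑ c ∈ M, sep c d A * f A =
      ((M.card : ℝ) - 2 * x) * (if d ∈ A then f A else 0) + x * f A := by
    intro A hA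
    rw [← Finset.sum_mul, sum_sep hA]
    split_ifs <;> ring
  rw [Finset.sum_congr rfl h1, Finset.sum_add_distrib, ← Finset.mul_sum, ← Finset.mul_sum, hf]
  unfold asum
  ring

theorem sum_asum {M : Finset α} {x : ℕ} {f : Finset α → ℝ}
    (hf : ∑ A ∈ M.powersetCard x, f A = 0) :
    ∑ c ∈ M, asum M x f c = 0 := by
  unfold asum
  rw [Finset.sum_comm]
  have h1 : ∀ A ∈ M.powersetCard x, ∑ c ∈ M, (if c ∈ A then f A else 0) = x * f A := by
    intro A hA
    rw [Finset.mem_powersetCard] at hA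
    rw [Finset.sum_ite_mem, Finset.inter_eq_right.mpr hA.1]
    simp [hA.2]
  rw [Finset.sum_congr rfl h1, ← Finset.mul_sum, hf, mul_zero]

omit [DecidableEq α] in
/-- `∑_{c,c'} (a_c - a_{c'})² = 2 m ∑ a² - 2 (∑ a)²`. -/
theorem sum_sq_diff (s : Finset α) (a : α → ℝ) :
    ∑ c ∈ s, ∑ c' ∈ s, (a c - a c') ^ 2 =
      2 * (s.card : ℝ) * ∑ c ∈ s, a c ^ 2 - 2 * (∑ c ∈ s, a c) ^ 2 := by
  have h1 : ∀ c ∈ s, ∑ c' ∈ s, (a c - a c') ^ 2 =
      (s.card : ℝ) * a c ^ 2 - 2 * a c * (∑ c' ∈ s, a c') + ∑ c' ∈ s, a c' ^ 2 := by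
    intro c _
    have : ∀ c' ∈ s, (a c - a c') ^ 2 = a c ^ 2 - 2 * a c * a c' + a c' ^ 2 := by
      intro c' _; ring
    rw [Finset.sum_congr rfl this, Finset.sum_add_distrib, Finset.sum_sub_distrib,
      Finset.sum_const, nsmul_eq_mul, Finset.mul_sum]
  rw [Finset.sum_congr rfl h1, Finset.sum_add_distrib, Finset.sum_sub_distrib,
    Finset.sum_const, nsmul_eq_mul, ← Finset.mul_sum, ← Finset.sum_mul, ← Finset.mul_sum]
  ring

/-- (J) for centred `f`: `∑_{c,d} S_{cd}² ≤ (W/2) 𝓔`. -/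
theorem johnson_J {M : Finset α} {x : ℕ} {f : Finset α → ℝ}
    (hf : ∑ A ∈ M.powersetCard x, f A = 0) (hx : x ≤ M.card) {W : ℝ}
    (hW : ∀ c ∈ M, ∀ c' ∈ M, c ≠ c' → wsum M x c c' ≤ W) (hW0 : 0 ≤ W) :
    ∑ c ∈ M, ∑ d ∈ M, Ssum M x f c d ^ 2 ≤ (W / 2) * Etot M x f := by
  set m : ℝ := (M.card : ℝ) with hm
  have hE : ∀ c d, 0 ≤ Epair M x f c d := Epair_nonneg M x f
  have hWE : ∀ c ∈ M, ∀ c' ∈ M, (wsum M x c c' / 2) * Epair M x f c c' ≤
      (W / 2) * Epair M x f c c' := by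
    intro c hc c' hc'
    by_cases h : c = c'
    · subst h; simp [Epair_self]
    · exact mul_le_mul_of_nonneg_right (by linarith [hW c hc c' hc' h]) (hE _ _)
  -- (6)
  have h6 : 2 * m * ∑ c ∈ M, asum M x f c ^ 2 ≤ (W / 2) * Etot M x f := by
    have e := sum_sq_diff M (asum M x f)
    rw [sum_asum hf] at e
    have e' : 2 * m * ∑ c ∈ M, asum M x f c ^ 2 =
        ∑ c ∈ M, ∑ c' ∈ M, (asum M x f c - asum M x f c') ^ 2 := by
      rw [e]; ring
    rw [e', Etot, Finset.mul_sum]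
    apply Finset.sum_le_sum
    intro c hc
    rw [Finset.mul_sum]
    apply Finset.sum_le_sum
    intro c' hc'
    exact (asum_diff hc hc').trans (hWE c hc c' hc')
  -- (5) for fixed `d`
  have h5 : ∀ d ∈ M, 2 * (m - 1) * ∑ c ∈ M, Ssum M x f c d ^ 2 -
      2 * (m - 2 * x) ^ 2 * asum M x f d ^ 2 ≤
      (W / 2) * ∑ c ∈ M.erase d, ∑ c' ∈ M.erase d, Epair M x f c c' := by
    intro d hd
    have e := sum_sq_diff (M.erase d) (fun c => Ssum M x f c d)
    have e1 : ∑ c ∈ M.erase d, Ssum M x f c d = ∑ c ∈ M, Ssum M x f c d := by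
      rw [← Finset.add_sum_erase M _ hd, Ssum_self, zero_add]
    have e2 : ∑ c ∈ M.erase d, Ssum M x f c d ^ 2 = ∑ c ∈ M, Ssum M x f c d ^ 2 := by
      rw [← Finset.add_sum_erase M _ hd, Ssum_self]; ring
    have e3 : ((M.erase d).card : ℝ) = m - 1 := by
      rw [Finset.card_erase_of_mem hd, Nat.cast_sub (Finset.card_pos.mpr ⟨d, hd⟩)]
      simp [hm]
    rw [e1, e2, e3, sum_Ssum hf d] at e
    have e4 : 2 * (m - 1) * ∑ c ∈ M, Ssum M x f c d ^ 2 -
        2 * (m - 2 * x) ^ 2 * asum M x f d ^ 2 =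
        ∑ c ∈ M.erase d, ∑ c' ∈ M.erase d, (Ssum M x f c d - Ssum M x f c' d) ^ 2 := by
      rw [e]; ring
    rw [e4, Finset.mul_sum]
    apply Finset.sum_le_sum
    intro c hc
    rw [Finset.mul_sum]
    apply Finset.sum_le_sum
    intro c' hc'
    rw [Finset.mem_erase] at hc hc'
    exact (Ssum_diff hc.2 hc'.2 (Ne.symm hc.1) (Ne.symm hc'.1)).trans
      (hWE c hc.2 c' hc'.2)
  -- counting the `d`'s
  have hcount : ∑ d ∈ M, ∑ c ∈ M.erase d, ∑ c' ∈ M.erase d, Epair M x f c c' =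
      (m - 2) * Etot M x f := by
    have e1 : ∀ d ∈ M, ∑ c ∈ M.erase d, ∑ c' ∈ M.erase d, Epair M x f c c' =
        Etot M x f - ∑ c ∈ M, Epair M x f c d - ∑ c ∈ M, Epair M x f d c := by
      intro d hd
      have e2 : ∀ c, ∑ c' ∈ M.erase d, Epair M x f c c' =
          ∑ c' ∈ M, Epair M x f c c' - Epair M x f c d := by
        intro c
        rw [← Finset.add_sum_erase M _ hd]; ring
      have e3 : ∑ c ∈ M.erase d, ∑ c' ∈ M.erase d, Epair M x f c c' =
          ∑ c ∈ M, ∑ c' ∈ M.erase d, Epair M x f c c' -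
            ∑ c' ∈ M.erase d, Epair M x f d c' := by
        rw [← Finset.add_sum_erase M _ hd]; ring
      rw [e3, e2 d, Finset.sum_congr rfl (fun c _ => e2 c), Finset.sum_sub_distrib,
        Epair_self, Etot]
      ring
    rw [Finset.sum_congr rfl e1, Finset.sum_sub_distrib, Finset.sum_sub_distrib,
      Finset.sum_const, nsmul_eq_mul]
    have e5 : ∑ d ∈ M, ∑ c ∈ M, Epair M x f c d = Etot M x f := by
      rw [Finset.sum_comm]; rfl
    rw [e5]
    have e6 : ∑ d ∈ M, ∑ c ∈ M, Epair M x f d c = Etot M x f := rfl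
    rw [e6]
    ring
  -- sum over `d`
  have h7 : 2 * (m - 1) * (∑ c ∈ M, ∑ d ∈ M, Ssum M x f c d ^ 2) -
      2 * (m - 2 * x) ^ 2 * (∑ d ∈ M, asum M x f d ^ 2) ≤
      (W / 2) * ((m - 2) * Etot M x f) := by
    have := Finset.sum_le_sum h5
    rw [Finset.sum_sub_distrib, ← Finset.mul_sum, ← Finset.mul_sum, ← Finset.mul_sum,
      hcount] at this
    rw [Finset.sum_comm (s := M) (t := M)]
    exact this
  have hE0 : 0 ≤ Etot M x f := Etot_nonneg M x f
  have hA0 : 0 ≤ ∑ c ∈ M, asum M x f c ^ 2 := Finset.sum_nonneg fun c _ => sq_nonneg _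
  have hx' : (x : ℝ) ≤ m := by rw [hm]; exact_mod_cast hx
  have hx0 : (0 : ℝ) ≤ x := Nat.cast_nonneg x
  have hmx : (m - 2 * x) ^ 2 ≤ m ^ 2 := by nlinarith
  rcases Nat.lt_or_ge M.card 2 with hM2 | hM2
  · -- at most one element: all terms vanish
    have hz : ∑ c ∈ M, ∑ d ∈ M, Ssum M x f c d ^ 2 = 0 := by
      apply Finset.sum_eq_zero
      intro c hc
      apply Finset.sum_eq_zero
      intro d hd
      have : c = d := Finset.card_le_one.mp (by omega) c hc d hd
      subst this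
      rw [Ssum_self]; ring
    rw [hz]
    positivity
  · have hm2 : (2 : ℝ) ≤ m := by rw [hm]; exact_mod_cast hM2
    set T := ∑ c ∈ M, ∑ d ∈ M, Ssum M x f c d ^ 2
    set Q := ∑ c ∈ M, asum M x f c ^ 2
    have h8 : 2 * (m - 2 * x) ^ 2 * Q ≤ m * ((W / 2) * Etot M x f) := by
      calc 2 * (m - 2 * x) ^ 2 * Q ≤ 2 * m ^ 2 * Q := by
            apply mul_le_mul_of_nonneg_right _ hA0
            linarith
        _ = m * (2 * m * Q) := by ring
        _ ≤ m * ((W / 2) * Etot M x f) :=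
            mul_le_mul_of_nonneg_left h6 (by linarith)
    have h9 : 2 * (m - 1) * T ≤ 2 * (m - 1) * ((W / 2) * Etot M x f) := by
      nlinarith [h7, h8]
    exact le_of_mul_le_mul_left h9 (by linarith)

/-- `wsum` does not depend on the pair. -/
theorem wsum_right {M : Finset α} {x : ℕ} {c d d' : α} (hd : d ∈ M) (hd' : d' ∈ M)
    (h : c ≠ d) (h' : c ≠ d') : wsum M x c d = wsum M x c d' := by
  unfold wsum
  rw [← sum_sw hd hd' (fun A => sep c d' A)]
  refine Finset.sum_congr rfl fun A _ => ?_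
  unfold sep
  simp only [mem_sw, Equiv.swap_apply_right, Equiv.swap_apply_of_ne_of_ne h h']

theorem wsum_comm (M : Finset α) (x : ℕ) (c d : α) : wsum M x c d = wsum M x d c := by
  unfold wsum sep
  refine Finset.sum_congr rfl fun A _ => ?_
  simp only [iff_comm]

theorem wsum_const {M : Finset α} {x : ℕ} {c d c' d' : α} (hc : c ∈ M) (hd : d ∈ M)
    (hc' : c' ∈ M) (hd' : d' ∈ M) (h : c ≠ d) (h' : c' ≠ d') :
    wsum M x c d = wsum M x c' d' := by
  by_cases h1 : c = d'
  · subst h1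
    rw [wsum_comm M x c' c]
    exact wsum_right hd hc' h h'.symm
  · rw [wsum_right hd hd' h h1, wsum_comm M x c d', wsum_comm M x c' d']
    exact wsum_right hc hc' (Ne.symm h1) h'.symm

theorem sep_nonneg (c d : α) (A : Finset α) : 0 ≤ sep c d A := by
  unfold sep; split_ifs <;> norm_num

theorem wsum_nonneg (M : Finset α) (x : ℕ) (c d : α) : 0 ≤ wsum M x c d :=
  Finset.sum_nonneg fun A _ => sep_nonneg c d A

/-- (J) in averaged form. -/
theorem johnson_J' {M : Finset α} {x : ℕ} {f : Finset α → ℝ} {μ : ℝ}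
    (hμ : ∑ A ∈ M.powersetCard x, f A = ((M.powersetCard x).card : ℝ) * μ)
    (hx : x ≤ M.card) :
    ∑ c ∈ M, ∑ d ∈ M, ∑ A ∈ M.powersetCard x,
      sep c d A * (Ssum M x f c d / wsum M x c d - μ) ^ 2 ≤ (1 / 2) * Etot M x f := by
  set F : Finset α → ℝ := fun A => f A - μ with hF
  have hF0 : ∑ A ∈ M.powersetCard x, F A = 0 := by
    simp only [hF]
    rw [Finset.sum_sub_distrib, hμ, Finset.sum_const, nsmul_eq_mul, sub_self]
  have hEF : Etot M x F = Etot M x f := by
    unfold Etot Epair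
    simp only [hF]
    refine Finset.sum_congr rfl fun c _ => Finset.sum_congr rfl fun d _ => ?_
    congr 1
    refine Finset.sum_congr rfl fun A _ => ?_
    ring
  have hSF : ∀ c d, Ssum M x F c d = Ssum M x f c d - wsum M x c d * μ := by
    intro c d
    unfold Ssum wsum
    rw [Finset.sum_mul, ← Finset.sum_sub_distrib]
    refine Finset.sum_congr rfl fun A _ => ?_
    simp only [hF]; ring
  have hterm : ∀ c d, ∑ A ∈ M.powersetCard x,
      sep c d A * (Ssum M x f c d / wsum M x c d - μ) ^ 2 =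
      Ssum M x F c d ^ 2 / wsum M x c d := by
    intro c d
    rw [← Finset.sum_mul]
    change wsum M x c d * _ = _
    rw [hSF]
    by_cases hw : wsum M x c d = 0
    · rw [hw]; simp
    · field_simp
  simp only [hterm]
  by_cases hex : ∃ c0 ∈ M, ∃ d0 ∈ M, c0 ≠ d0
  · obtain ⟨c0, hc0, d0, hd0, h0⟩ := hex
    set W := wsum M x c0 d0 with hW
    have hW0 : 0 ≤ W := wsum_nonneg M x c0 d0
    have hc : ∀ c ∈ M, ∀ d ∈ M, Ssum M x F c d ^ 2 / wsum M x c d =
        Ssum M x F c d ^ 2 / W := by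
      intro c hc d hd
      by_cases h : c = d
      · subst h; rw [Ssum_self]; simp
      · rw [wsum_const hc hd hc0 hd0 h h0]
    rw [Finset.sum_congr rfl fun c hc' => Finset.sum_congr rfl fun d hd' => hc c hc' d hd']
    have hJ := johnson_J hF0 hx (W := W)
      (fun c hc d hd h => (wsum_const hc hd hc0 hd0 h h0).le) hW0
    rw [hEF] at hJ
    simp only [← Finset.sum_div]
    rcases hW0.eq_or_lt with h | h
    · rw [← h, div_zero]
      have := Etot_nonneg M x f
      linarith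
    · rw [div_le_iff₀ h]
      calc _ ≤ _ := hJ
        _ = _ := by ring
  · push Not at hex
    have hz : ∑ c ∈ M, ∑ d ∈ M, Ssum M x F c d ^ 2 / wsum M x c d = 0 := by
      apply Finset.sum_eq_zero
      intro c hc
      apply Finset.sum_eq_zero
      intro d hd
      rw [hex c hc d hd, Ssum_self]
      simp
    rw [hz]
    have := Etot_nonneg M x f
    linarith

end Sw

end Crest.Agent.R299.Johnson
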