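import Mathlib
import Crest.Agent.R299.Defs

/-!
Row 299, T8: assembly of the main inequality.
-/

set_option autoImplicit false
open Finset

namespace Crest.Agent.R299

section graph

variable {V : Type*} [Fintype V] [DecidableEq V]

theorem cols_comm (a b : V) : cols a b = cols b a := by
  unfold cols
  exact erase_right_comm

theorem mem_cols {a b z : V} : z ∈ cols a b ↔ z ≠ a ∧ z ≠ b := by
  unfold cols
  simp [and_comm]

theorem grel_comm (a b : V) : grel a b = grel b a := by
  apply Setoid.ext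
  intro x y
  -- the row sums of the other row are determined by the column sums
  have key : ∀ a b : V, ∀ x y : Sym2 V → Bool, grel a b x y → grel b a x y := by
    intro a b x y h
    obtain ⟨h1, h2, h3⟩ := (rel_iff (p := fun z => s(a, z)) (q := fun z => s(b, z))
      (U := cols a b)).mp h
    refine (rel_iff (p := fun z => s(b, z)) (q := fun z => s(a, z)) (U := cols b a)).mpr
      ⟨?_, ?_, ?_⟩
    · intro e he
      apply h1
      intro z hz
      have := he z (by rw [cols_comm]; exact hz)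
      exact ⟨this.2, this.1⟩
    · intro z hz
      have := h2 z (by rw [cols_comm]; exact hz)
      omega
    · rw [cols_comm b a]
      have hs : ∑ z ∈ cols a b, ((x s(a, z)).toNat + (x s(b, z)).toNat)
          = ∑ z ∈ cols a b, ((y s(a, z)).toNat + (y s(b, z)).toNat) :=
        sum_congr rfl fun z hz => h2 z hz
      rw [sum_add_distrib, sum_add_distrib] at hs
      have h3' : ∑ z ∈ cols a b, (x s(a, z)).toNat = ∑ z ∈ cols a b, (y s(a, z)).toNat := h3
      show ∑ z ∈ cols a b, (x s(b, z)).toNat = ∑ z ∈ cols a b, (y s(b, z)).toNat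
      omega
  exact ⟨key a b x y, key b a x y⟩

theorem hh_comm (a b : V) (f : (Sym2 V → Bool) → ℝ) : hh a b f = hh b a f := by
  funext x
  unfold hh
  rw [grel_comm]

/-- split a sum over all vertices -/
theorem sum_split2 (a b : V) (hab : a ≠ b) (φ : V → ℝ) :
    ∑ c, φ c = φ a + φ b + ∑ c ∈ cols a b, φ c := by
  unfold cols
  rw [← add_sum_erase univ φ (mem_univ a), ← add_sum_erase (univ.erase a) φ (a := b)
    (by simp [hab.symm])]
  ring

theorem sum_erase_eq' (s : Finset V) (φ : V → ℝ) (c : V) (hc : c ∈ s) :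
    ∑ d ∈ s.erase c, φ d = ∑ d ∈ s, φ d - φ c := by
  rw [← add_sum_erase s φ hc]; ring

theorem sum_pairs_main (a b : V) (hab : a ≠ b) (G : V → V → ℝ) :
    ∑ c, ∑ d ∈ univ.erase c, G c d = G a b + G b a
      + ∑ d ∈ cols a b, G a d + ∑ d ∈ cols a b, G b d
      + ∑ c ∈ cols a b, G c a + ∑ c ∈ cols a b, G c b
      + ∑ c ∈ cols a b, ∑ d ∈ (cols a b).erase c, G c d := by
  have e1 : ∀ c, ∑ d ∈ univ.erase c, G c d = ∑ d, G c d - G c c := fun c =>
    sum_erase_eq' univ (G c) c (mem_univ c)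
  have e2 : ∀ c ∈ cols a b, ∑ d ∈ (cols a b).erase c, G c d
      = ∑ d ∈ cols a b, G c d - G c c := fun c hc => sum_erase_eq' _ (G c) c hc
  rw [sum_congr rfl fun c _ => e1 c, sum_congr rfl e2, sum_sub_distrib, sum_sub_distrib,
    sum_split2 a b hab (fun c => ∑ d, G c d), sum_split2 a b hab (fun c => G c c),
    sum_split2 a b hab (G a), sum_split2 a b hab (G b),
    sum_congr rfl fun c _ => sum_split2 a b hab (G c)]
  simp only [sum_add_distrib]
  ring

theorem sum_erase_ite (a : V) (φ : V → ℝ) :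
    ∑ b ∈ univ.erase a, φ b = ∑ b, if a ≠ b then φ b else 0 := by
  rw [← sum_filter]
  apply sum_congr _ fun _ _ => rfl
  ext b; simp [eq_comm]

theorem sum_cols_ite (a b : V) (φ : V → ℝ) :
    ∑ c ∈ cols a b, φ c = ∑ c, if c ≠ a ∧ c ≠ b then φ c else 0 := by
  rw [← sum_filter]
  apply sum_congr _ fun _ _ => rfl
  ext c; simp [mem_cols]

theorem sum_cols_erase_ite (a b c : V) (φ : V → ℝ) :
    ∑ d ∈ (cols a b).erase c, φ d = ∑ d, if d ≠ a ∧ d ≠ b ∧ d ≠ c then φ d else 0 := by
  rw [← sum_filter]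
  apply sum_congr _ fun _ _ => rfl
  ext d; simp [mem_cols]; tauto

/-- sum over ordered triples of distinct vertices -/
theorem sum3_ite (φ : V → V → V → ℝ) :
    ∑ a, ∑ b ∈ univ.erase a, ∑ c ∈ cols a b, φ a b c
      = ∑ a, ∑ b, ∑ c, if a ≠ b ∧ c ≠ a ∧ c ≠ b then φ a b c else 0 := by
  apply sum_congr rfl; intro a _
  rw [sum_erase_ite]
  apply sum_congr rfl; intro b _
  by_cases hab : a ≠ b
  · rw [if_pos hab, sum_cols_ite]
    apply sum_congr rfl; intro c _
    by_cases h : c ≠ a ∧ c ≠ b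
    · rw [if_pos h, if_pos ⟨hab, h⟩]
    · rw [if_neg h, if_neg (fun h' => h h'.2)]
  · rw [if_neg hab]
    symm
    apply sum_eq_zero; intro c _
    rw [if_neg (fun h' => hab h'.1)]

/-- sum over ordered quadruples of distinct vertices -/
theorem sum4_ite (φ : V → V → V → V → ℝ) :
    ∑ a, ∑ b ∈ univ.erase a, ∑ c ∈ cols a b, ∑ d ∈ (cols a b).erase c, φ a b c d
      = ∑ a, ∑ b, ∑ c, ∑ d, if (a ≠ b ∧ a ≠ c ∧ a ≠ d ∧ b ≠ c ∧ b ≠ d ∧ c ≠ d) then φ a b c d
        else 0 := by
  rw [sum3_ite]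
  apply sum_congr rfl; intro a _
  apply sum_congr rfl; intro b _
  apply sum_congr rfl; intro c _
  by_cases h : a ≠ b ∧ c ≠ a ∧ c ≠ b
  · rw [if_pos h, sum_cols_erase_ite]
    apply sum_congr rfl; intro d _
    by_cases h' : d ≠ a ∧ d ≠ b ∧ d ≠ c
    · rw [if_pos h', if_pos ⟨h.1, h.2.1.symm, h'.1.symm, h.2.2.symm, h'.2.1.symm, h'.2.2.symm⟩]
    · rw [if_neg h', if_neg]
      rintro ⟨_, _, h3, _, h5, h6⟩
      exact h' ⟨h3.symm, h5.symm, h6.symm⟩
  · rw [if_neg h]
    symm
    apply sum_eq_zero; intro d _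
    rw [if_neg]
    rintro ⟨h1, h2, _, h4, _, _⟩
    exact h ⟨h1, h2.symm, h4.symm⟩

theorem en_self {κ S : Type*} [DecidableEq κ] [DecidableEq S] [Fintype S] (p q : κ → S) (c : κ)
    (f : (S → Bool) → ℝ) : en p q c c f = 0 := by
  unfold en
  apply sum_eq_zero
  intro x _
  have : sw p q c c x = x := by
    funext e
    unfold sw
    rw [if_neg]
    rintro ⟨h, _⟩
    exact h.2.2 rfl
  rw [this]; simp

theorem main_ineq
    (hT : ∀ (a b c : V), a ≠ b → b ≠ c → c ≠ a → ∀ f : (Sym2 V → Bool) → ℝ,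
      0 ≤ ∑ x, (hh a b f x * hh b c f x + hh b c f x * hh c a f x + hh c a f x * hh a b f x))
    (hW : ∀ (a b c d : V), a ≠ b → a ≠ c → a ≠ d → b ≠ c → b ≠ d → c ≠ d →
      ∀ f : (Sym2 V → Bool) → ℝ,
      (1 / 2) * en (fun z => s(a, z)) (fun z => s(b, z)) c d f
      - ∑ x, (if Osep (fun z => s(a, z)) (fun z => s(b, z)) c d x then
          (avO (grel a b) (fun z => s(a, z)) (fun z => s(b, z)) c d f x
            - cE (grel a b) f x) ^ 2 else 0)
      - ∑ x, (if Osep (fun z => s(c, z)) (fun z => s(d, z)) a b x then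
          (avO (grel c d) (fun z => s(c, z)) (fun z => s(d, z)) a b f x
            - cE (grel c d) f x) ^ 2 else 0)
      ≤ 2 * ∑ x, hh a b f x * hh c d f x)
    (hJ : ∀ (a b : V), a ≠ b → ∀ f : (Sym2 V → Bool) → ℝ,
      ∑ c ∈ cols a b, ∑ d ∈ cols a b, ∑ x,
        (if Osep (fun z => s(a, z)) (fun z => s(b, z)) c d x then
          (avO (grel a b) (fun z => s(a, z)) (fun z => s(b, z)) c d f x
            - cE (grel a b) f x) ^ 2 else 0)
      ≤ (1 / 4) * ∑ c ∈ cols a b, ∑ d ∈ cols a b,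
          en (fun z => s(a, z)) (fun z => s(b, z)) c d f)
    (f : (Sym2 V → Bool) → ℝ) :
    2 * ∑ a, ∑ b ∈ univ.erase a, ∑ x, hh a b f x ^ 2
      ≤ ∑ x, (∑ a, ∑ b ∈ univ.erase a, hh a b f x) ^ 2 := by
  -- the Gram function
  set F : V → V → V → V → ℝ := fun a b c d => ∑ x, hh a b f x * hh c d f x with hF
  have F1 : ∀ a b c d, F a b c d = F b a c d := by
    intro a b c d; simp only [hF, hh_comm a b]
  have F2 : ∀ a b c d, F a b c d = F a b d c := by
    intro a b c d; simp only [hF, hh_comm c d]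
  -- expansion of the square
  have hsq : ∑ x, (∑ a, ∑ b ∈ univ.erase a, hh a b f x) ^ 2
      = ∑ a, ∑ b ∈ univ.erase a, ∑ c, ∑ d ∈ univ.erase c, F a b c d := by
    have e : ∀ x, (∑ a, ∑ b ∈ univ.erase a, hh a b f x) ^ 2
        = ∑ a, ∑ b ∈ univ.erase a, ∑ c, ∑ d ∈ univ.erase c, hh a b f x * hh c d f x := by
      intro x
      rw [sq, sum_mul]
      apply sum_congr rfl; intro a _
      rw [sum_mul]
      apply sum_congr rfl; intro b _
      rw [mul_sum]
      apply sum_congr rfl; intro c _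
      rw [mul_sum]
    rw [sum_congr rfl fun x _ => e x, sum_comm]
    apply sum_congr rfl; intro a _
    rw [sum_comm]
    apply sum_congr rfl; intro b _
    rw [sum_comm]
    apply sum_congr rfl; intro c _
    rw [sum_comm]
  -- split according to coincidences
  have hsplit : ∑ a, ∑ b ∈ univ.erase a, ∑ c, ∑ d ∈ univ.erase c, F a b c d
      = 2 * ∑ a, ∑ b ∈ univ.erase a, F a b a b
        + (2 * ∑ a, ∑ b ∈ univ.erase a, ∑ c ∈ cols a b, F a b a c
        + 2 * ∑ a, ∑ b ∈ univ.erase a, ∑ c ∈ cols a b, F a b b c)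
        + ∑ a, ∑ b ∈ univ.erase a, ∑ c ∈ cols a b, ∑ d ∈ (cols a b).erase c, F a b c d := by
    have key : ∀ a, ∀ b ∈ univ.erase a, ∑ c, ∑ d ∈ univ.erase c, F a b c d
        = 2 * F a b a b + (2 * ∑ c ∈ cols a b, F a b a c + 2 * ∑ c ∈ cols a b, F a b b c)
          + ∑ c ∈ cols a b, ∑ d ∈ (cols a b).erase c, F a b c d := by
      intro a b hb
      have hab : a ≠ b := by
        rw [mem_erase] at hb; exact hb.1.symm
      rw [sum_pairs_main a b hab (F a b)]
      have e1 : ∑ c ∈ cols a b, F a b c a = ∑ c ∈ cols a b, F a b a c :=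
        sum_congr rfl fun c _ => F2 _ _ _ _
      have e2 : ∑ c ∈ cols a b, F a b c b = ∑ c ∈ cols a b, F a b b c :=
        sum_congr rfl fun c _ => F2 _ _ _ _
      rw [e1, e2, F2 a b b a]
      ring
    rw [sum_congr rfl fun a _ => sum_congr rfl (key a)]
    simp only [sum_add_distrib, ← mul_sum]
  -- the sharing part
  have hshare1 : ∑ a, ∑ b ∈ univ.erase a, ∑ c ∈ cols a b, F a b a c
      = ∑ a, ∑ b ∈ univ.erase a, ∑ c ∈ cols a b, F a b b c := by
    rw [sum3_ite, sum3_ite, sum_comm]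
    apply sum_congr rfl; intro a _
    apply sum_congr rfl; intro b _
    apply sum_congr rfl; intro c _
    rw [F1 b a b c]
    congr 1
    apply propext
    constructor
    · rintro ⟨h1, h2, h3⟩; exact ⟨h1.symm, h3, h2⟩
    · rintro ⟨h1, h2, h3⟩; exact ⟨h1.symm, h3, h2⟩
  have hshare : 0 ≤ ∑ a, ∑ b ∈ univ.erase a, ∑ c ∈ cols a b, F a b b c := by
    have h3 : 0 ≤ ∑ a, ∑ b ∈ univ.erase a, ∑ c ∈ cols a b,
        (F a b b c + F b c c a + F c a a b) := by
      apply sum_nonneg; intro a _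
      apply sum_nonneg; intro b hb
      apply sum_nonneg; intro c hc
      rw [mem_erase] at hb
      rw [mem_cols] at hc
      have := hT a b c hb.1.symm hc.2.symm hc.1 f
      simp only [hF, ← sum_add_distrib]
      exact this
    have r1 : ∑ a, ∑ b ∈ univ.erase a, ∑ c ∈ cols a b, F b c c a
        = ∑ a, ∑ b ∈ univ.erase a, ∑ c ∈ cols a b, F a b b c := by
      rw [sum3_ite, sum3_ite, sum_comm]
      -- now: sum over b, a, c of F b c c a; rename to (a := b, b := c, c := a)
      apply sum_congr rfl; intro b _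
      rw [sum_comm]
      apply sum_congr rfl; intro c _
      apply sum_congr rfl; intro a _
      congr 1
      apply propext
      constructor
      · rintro ⟨h1, h2, h3⟩; exact ⟨h3.symm, h1, h2.symm⟩
      · rintro ⟨h1, h2, h3⟩; exact ⟨h2, h3.symm, h1.symm⟩
    have r2 : ∑ a, ∑ b ∈ univ.erase a, ∑ c ∈ cols a b, F c a a b
        = ∑ a, ∑ b ∈ univ.erase a, ∑ c ∈ cols a b, F a b b c := by
      rw [sum3_ite, sum3_ite]
      have : ∀ a : V, (∑ b, ∑ c, if a ≠ b ∧ c ≠ a ∧ c ≠ b then F c a a b else 0)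
          = ∑ c, ∑ b, if a ≠ b ∧ c ≠ a ∧ c ≠ b then F c a a b else 0 := fun a => sum_comm
      rw [sum_congr rfl fun a _ => this a, sum_comm]
      apply sum_congr rfl; intro c _
      apply sum_congr rfl; intro a _
      apply sum_congr rfl; intro b _
      congr 1
      apply propext
      constructor
      · rintro ⟨h1, h2, h3⟩; exact ⟨h2, h3.symm, h1.symm⟩
      · rintro ⟨h1, h2, h3⟩; exact ⟨h3.symm, h1, h2.symm⟩
    simp only [sum_add_distrib] at h3
    rw [r1, r2] at h3
    linarith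
  -- the disjoint part
  have hdisj : 0 ≤ ∑ a, ∑ b ∈ univ.erase a, ∑ c ∈ cols a b, ∑ d ∈ (cols a b).erase c,
      F a b c d := by
    set E : V → V → V → V → ℝ := fun a b c d =>
      en (fun z => s(a, z)) (fun z => s(b, z)) c d f with hE
    set S : V → V → V → V → ℝ := fun a b c d =>
      ∑ x, (if Osep (fun z => s(a, z)) (fun z => s(b, z)) c d x then
          (avO (grel a b) (fun z => s(a, z)) (fun z => s(b, z)) c d f x
            - cE (grel a b) f x) ^ 2 else 0) with hS
    have hEself : ∀ a b c, E a b c c = 0 := fun a b c => en_self _ _ _ _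
    have hSself : ∀ a b c, S a b c c = 0 := by
      intro a b c
      simp only [hS]
      apply sum_eq_zero; intro x _
      rw [if_neg]
      intro h; exact h.2.2 rfl
    have hJ' : ∑ a, ∑ b ∈ univ.erase a, ∑ c ∈ cols a b, ∑ d ∈ (cols a b).erase c, S a b c d
        ≤ (1 / 4) * ∑ a, ∑ b ∈ univ.erase a, ∑ c ∈ cols a b, ∑ d ∈ (cols a b).erase c,
          E a b c d := by
      rw [mul_sum]
      apply sum_le_sum; intro a _
      rw [mul_sum]
      apply sum_le_sum; intro b hb
      have hab : a ≠ b := by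
        rw [mem_erase] at hb; exact hb.1.symm
      have := hJ a b hab f
      have e1 : ∑ c ∈ cols a b, ∑ d ∈ (cols a b).erase c, S a b c d
          = ∑ c ∈ cols a b, ∑ d ∈ cols a b, S a b c d := by
        apply sum_congr rfl; intro c hc
        rw [sum_erase_eq' _ (S a b c) c hc, hSself, sub_zero]
      have e2 : ∑ c ∈ cols a b, ∑ d ∈ (cols a b).erase c, E a b c d
          = ∑ c ∈ cols a b, ∑ d ∈ cols a b, E a b c d := by
        apply sum_congr rfl; intro c hc
        rw [sum_erase_eq' _ (E a b c) c hc, hEself, sub_zero]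
      rw [e1, e2]
      exact this
    have hswap : ∑ a, ∑ b ∈ univ.erase a, ∑ c ∈ cols a b, ∑ d ∈ (cols a b).erase c, S c d a b
        = ∑ a, ∑ b ∈ univ.erase a, ∑ c ∈ cols a b, ∑ d ∈ (cols a b).erase c, S a b c d := by
      rw [sum4_ite, sum4_ite]
      have step : ∀ G : V → V → V → V → ℝ, ∑ a, ∑ b, ∑ c, ∑ d, G a b c d
          = ∑ a, ∑ b, ∑ c, ∑ d, G c d a b := by
        intro G
        have h1 : ∑ a, ∑ b, ∑ c, ∑ d, G a b c d = ∑ p : V × V, ∑ q : V × V, G p.1 p.2 q.1 q.2 := by
          rw [Fintype.sum_prod_type]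
          apply sum_congr rfl; intro a _
          apply sum_congr rfl; intro b _
          rw [Fintype.sum_prod_type]
        have h2 : ∑ a, ∑ b, ∑ c, ∑ d, G c d a b = ∑ p : V × V, ∑ q : V × V, G q.1 q.2 p.1 p.2 := by
          rw [Fintype.sum_prod_type]
          apply sum_congr rfl; intro a _
          apply sum_congr rfl; intro b _
          rw [Fintype.sum_prod_type]
        rw [h1, h2, sum_comm]
      rw [step]
      apply sum_congr rfl; intro a _
      apply sum_congr rfl; intro b _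
      apply sum_congr rfl; intro c _
      apply sum_congr rfl; intro d _
      congr 1
      apply propext
      constructor
      · rintro ⟨h1, h2, h3, h4, h5, h6⟩
        exact ⟨h6, h2.symm, h4.symm, h3.symm, h5.symm, h1⟩
      · rintro ⟨h1, h2, h3, h4, h5, h6⟩
        exact ⟨h6, h2.symm, h4.symm, h3.symm, h5.symm, h1⟩
    have hW' : ∑ a, ∑ b ∈ univ.erase a, ∑ c ∈ cols a b, ∑ d ∈ (cols a b).erase c,
        ((1 / 2) * E a b c d - S a b c d - S c d a b)
        ≤ ∑ a, ∑ b ∈ univ.erase a, ∑ c ∈ cols a b, ∑ d ∈ (cols a b).erase c,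
          2 * F a b c d := by
      apply sum_le_sum; intro a _
      apply sum_le_sum; intro b hb
      apply sum_le_sum; intro c hc
      apply sum_le_sum; intro d hd
      rw [mem_erase] at hb hd
      rw [mem_cols] at hc hd
      exact hW a b c d hb.1.symm hc.1.symm hd.2.1.symm hc.2.symm hd.2.2.symm hd.1.symm f
    simp only [sum_sub_distrib, ← mul_sum] at hW'
    rw [hswap] at hW'
    linarith
  rw [hsq, hsplit, hshare1]
  have hdiag : ∑ a, ∑ b ∈ univ.erase a, F a b a b
      = ∑ a, ∑ b ∈ univ.erase a, ∑ x, hh a b f x ^ 2 := by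
    apply sum_congr rfl; intro a _
    apply sum_congr rfl; intro b _
    simp only [hF, sq]
  rw [hdiag]
  linarith

end graph

end Crest.Agent.R299
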