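import Mathlib

/-! Small spectral lemmas for symmetric operators on a finite dimensional real inner product
space: if every nonzero eigenvalue is at least `g`, then `g ⟪T v, v⟫ ≤ ‖T v‖²`, and
`g ‖v‖² ≤ ⟪T v, v⟫` for `v` orthogonal to the kernel. -/

set_option autoImplicit false

namespace Crest.Agent.R299

open scoped RealInnerProductSpace

variable {E : Type*} [NormedAddCommGroup E] [InnerProductSpace ℝ E] [FiniteDimensional ℝ E]

theorem spec_sq {T : E →ₗ[ℝ] E} (hT : T.IsSymmetric) {g : ℝ}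
    (h : ∀ (l : ℝ) (v : E), v ≠ 0 → T v = l • v → l ≤ 0 ∨ g ≤ l)
    (hpos : ∀ v, 0 ≤ ⟪T v, v⟫) (v : E) :
    g * ⟪T v, v⟫ ≤ ‖T v‖ ^ 2 := by
  classical
  set n := Module.finrank ℝ E with hn
  let b := hT.eigenvectorBasis hn.symm
  have hev : ∀ i, T (b i) = (hT.eigenvalues hn.symm i : ℝ) • b i := by
    intro i
    exact hT.apply_eigenvectorBasis hn.symm i
  have hb0 : ∀ i, b i ≠ 0 := fun i => by
    have := b.orthonormal.1 i
    intro h0
    rw [h0] at this
    simp at this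
  have hl0 : ∀ i, 0 ≤ hT.eigenvalues hn.symm i := by
    intro i
    have h1 := hpos (b i)
    rw [hev i, inner_smul_left] at h1
    have h2 : ⟪b i, b i⟫ = (1 : ℝ) := by
      rw [real_inner_self_eq_norm_sq, b.orthonormal.1 i]; norm_num
    rw [h2] at h1
    simpa using h1
  have hco : ∀ i, ⟪b i, T v⟫ = hT.eigenvalues hn.symm i * ⟪b i, v⟫ := by
    intro i
    rw [← hT (b i) v, hev i, inner_smul_left]
    simp
  have h1 : ⟪T v, v⟫ = ∑ i, hT.eigenvalues hn.symm i * ⟪b i, v⟫ ^ 2 := by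
    rw [← b.sum_inner_mul_inner (T v) v]
    apply Finset.sum_congr rfl
    intro i _
    rw [real_inner_comm, hco i]
    ring
  have h2 : ‖T v‖ ^ 2 = ∑ i, (hT.eigenvalues hn.symm i * ⟪b i, v⟫) ^ 2 := by
    rw [← real_inner_self_eq_norm_sq, ← b.sum_inner_mul_inner (T v) (T v)]
    apply Finset.sum_congr rfl
    intro i _
    rw [real_inner_comm (b i) (T v), hco i]
    ring
  rw [h1, h2, Finset.mul_sum]
  apply Finset.sum_le_sum
  intro i _
  rcases h _ _ (hb0 i) (hev i) with h3 | h3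
  · have h4 : hT.eigenvalues hn.symm i = 0 := le_antisymm h3 (hl0 i)
    rw [h4]; simp
  · have h5 : g * hT.eigenvalues hn.symm i ≤ hT.eigenvalues hn.symm i ^ 2 := by
      nlinarith [hl0 i]
    have h6 : 0 ≤ ⟪b i, v⟫ ^ 2 := sq_nonneg _
    calc g * (hT.eigenvalues hn.symm i * ⟪b i, v⟫ ^ 2)
        = (g * hT.eigenvalues hn.symm i) * ⟪b i, v⟫ ^ 2 := by ring
      _ ≤ hT.eigenvalues hn.symm i ^ 2 * ⟪b i, v⟫ ^ 2 := mul_le_mul_of_nonneg_right h5 h6
      _ = (hT.eigenvalues hn.symm i * ⟪b i, v⟫) ^ 2 := by ring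

theorem spec_gap {T : E →ₗ[ℝ] E} (hT : T.IsSymmetric) {g : ℝ}
    (h : ∀ (l : ℝ) (v : E), v ≠ 0 → T v = l • v → l ≤ 0 ∨ g ≤ l)
    (hpos : ∀ v, 0 ≤ ⟪T v, v⟫) (v : E) (hv : ∀ u, T u = 0 → ⟪u, v⟫ = 0) :
    g * ‖v‖ ^ 2 ≤ ⟪T v, v⟫ := by
  classical
  set n := Module.finrank ℝ E with hn
  let b := hT.eigenvectorBasis hn.symm
  have hev : ∀ i, T (b i) = (hT.eigenvalues hn.symm i : ℝ) • b i := by
    intro i
    exact hT.apply_eigenvectorBasis hn.symm i
  have hb0 : ∀ i, b i ≠ 0 := fun i => by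
    have := b.orthonormal.1 i
    intro h0
    rw [h0] at this
    simp at this
  have hl0 : ∀ i, 0 ≤ hT.eigenvalues hn.symm i := by
    intro i
    have h1 := hpos (b i)
    rw [hev i, inner_smul_left] at h1
    have h2 : ⟪b i, b i⟫ = (1 : ℝ) := by
      rw [real_inner_self_eq_norm_sq, b.orthonormal.1 i]; norm_num
    rw [h2] at h1
    simpa using h1
  have hco : ∀ i, ⟪b i, T v⟫ = hT.eigenvalues hn.symm i * ⟪b i, v⟫ := by
    intro i
    rw [← hT (b i) v, hev i, inner_smul_left]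
    simp
  have h1 : ⟪T v, v⟫ = ∑ i, hT.eigenvalues hn.symm i * ⟪b i, v⟫ ^ 2 := by
    rw [← b.sum_inner_mul_inner (T v) v]
    apply Finset.sum_congr rfl
    intro i _
    rw [real_inner_comm, hco i]
    ring
  have h2 : ‖v‖ ^ 2 = ∑ i, ⟪b i, v⟫ ^ 2 := by
    rw [← real_inner_self_eq_norm_sq, ← b.sum_inner_mul_inner v v]
    apply Finset.sum_congr rfl
    intro i _
    rw [real_inner_comm (b i) v]
    ring
  rw [h1, h2, Finset.mul_sum]
  apply Finset.sum_le_sum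
  intro i _
  rcases h _ _ (hb0 i) (hev i) with h3 | h3
  · have h4 : hT.eigenvalues hn.symm i = 0 := le_antisymm h3 (hl0 i)
    have h5 : ⟪b i, v⟫ = 0 := by
      apply hv
      rw [hev i, h4, zero_smul]
    rw [h5]; simp
  · exact mul_le_mul_of_nonneg_right h3 (sq_nonneg _)

/-- If every eigenvalue of the symmetric operator `T` is `0` or at least `g ≥ 0`, then
`g ⟪T v, v⟫ ≤ ‖T v‖²`. -/
theorem spec_sq' {T : E →ₗ[ℝ] E} (hT : T.IsSymmetric) {g : ℝ} (hg : 0 ≤ g)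
    (h : ∀ (l : ℝ) (v : E), v ≠ 0 → T v = l • v → l = 0 ∨ g ≤ l) (v : E) :
    g * ⟪T v, v⟫ ≤ ‖T v‖ ^ 2 := by
  classical
  set n := Module.finrank ℝ E with hn
  let b := hT.eigenvectorBasis hn.symm
  have hev : ∀ i, T (b i) = (hT.eigenvalues hn.symm i : ℝ) • b i := by
    intro i
    exact hT.apply_eigenvectorBasis hn.symm i
  have hb0 : ∀ i, b i ≠ 0 := fun i => by
    have := b.orthonormal.1 i
    intro h0
    rw [h0] at this
    simp at this
  have hco : ∀ i, ⟪b i, T v⟫ = hT.eigenvalues hn.symm i * ⟪b i, v⟫ := by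
    intro i
    rw [← hT (b i) v, hev i, inner_smul_left]
    simp
  have h1 : ⟪T v, v⟫ = ∑ i, hT.eigenvalues hn.symm i * ⟪b i, v⟫ ^ 2 := by
    rw [← b.sum_inner_mul_inner (T v) v]
    apply Finset.sum_congr rfl
    intro i _
    rw [real_inner_comm, hco i]
    ring
  have h2 : ‖T v‖ ^ 2 = ∑ i, (hT.eigenvalues hn.symm i * ⟪b i, v⟫) ^ 2 := by
    rw [← real_inner_self_eq_norm_sq, ← b.sum_inner_mul_inner (T v) (T v)]
    apply Finset.sum_congr rfl
    intro i _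
    rw [real_inner_comm (b i) (T v), hco i]
    ring
  rw [h1, h2, Finset.mul_sum]
  apply Finset.sum_le_sum
  intro i _
  rcases h _ _ (hb0 i) (hev i) with h3 | h3
  · rw [h3]; simp
  · have h5 : g * hT.eigenvalues hn.symm i ≤ hT.eigenvalues hn.symm i ^ 2 := by
      nlinarith
    have h6 : 0 ≤ ⟪b i, v⟫ ^ 2 := sq_nonneg _
    calc g * (hT.eigenvalues hn.symm i * ⟪b i, v⟫ ^ 2)
        = (g * hT.eigenvalues hn.symm i) * ⟪b i, v⟫ ^ 2 := by ring
      _ ≤ hT.eigenvalues hn.symm i ^ 2 * ⟪b i, v⟫ ^ 2 := mul_le_mul_of_nonneg_right h5 h6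
      _ = (hT.eigenvalues hn.symm i * ⟪b i, v⟫) ^ 2 := by ring

/-- T3a: the spectral trick in coordinates. -/
theorem spectral_trick {α : Type*} [Fintype α] (K : (α → ℝ) →ₗ[ℝ] (α → ℝ))
    (hsymm : ∀ f g : α → ℝ, ∑ x, g x * K f x = ∑ x, K g x * f x)
    (hev : ∀ (μ : ℝ) (f : α → ℝ), (∀ x, K f x = μ * f x) → f ≠ 0 → μ = 0 ∨ 1 ≤ μ)
    (f : α → ℝ) : ∑ x, f x * K f x ≤ ∑ x, (K f x) ^ 2 := by
  classical
  let e : EuclideanSpace ℝ α ≃ₗ[ℝ] (α → ℝ) := WithLp.linearEquiv 2 ℝ (α → ℝ)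
  let T : EuclideanSpace ℝ α →ₗ[ℝ] EuclideanSpace ℝ α :=
    e.symm.toLinearMap ∘ₗ K ∘ₗ e.toLinearMap
  have hTa : ∀ (v : EuclideanSpace ℝ α) (x : α), (T v) x = K (fun y => v y) x := fun v x => rfl
  have hin : ∀ u v : EuclideanSpace ℝ α, ⟪u, v⟫ = ∑ x, u x * v x := by
    intro u v
    rw [PiLp.inner_apply]
    apply Finset.sum_congr rfl
    intro x _
    simp [mul_comm]
  have hTs : T.IsSymmetric := by
    intro u v
    rw [hin, hin]
    simp only [hTa]
    exact (hsymm (fun y => v y) (fun y => u y)).symm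
  have key := spec_sq' hTs (g := 1) zero_le_one (by
    intro l v hv hTv
    refine hev l (fun y => v y) ?_ ?_
    · intro x
      rw [← hTa, hTv]
      rfl
    · intro h0
      apply hv
      ext x
      exact congrFun h0 x) (e.symm f)
  rw [← real_inner_self_eq_norm_sq, hin, hin, one_mul] at key
  simp only [hTa] at key
  calc ∑ x, f x * K f x = ∑ x, K f x * f x := Finset.sum_congr rfl fun x _ => mul_comm _ _
    _ ≤ ∑ x, K f x * K f x := key
    _ = ∑ x, (K f x) ^ 2 := Finset.sum_congr rfl fun x _ => by ring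

end Crest.Agent.R299
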