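import Mathlib
import Crest.Agent.R299.Defs
import Crest.Agent.R299.Spectral

/-!
Row 299, task T9: Poincaré inequality on a closed connected set of states from the main inequality.
-/

set_option autoImplicit false
open Finset

namespace Crest.Agent.R299

open scoped RealInnerProductSpace

/-- Gap of a symmetric positive operator on functions from `2⟨f,Kf⟩ ≤ ‖Kf‖²`. -/
theorem gap_fun {α : Type*} [Fintype α] (K : (α → ℝ) →ₗ[ℝ] (α → ℝ))
    (hsymm : ∀ f g : α → ℝ, ∑ x, g x * K f x = ∑ x, K g x * f x)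
    (hpos : ∀ f : α → ℝ, 0 ≤ ∑ x, f x * K f x) (c : ℝ)
    (hev : ∀ f : α → ℝ, c * ∑ x, f x * K f x ≤ ∑ x, (K f x) ^ 2)
    (v : α → ℝ) (hv : ∀ u : α → ℝ, K u = 0 → ∑ x, u x * v x = 0) :
    c * ∑ x, v x ^ 2 ≤ ∑ x, v x * K v x := by
  classical
  let e : EuclideanSpace ℝ α ≃ₗ[ℝ] (α → ℝ) := WithLp.linearEquiv 2 ℝ (α → ℝ)
  let T : EuclideanSpace ℝ α →ₗ[ℝ] EuclideanSpace ℝ α :=
    e.symm.toLinearMap ∘ₗ K ∘ₗ e.toLinearMap
  have hinner : ∀ u w : EuclideanSpace ℝ α, ⟪u, w⟫ = ∑ x, e u x * e w x := by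
    intro u w
    rw [PiLp.inner_apply]
    refine sum_congr rfl fun x _ => ?_
    simp [e, mul_comm]
  have hTe : ∀ u, e (T u) = K (e u) := by
    intro u; simp [T]
  have hnorm : ∀ u : EuclideanSpace ℝ α, ‖u‖ ^ 2 = ∑ x, e u x ^ 2 := by
    intro u
    rw [← real_inner_self_eq_norm_sq, hinner]
    exact sum_congr rfl fun x _ => (sq _).symm
  have hT : T.IsSymmetric := by
    intro u w
    rw [hinner, hinner]
    simp only [hTe]
    have := hsymm (e w) (e u)
    exact this.symm
  have hTpos : ∀ u, 0 ≤ ⟪T u, u⟫ := by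
    intro u
    rw [hinner, hTe]
    have := hpos (e u)
    refine this.trans (le_of_eq ?_)
    exact sum_congr rfl fun x _ => mul_comm _ _
  have hTev : ∀ (l : ℝ) (u : EuclideanSpace ℝ α), u ≠ 0 → T u = l • u → l ≤ 0 ∨ c ≤ l := by
    intro l u hu hl
    by_contra hcon
    push Not at hcon
    obtain ⟨h0, h1⟩ := hcon
    have hKe : K (e u) = l • e u := by
      rw [← hTe, hl, map_smul]
    have h2 := hev (e u)
    rw [hKe] at h2
    have hS : 0 < ∑ x, e u x ^ 2 := by
      rw [← hnorm]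
      have : 0 < ‖u‖ := norm_pos_iff.2 hu
      positivity
    have e1 : ∑ x, e u x * (l • e u) x = l * ∑ x, e u x ^ 2 := by
      rw [mul_sum]; refine sum_congr rfl fun x _ => ?_
      simp only [Pi.smul_apply, smul_eq_mul]; ring
    have e2 : ∑ x, ((l • e u) x) ^ 2 = l ^ 2 * ∑ x, e u x ^ 2 := by
      rw [mul_sum]; refine sum_congr rfl fun x _ => ?_
      simp only [Pi.smul_apply, smul_eq_mul]; ring
    rw [e1, e2] at h2
    have h3 : c * l ≤ l ^ 2 := by
      by_contra h4
      push Not at h4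
      nlinarith
    nlinarith
  have hmain := spec_gap hT (g := c) hTev hTpos (e.symm v) (by
    intro u hu
    rw [hinner]
    have hKu : K (e u) = 0 := by rw [← hTe, hu, map_zero]
    have := hv (e u) hKu
    simpa using this)
  rw [hnorm, hinner, hTe] at hmain
  simp only [LinearEquiv.apply_symm_apply] at hmain
  refine hmain.trans (le_of_eq ?_)
  exact sum_congr rfl fun x _ => mul_comm _ _

section graph

variable {V : Type*} [Fintype V] [DecidableEq V]

/-- the sum of all fluctuation operators -/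
noncomputable def KK : ((Sym2 V → Bool) → ℝ) →ₗ[ℝ] ((Sym2 V → Bool) → ℝ) where
  toFun f := fun x => ∑ a, ∑ b ∈ univ.erase a, hh a b f x
  map_add' f g := by
    funext x
    simp only [Pi.add_apply]
    rw [← sum_add_distrib]
    refine sum_congr rfl fun a _ => ?_
    rw [← sum_add_distrib]
    refine sum_congr rfl fun b _ => ?_
    unfold hh
    have : cE (grel a b) (f + g) x = cE (grel a b) f x + cE (grel a b) g x :=
      cE_add _ f g x
    rw [this, Pi.add_apply]; ring
  map_smul' c f := by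
    funext x
    simp only [Pi.smul_apply, smul_eq_mul, RingHom.id_apply]
    rw [mul_sum]
    refine sum_congr rfl fun a _ => ?_
    rw [mul_sum]
    refine sum_congr rfl fun b _ => ?_
    unfold hh
    have : cE (grel a b) (c • f) x = c * cE (grel a b) f x :=
      cE_mul_const _ c f x
    rw [this, Pi.smul_apply, smul_eq_mul]; ring

theorem KK_apply (f : (Sym2 V → Bool) → ℝ) (x : Sym2 V → Bool) :
    KK f x = ∑ a, ∑ b ∈ univ.erase a, hh a b f x := rfl

theorem sum_mul_KK (f g : (Sym2 V → Bool) → ℝ) :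
    ∑ x, g x * KK f x = ∑ a, ∑ b ∈ univ.erase a, ∑ x, g x * hh a b f x := by
  simp only [KK_apply, mul_sum]
  rw [sum_comm]
  refine sum_congr rfl fun a _ => ?_
  rw [sum_comm]

theorem sum_mul_KK_self (f : (Sym2 V → Bool) → ℝ) :
    ∑ x, f x * KK f x = ∑ a, ∑ b ∈ univ.erase a, ∑ x, hh a b f x ^ 2 := by
  rw [sum_mul_KK]
  refine sum_congr rfl fun a _ => sum_congr rfl fun b _ => ?_
  exact sum_mul_sub_cE (grel a b) f

theorem poincare_of_main
    (hmain : ∀ f : (Sym2 V → Bool) → ℝ, 2 * ∑ a, ∑ b ∈ univ.erase a, ∑ x, hh a b f x ^ 2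
      ≤ ∑ x, (∑ a, ∑ b ∈ univ.erase a, hh a b f x) ^ 2)
    (C : Finset (Sym2 V → Bool))
    (hC : ∀ a b, a ≠ b → ∀ x y, x ∈ C → grel a b x y → y ∈ C)
    (hconn : ∀ g : (Sym2 V → Bool) → ℝ, (∀ a b, a ≠ b → ∀ x y, grel a b x y → g x = g y) →
      ∀ x ∈ C, ∀ y ∈ C, g x = g y)
    (f : (Sym2 V → Bool) → ℝ) :
    (C.card : ℝ) * (∑ x ∈ C, f x ^ 2) - (∑ x ∈ C, f x) ^ 2
      ≤ (C.card : ℝ) * ((1 / 2) * ∑ a, ∑ b ∈ univ.erase a, ∑ x ∈ C, hh a b f x ^ 2) := by
  classical
  rcases C.eq_empty_or_nonempty with hCe | hCne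
  · subst hCe; simp
  have hcard : (0 : ℝ) < C.card := by exact_mod_cast hCne.card_pos
  set m : ℝ := (∑ x ∈ C, f x) / C.card with hm
  set v : (Sym2 V → Bool) → ℝ := fun x => if x ∈ C then f x - m else 0 with hvdef
  have hmC : (C.card : ℝ) * m = ∑ x ∈ C, f x := by
    rw [hm, mul_div_cancel₀ _ hcard.ne']
  -- sums against `v`
  have hsumv : ∀ g : (Sym2 V → Bool) → ℝ, ∑ x, g x * v x = ∑ x ∈ C, g x * (f x - m) := by
    intro g
    simp only [hvdef, mul_ite, mul_zero]
    rw [← sum_filter]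
    refine sum_congr (by ext x; simp) fun _ _ => rfl
  have hsum0 : ∑ x ∈ C, (f x - m) = 0 := by
    rw [sum_sub_distrib, sum_const, nsmul_eq_mul, hmC, sub_self]
  have hsymm : ∀ f g : (Sym2 V → Bool) → ℝ, ∑ x, g x * KK f x = ∑ x, KK g x * f x := by
    intro f g
    have h1 : ∑ x, KK g x * f x = ∑ x, f x * KK g x := sum_congr rfl fun x _ => mul_comm _ _
    rw [h1, sum_mul_KK, sum_mul_KK]
    refine sum_congr rfl fun a _ => sum_congr rfl fun b _ => ?_
    unfold hh
    simp only [mul_sub, sum_sub_distrib]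
    rw [cE_symm (grel a b) f g]
    congr 1
    · exact sum_congr rfl fun x _ => mul_comm _ _
    · exact sum_congr rfl fun x _ => mul_comm _ _
  have hpos : ∀ f : (Sym2 V → Bool) → ℝ, 0 ≤ ∑ x, f x * KK f x := by
    intro f
    rw [sum_mul_KK_self]
    exact sum_nonneg fun a _ => sum_nonneg fun b _ => sum_nonneg fun x _ => sq_nonneg _
  have hev : ∀ f : (Sym2 V → Bool) → ℝ, 2 * ∑ x, f x * KK f x ≤ ∑ x, (KK f x) ^ 2 := by
    intro f
    rw [sum_mul_KK_self]
    exact hmain f
  have hker : ∀ u : (Sym2 V → Bool) → ℝ, KK u = 0 → ∑ x, u x * v x = 0 := by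
    intro u hu
    have h0 : ∑ a, ∑ b ∈ univ.erase a, ∑ x, hh a b u x ^ 2 = 0 := by
      rw [← sum_mul_KK_self, hu]; simp
    have h1 : ∀ a b, a ≠ b → ∀ x, hh a b u x = 0 := by
      intro a b hab x
      have e1 := (sum_eq_zero_iff_of_nonneg (fun a _ => sum_nonneg fun b _ =>
        sum_nonneg fun x _ => sq_nonneg (hh a b u x))).1 h0 a (mem_univ a)
      have e2 := (sum_eq_zero_iff_of_nonneg (fun b _ =>
        sum_nonneg fun x _ => sq_nonneg (hh a b u x))).1 e1 b (mem_erase.2 ⟨hab.symm, mem_univ b⟩)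
      have e3 := (sum_eq_zero_iff_of_nonneg (fun x _ => sq_nonneg (hh a b u x))).1 e2 x (mem_univ x)
      exact pow_eq_zero_iff (two_ne_zero) |>.1 e3
    have h2 : ∀ a b, a ≠ b → ∀ x y, grel a b x y → u x = u y := by
      intro a b hab x y hxy
      have e1 := h1 a b hab x
      have e2 := h1 a b hab y
      unfold hh at e1 e2
      have e3 := cE_congr (f := u) hxy
      linarith
    obtain ⟨x0, hx0⟩ := hCne
    rw [hsumv]
    have : ∀ x ∈ C, u x * (f x - m) = u x0 * (f x - m) := by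
      intro x hx
      rw [hconn u h2 x hx x0 hx0]
    rw [sum_congr rfl this, ← mul_sum, hsum0, mul_zero]
  have hgap := gap_fun KK hsymm hpos 2 hev v hker
  rw [sum_mul_KK_self] at hgap
  -- fluctuations of `v`
  have hhv : ∀ a b, a ≠ b → ∑ x, hh a b v x ^ 2 = ∑ x ∈ C, hh a b f x ^ 2 := by
    intro a b hab
    have h1 : ∀ x, hh a b v x ^ 2 = if x ∈ C then hh a b f x ^ 2 else 0 := by
      intro x
      split_ifs with hx
      · have e1 : cE (grel a b) v x = cE (grel a b) f x - m := by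
          have : cE (grel a b) v x = cE (grel a b) (fun y => f y - m) x := by
            refine cE_eq_of_eqOn fun y hy => ?_
            have : y ∈ C := hC a b hab x y hx hy
            simp [hvdef, this]
          rw [this, cE_sub (grel a b) f (fun _ => m) x, cE_const]
        unfold hh
        rw [e1]
        simp only [hvdef, hx, if_true]
        ring
      · have e1 : cE (grel a b) v x = 0 := by
          have : cE (grel a b) v x = cE (grel a b) (fun _ => 0) x := by
            refine cE_eq_of_eqOn fun y hy => ?_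
            have : y ∉ C := fun hy' => hx (hC a b hab y x hy' ((grel a b).symm' hy))
            simp [hvdef, this]
          rw [this, cE_const]
        unfold hh
        rw [e1]
        simp [hvdef, hx]
    rw [sum_congr rfl fun x _ => h1 x, ← sum_filter]
    refine sum_congr (by ext x; simp) fun _ _ => rfl
  have hgap2 : ∑ a, ∑ b ∈ univ.erase a, ∑ x, hh a b v x ^ 2
      = ∑ a, ∑ b ∈ univ.erase a, ∑ x ∈ C, hh a b f x ^ 2 := by
    refine sum_congr rfl fun a _ => sum_congr rfl fun b hb => ?_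
    exact hhv a b (mem_erase.1 hb).1.symm
  rw [hgap2] at hgap
  have hvv : ∑ x, v x ^ 2 = ∑ x ∈ C, (f x - m) ^ 2 := by
    have := hsumv v
    have h1 : ∑ x, v x ^ 2 = ∑ x, v x * v x := sum_congr rfl fun x _ => sq _
    rw [h1, this]
    refine sum_congr rfl fun x hx => ?_
    simp only [hvdef, hx, if_true]; ring
  have hvar : (C.card : ℝ) * ∑ x ∈ C, (f x - m) ^ 2
      = (C.card : ℝ) * (∑ x ∈ C, f x ^ 2) - (∑ x ∈ C, f x) ^ 2 := by
    have h1 : ∑ x ∈ C, (f x - m) ^ 2
        = ∑ x ∈ C, f x ^ 2 - 2 * m * ∑ x ∈ C, f x + C.card * m ^ 2 := by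
      have : ∀ x ∈ C, (f x - m) ^ 2 = f x ^ 2 - 2 * m * f x + m ^ 2 := by
        intro x _; ring
      rw [sum_congr rfl this, sum_add_distrib, sum_sub_distrib, ← mul_sum, sum_const,
        nsmul_eq_mul]
    rw [h1, ← hmC]; ring
  rw [← hvar, ← hvv]
  have : ∑ x, v x ^ 2 ≤ (1 / 2) * ∑ a, ∑ b ∈ univ.erase a, ∑ x ∈ C, hh a b f x ^ 2 := by
    linarith
  exact mul_le_mul_of_nonneg_left this hcard.le

end graph

end Crest.Agent.R299
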