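import Mathlib
import Crest.Agent.R299.Defs

/-!
Row 299, task T1: Poincaré inequality for the two-row (Johnson) relation, by induction on columns.
-/

set_option autoImplicit false
set_option linter.unusedSectionVars false
open Finset

namespace Crest.Agent.R299

namespace T1

variable {κ S : Type*} [DecidableEq κ] [DecidableEq S]

theorem rel_insert_iff {p q : κ → S} {U : Finset κ} {c : κ} (hc : c ∉ U)
    (hp : Set.InjOn p (insert c U : Finset κ)) (hq : Set.InjOn q (insert c U : Finset κ))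
    (hpq : ∀ z ∈ insert c U, ∀ w ∈ insert c U, p z ≠ q w) {x y : S → Bool} :
    rel p q U x y ↔ (rel p q (insert c U) x y ∧ x (p c) = y (p c)) := by
  have hcU : c ∈ insert c U := mem_insert_self c U
  have hpc : ∀ z ∈ U, p c ≠ p z ∧ p c ≠ q z := by
    intro z hz
    refine ⟨fun h => hc ?_, hpq c hcU z (mem_insert_of_mem hz)⟩
    rw [hp (by simp) (by simp [hz]) h]; exact hz
  have hqc : ∀ z ∈ U, q c ≠ p z ∧ q c ≠ q z := by
    intro z hz
    refine ⟨fun h => hpq z (mem_insert_of_mem hz) c hcU h.symm, fun h => hc ?_⟩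
    rw [hq (by simp) (by simp [hz]) h]; exact hz
  rw [rel_iff, rel_iff]
  constructor
  · rintro ⟨h1, h2, h3⟩
    have e1 : x (p c) = y (p c) := h1 _ hpc
    have e2 : x (q c) = y (q c) := h1 _ hqc
    refine ⟨⟨?_, ?_, ?_⟩, e1⟩
    · intro e he
      exact h1 e fun z hz => he z (mem_insert_of_mem hz)
    · intro z hz
      rcases mem_insert.mp hz with rfl | hz
      · rw [e1, e2]
      · exact h2 z hz
    · rw [sum_insert hc, sum_insert hc, e1, h3]
  · rintro ⟨⟨h1, h2, h3⟩, e1⟩
    have e2 : x (q c) = y (q c) := by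
      have := h2 c hcU
      rw [e1] at this
      have h' : (x (q c)).toNat = (y (q c)).toNat := by omega
      cases hx : x (q c) <;> cases hy : y (q c) <;> simp_all
    refine ⟨?_, ?_, ?_⟩
    · intro e he
      by_cases h : e = p c
      · rw [h, e1]
      by_cases h' : e = q c
      · rw [h', e2]
      apply h1
      intro z hz
      rcases mem_insert.mp hz with rfl | hz
      · exact ⟨h, h'⟩
      · exact he z hz
    · intro z hz
      exact h2 z (mem_insert_of_mem hz)
    · rw [sum_insert hc, sum_insert hc, e1] at h3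
      omega

theorem rel_le_insert {p q : κ → S} {U : Finset κ} {c : κ} (hc : c ∉ U)
    (hp : Set.InjOn p (insert c U : Finset κ)) (hq : Set.InjOn q (insert c U : Finset κ))
    (hpq : ∀ z ∈ insert c U, ∀ w ∈ insert c U, p z ≠ q w) :
    rel p q U ≤ rel p q (insert c U) := by
  intro x y h
  exact ((rel_insert_iff hc hp hq hpq).mp h).1

/-- slots of two different columns are all distinct -/
structure Dist (p q : κ → S) (c d : κ) : Prop where
  pcpd : p c ≠ p d
  pcqc : p c ≠ q c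
  pcqd : p c ≠ q d
  pdqc : p d ≠ q c
  pdqd : p d ≠ q d
  qcqd : q c ≠ q d

theorem dist_of {p q : κ → S} {W : Finset κ} (hp : Set.InjOn p W) (hq : Set.InjOn q W)
    (hpq : ∀ z ∈ W, ∀ w ∈ W, p z ≠ q w) {c d : κ} (hc : c ∈ W) (hd : d ∈ W) (hcd : c ≠ d) :
    Dist p q c d where
  pcpd := fun h => hcd (hp hc hd h)
  pcqc := hpq c hc c hc
  pcqd := hpq c hc d hd
  pdqc := hpq d hd c hc
  pdqd := hpq d hd d hd
  qcqd := fun h => hcd (hq hc hd h)

theorem sw_of_not {p q : κ → S} {c d : κ} {x : S → Bool} (h : ¬ Osep p q c d x) :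
    sw p q c d x = x := by
  funext e; simp [sw, h]

theorem sw_pc {p q : κ → S} {c d : κ} {x : S → Bool} (h : Osep p q c d x) :
    sw p q c d x (p c) = !(x (p c)) := by simp [sw, h]
theorem sw_pd {p q : κ → S} {c d : κ} {x : S → Bool} (h : Osep p q c d x) :
    sw p q c d x (p d) = !(x (p d)) := by simp [sw, h]
theorem sw_qc {p q : κ → S} {c d : κ} {x : S → Bool} (h : Osep p q c d x) :
    sw p q c d x (q c) = !(x (q c)) := by simp [sw, h]
theorem sw_qd {p q : κ → S} {c d : κ} {x : S → Bool} (h : Osep p q c d x) :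
    sw p q c d x (q d) = !(x (q d)) := by simp [sw, h]
theorem sw_off {p q : κ → S} {c d : κ} {x : S → Bool} {e : S} (h1 : e ≠ p c) (h2 : e ≠ p d)
    (h3 : e ≠ q c) (h4 : e ≠ q d) : sw p q c d x e = x e := by simp [sw, h1, h2, h3, h4]

theorem Osep_sw {p q : κ → S} {c d : κ} {x : S → Bool} (h : Osep p q c d x) :
    Osep p q c d (sw p q c d x) := by
  unfold Osep
  rw [sw_pc h, sw_pd h, sw_qc h, sw_qd h]
  obtain ⟨h1, h2, h3⟩ := h
  refine ⟨by rw [h1], by rw [h2], fun h => h3 (by simpa using h)⟩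

theorem sw_sw {p q : κ → S} {c d : κ} {x : S → Bool} :
    sw p q c d (sw p q c d x) = x := by
  by_cases h : Osep p q c d x
  · have h' := Osep_sw h
    funext e
    by_cases he : e = p c ∨ e = p d ∨ e = q c ∨ e = q d
    · simp only [sw] at h' ⊢
      simp [h, h', he]
    · simp [sw, he]
  · rw [sw_of_not h, sw_of_not h]

/-- a switch inside `W` preserves the relation -/
theorem rel_sw {p q : κ → S} {W : Finset κ} (hp : Set.InjOn p W) (hq : Set.InjOn q W)
    (hpq : ∀ z ∈ W, ∀ w ∈ W, p z ≠ q w) {c d : κ} (hc : c ∈ W) (hd : d ∈ W) (hcd : c ≠ d)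
    (x : S → Bool) : rel p q W x (sw p q c d x) := by
  by_cases h : Osep p q c d x
  swap
  · rw [sw_of_not h]
  have D := dist_of hp hq hpq hc hd hcd
  have hoff : ∀ z ∈ W, z ≠ c → z ≠ d →
      sw p q c d x (p z) = x (p z) ∧ sw p q c d x (q z) = x (q z) := by
    intro z hz hzc hzd
    constructor
    · exact sw_off (fun h => hzc (hp hz hc h)) (fun h => hzd (hp hz hd h)) (hpq z hz c hc)
        (hpq z hz d hd)
    · exact sw_off (hpq c hc z hz).symm (hpq d hd z hz).symm (fun h => hzc (hq hz hc h))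
        (fun h => hzd (hq hz hd h))
  rw [rel_iff]
  refine ⟨?_, ?_, ?_⟩
  · intro e he
    rw [sw_off (he c hc).1 (he d hd).1 (he c hc).2 (he d hd).2]
  · intro z hz
    by_cases hzc : z = c
    · subst hzc
      rw [sw_pc h, sw_qc h]
      obtain ⟨h1, h2, h3⟩ := h
      rw [← h2]
      cases hx : x (p z) <;> cases hy : x (p d) <;> simp_all
    by_cases hzd : z = d
    · subst hzd
      rw [sw_pd h, sw_qd h]
      obtain ⟨h1, h2, h3⟩ := h
      rw [← h1]
      cases hx : x (p c) <;> cases hy : x (p z) <;> simp_all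
    rw [(hoff z hz hzc hzd).1, (hoff z hz hzc hzd).2]
  · have hdW : d ∈ W.erase c := mem_erase.mpr ⟨hcd.symm, hd⟩
    rw [← add_sum_erase W _ hc, ← add_sum_erase _ _ hdW, ← add_sum_erase W _ hc,
      ← add_sum_erase _ _ hdW]
    have : ∑ z ∈ (W.erase c).erase d, (sw p q c d x (p z)).toNat
        = ∑ z ∈ (W.erase c).erase d, (x (p z)).toNat := by
      apply sum_congr rfl
      intro z hz
      rw [mem_erase, mem_erase] at hz
      rw [(hoff z hz.2.2 hz.2.1 hz.1).1]
    rw [this, sw_pc h, sw_pd h]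
    obtain ⟨h1, h2, h3⟩ := h
    cases hx : x (p c) <;> cases hy : x (p d) <;> simp_all

theorem johnson_numeric {N1 N0 a b S1 S0 E : ℝ} (hN1 : 0 < N1) (hN0 : 0 < N0) (ha : 1 ≤ a)
    (hb : 1 ≤ b) (hab : a * N1 = b * N0) (hE : 0 ≤ E) (h : (a * S1 - b * S0) ^ 2 ≤ (a * N1) * E) :
    N1 * (S1 / N1 - (S1 + S0) / (N1 + N0)) ^ 2 + N0 * (S0 / N0 - (S1 + S0) / (N1 + N0)) ^ 2
      ≤ E / 2 := by
  have ha0 : 0 < a := by linarith
  have e1 : N1 * (S1 / N1 - (S1 + S0) / (N1 + N0)) ^ 2 +
      N0 * (S0 / N0 - (S1 + S0) / (N1 + N0)) ^ 2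
      = (N0 * S1 - N1 * S0) ^ 2 / (N1 * N0 * (N1 + N0)) := by
    have : N1 + N0 ≠ 0 := by positivity
    field_simp
    ring
  have e2 : N0 * S1 - N1 * S0 = N0 * (a * S1 - b * S0) / a := by
    rw [eq_div_iff ha0.ne']
    have : a * N1 * S0 = b * N0 * S0 := by rw [hab]
    nlinarith [this]
  rw [e1, e2]
  have e3 : (N0 * (a * S1 - b * S0) / a) ^ 2 / (N1 * N0 * (N1 + N0))
      = (a * S1 - b * S0) ^ 2 * (N0 / (a ^ 2 * N1 * (N1 + N0))) := by
    have : N1 + N0 ≠ 0 := by positivity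
    field_simp
  rw [e3]
  calc (a * S1 - b * S0) ^ 2 * (N0 / (a ^ 2 * N1 * (N1 + N0)))
      ≤ ((a * N1) * E) * (N0 / (a ^ 2 * N1 * (N1 + N0))) := by
        apply mul_le_mul_of_nonneg_right h (by positivity)
    _ = E * (N0 / (a * N1 + a * N0)) := by
        have : N1 + N0 ≠ 0 := by positivity
        field_simp
    _ = E * (1 / (a + b)) := by
        rw [hab]
        have : a + b ≠ 0 := by positivity
        have h2 : b * N0 + a * N0 ≠ 0 := by positivity
        field_simp
        ring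
    _ ≤ E * (1 / 2) := by
        apply mul_le_mul_of_nonneg_left _ hE
        apply one_div_le_one_div_of_le (by norm_num); linarith
    _ = E / 2 := by ring


section step

variable [Fintype S]

/-- the two halves of a class -/
noncomputable def half (p q : κ → S) (U : Finset κ) (c : κ) (x : S → Bool) (b : Bool) :
    Finset (S → Bool) := (cls (rel p q (insert c U)) x).filter fun y => y (p c) = b

theorem mem_half {p q : κ → S} {U : Finset κ} {c : κ} {x y : S → Bool} {b : Bool} :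
    y ∈ half p q U c x b ↔ rel p q (insert c U) x y ∧ y (p c) = b := by
  simp [half]

theorem cls_eq_half {p q : κ → S} {U : Finset κ} {c : κ} (hc : c ∉ U)
    (hp : Set.InjOn p (insert c U : Finset κ)) (hq : Set.InjOn q (insert c U : Finset κ))
    (hpq : ∀ z ∈ insert c U, ∀ w ∈ insert c U, p z ≠ q w) {x y : S → Bool} {b : Bool}
    (hy : y ∈ half p q U c x b) : cls (rel p q U) y = half p q U c x b := by
  rw [mem_half] at hy
  ext z
  rw [mem_cls, mem_half, rel_insert_iff hc hp hq hpq]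
  constructor
  · rintro ⟨h1, h2⟩
    exact ⟨(rel p q (insert c U)).trans' hy.1 h1, by rw [← h2, hy.2]⟩
  · rintro ⟨h1, h2⟩
    exact ⟨(rel p q (insert c U)).trans' ((rel p q (insert c U)).symm' hy.1) h1, by
      rw [h2, hy.2]⟩

theorem cls_split {M : Type*} [AddCommMonoid M] {p q : κ → S} {U : Finset κ} {c : κ}
    (x : S → Bool) (F : (S → Bool) → M) :
    ∑ y ∈ cls (rel p q (insert c U)) x, F y
      = ∑ y ∈ half p q U c x true, F y + ∑ y ∈ half p q U c x false, F y := by
  classical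
  unfold half
  rw [← sum_filter_add_sum_filter_not _ (fun y => y (p c) = true)]
  congr 1
  apply sum_congr _ fun _ _ => rfl
  ext y; simp

theorem card_cls_split {p q : κ → S} {U : Finset κ} {c : κ}
    (x : S → Bool) :
    (cls (rel p q (insert c U)) x).card
      = (half p q U c x true).card + (half p q U c x false).card := by
  have := cls_split (p := p) (q := q) (U := U) (c := c) x (fun _ => (1 : ℕ))
  simpa using this

/-- columns of `U` separated from `c` -/
def sep (p q : κ → S) (U : Finset κ) (c : κ) (y : S → Bool) : Finset κ :=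
  U.filter fun d => Osep p q c d y

/-- The state has a constant number of columns separated from `c` on each half -/
theorem card_sep_true {p q : κ → S} {U : Finset κ} {c : κ} {y : S → Bool}
    (h1 : y (p c) = true) (h2 : y (q c) = false) :
    (sep p q U c y).card + ∑ z ∈ U, (y (p z)).toNat
      = ∑ z ∈ U, min ((y (p z)).toNat + (y (q z)).toNat) 1 := by
  unfold sep
  rw [card_filter, ← sum_add_distrib]
  apply sum_congr rfl
  intro z _
  have hO : Osep p q c z y ↔ (y (p z) = false ∧ y (q z) = true) := by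
    unfold Osep
    rw [h1, h2]
    cases y (p z) <;> cases y (q z) <;> simp
  rw [if_congr hO rfl rfl]
  cases y (p z) <;> cases y (q z) <;> simp

theorem card_sep_false {p q : κ → S} {U : Finset κ} {c : κ} {y : S → Bool}
    (h1 : y (p c) = false) (h2 : y (q c) = true) :
    (sep p q U c y).card + ∑ z ∈ U, ((y (p z)).toNat + (y (q z)).toNat - 1)
      = ∑ z ∈ U, (y (p z)).toNat := by
  unfold sep
  rw [card_filter, ← sum_add_distrib]
  apply sum_congr rfl
  intro z _
  have hO : Osep p q c z y ↔ (y (p z) = true ∧ y (q z) = false) := by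
    unfold Osep
    rw [h1, h2]
    cases y (p z) <;> cases y (q z) <;> simp
  rw [if_congr hO rfl rfl]
  cases y (p z) <;> cases y (q z) <;> simp

theorem sum_congr_col {p q : κ → S} {U : Finset κ} {x y : S → Bool} (h : rel p q U x y)
    (F : ℕ → ℕ) : ∑ z ∈ U, F ((x (p z)).toNat + (x (q z)).toNat)
      = ∑ z ∈ U, F ((y (p z)).toNat + (y (q z)).toNat) := by
  apply sum_congr rfl
  intro z hz
  rw [(rel_iff.mp h).2.1 z hz]

/-- pointwise (class-wise) inequality -/
theorem step_pointwise {p q : κ → S} {U : Finset κ} {c : κ} (hc : c ∉ U)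
    (hp : Set.InjOn p (insert c U : Finset κ)) (hq : Set.InjOn q (insert c U : Finset κ))
    (hpq : ∀ z ∈ insert c U, ∀ w ∈ insert c U, p z ≠ q w) (f : (S → Bool) → ℝ) (x : S → Bool) :
    ∑ y ∈ cls (rel p q (insert c U)) x, (cE (rel p q U) f y - cE (rel p q (insert c U)) f y) ^ 2
      ≤ (1 / 4) * ∑ y ∈ cls (rel p q (insert c U)) x, ∑ d ∈ U, (f y - f (sw p q c d y)) ^ 2 := by
  classical
  set r := rel p q U with hr
  set r' := rel p q (insert c U) with hr'
  set Φ1 := half p q U c x true with hΦ1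
  set Φ0 := half p q U c x false with hΦ0
  have hcW : c ∈ insert c U := mem_insert_self c U
  have hdc : ∀ d ∈ U, c ≠ d := fun d hd h => hc (h ▸ hd)
  have hE' : ∀ y ∈ cls r' x, cE r' f y = (∑ z ∈ cls r' x, f z) / ((cls r' x).card : ℝ) := by
    intro y hy
    rw [← cE_congr (mem_cls.mp hy)]; rfl
  have hE1 : ∀ y ∈ Φ1, cE r f y = (∑ z ∈ Φ1, f z) / (Φ1.card : ℝ) := by
    intro y hy
    unfold cE
    rw [cls_eq_half hc hp hq hpq hy]
  have hE0 : ∀ y ∈ Φ0, cE r f y = (∑ z ∈ Φ0, f z) / (Φ0.card : ℝ) := by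
    intro y hy
    unfold cE
    rw [cls_eq_half hc hp hq hpq hy]
  have hcls1 : ∀ y ∈ Φ1, y ∈ cls r' x := fun y hy => mem_cls.mpr (mem_half.mp hy).1
  have hcls0 : ∀ y ∈ Φ0, y ∈ cls r' x := fun y hy => mem_cls.mpr (mem_half.mp hy).1
  have hR : 0 ≤ (1 / 4 : ℝ) * ∑ y ∈ cls r' x, ∑ d ∈ U, (f y - f (sw p q c d y)) ^ 2 := by
    positivity
  rcases eq_empty_or_nonempty Φ1 with hem1 | ⟨y1, hy1⟩
  · -- only `Φ0`
    have : cls r' x = Φ0 := by
      ext y
      constructor
      · intro hy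
        rw [hΦ0, mem_half]
        refine ⟨mem_cls.mp hy, ?_⟩
        by_contra hne
        have : y ∈ Φ1 := by
          rw [hΦ1, mem_half]; exact ⟨mem_cls.mp hy, by simpa using hne⟩
        rw [hem1] at this; simp at this
      · exact hcls0 y
    refine le_trans (le_of_eq ?_) hR
    apply sum_eq_zero
    intro y hy
    rw [hE' y hy, this, hE0 y (this ▸ hy), sub_self]; simp
  rcases eq_empty_or_nonempty Φ0 with hem0 | ⟨y0, hy0⟩
  · have : cls r' x = Φ1 := by
      ext y
      constructor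
      · intro hy
        rw [hΦ1, mem_half]
        refine ⟨mem_cls.mp hy, ?_⟩
        by_contra hne
        have : y ∈ Φ0 := by
          rw [hΦ0, mem_half]; exact ⟨mem_cls.mp hy, by simpa using hne⟩
        rw [hem0] at this; simp at this
      · exact hcls1 y
    refine le_trans (le_of_eq ?_) hR
    apply sum_eq_zero
    intro y hy
    rw [hE' y hy, this, hE1 y (this ▸ hy), sub_self]; simp
  -- both halves nonempty
  have hy1' := mem_half.mp hy1
  have hy0' := mem_half.mp hy0
  have hrel10 : r' y1 y0 := r'.trans' (r'.symm' hy1'.1) hy0'.1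
  have hq1 : ∀ y ∈ Φ1, y (q c) = false := by
    intro y hy
    have hy' := mem_half.mp hy
    have h := (rel_iff.mp (r'.trans' (r'.symm' hy'.1) hy0'.1)).2.1 c hcW
    rw [hy'.2, hy0'.2] at h
    cases hh : y (q c)
    · rfl
    · rw [hh] at h
      cases h2 : y0 (q c) <;> rw [h2] at h <;> simp at h
  have hq0 : ∀ y ∈ Φ0, y (q c) = true := by
    intro y hy
    have hy' := mem_half.mp hy
    have h := (rel_iff.mp (r'.trans' (r'.symm' hy'.1) hy1'.1)).2.1 c hcW
    rw [hy'.2, hy1'.2, hq1 y1 hy1] at h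
    cases hh : y (q c)
    · rw [hh] at h; simp at h
    · rfl
  -- constants `a`, `b`
  set a := (sep p q U c y1).card with ha
  set b := (sep p q U c y0).card with hb
  have hrel1 : ∀ y ∈ Φ1, r y1 y := by
    intro y hy
    rw [← mem_cls, cls_eq_half hc hp hq hpq hy1]; exact hy
  have hrel0 : ∀ y ∈ Φ0, r y0 y := by
    intro y hy
    rw [← mem_cls, cls_eq_half hc hp hq hpq hy0]; exact hy
  have hca : ∀ y ∈ Φ1, (sep p q U c y).card = a := by
    intro y hy
    have h1 := card_sep_true (U := U) (mem_half.mp hy).2 (hq1 y hy)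
    have h2 := card_sep_true (U := U) (mem_half.mp hy1).2 (hq1 y1 hy1)
    have h3 := sum_congr_col (hrel1 y hy) (fun n => min n 1)
    have h4 := (rel_iff.mp (hrel1 y hy)).2.2
    omega
  have hcb : ∀ y ∈ Φ0, (sep p q U c y).card = b := by
    intro y hy
    have h1 := card_sep_false (U := U) (mem_half.mp hy).2 (hq0 y hy)
    have h2 := card_sep_false (U := U) (mem_half.mp hy0).2 (hq0 y0 hy0)
    have h3 := sum_congr_col (hrel0 y hy) (fun n => n - 1)
    have h4 := (rel_iff.mp (hrel0 y hy)).2.2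
    omega
  -- `a, b ≥ 1`
  have hrow : ∑ z ∈ U, (y1 (p z)).toNat + 1 = ∑ z ∈ U, (y0 (p z)).toNat := by
    have h := (rel_iff.mp hrel10).2.2
    rw [sum_insert hc, sum_insert hc, hy1'.2, hy0'.2] at h
    simp at h
    omega
  have hex : ∃ d ∈ U, y1 (p d) = false ∧ y0 (p d) = true := by
    by_contra hne
    push Not at hne
    have : ∑ z ∈ U, (y0 (p z)).toNat ≤ ∑ z ∈ U, (y1 (p z)).toNat := by
      apply sum_le_sum
      intro z hz
      have := hne z hz
      cases h1 : y1 (p z) <;> cases h0 : y0 (p z) <;> simp_all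
    omega
  obtain ⟨d0, hd0, hd1, hd2⟩ := hex
  have hcol0 := (rel_iff.mp hrel10).2.1 d0 (mem_insert_of_mem hd0)
  have ha1 : 1 ≤ a := by
    rw [ha, Nat.one_le_iff_ne_zero, Ne, card_eq_zero]
    intro h
    have : d0 ∈ sep p q U c y1 := by
      refine mem_filter.mpr ⟨hd0, ?_⟩
      unfold Osep
      rw [hy1'.2, hq1 y1 hy1, hd1]
      refine ⟨?_, rfl, by simp⟩
      rw [hd1, hd2] at hcol0
      cases h1 : y1 (q d0) <;> cases h0 : y0 (q d0) <;> rw [h1, h0] at hcol0 <;> simp at hcol0 ⊢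
    rw [h] at this; simp at this
  have hb1 : 1 ≤ b := by
    rw [hb, Nat.one_le_iff_ne_zero, Ne, card_eq_zero]
    intro h
    have : d0 ∈ sep p q U c y0 := by
      refine mem_filter.mpr ⟨hd0, ?_⟩
      unfold Osep
      rw [hy0'.2, hq0 y0 hy0, hd2]
      refine ⟨?_, rfl, by simp⟩
      rw [hd1, hd2] at hcol0
      cases h1 : y1 (q d0) <;> cases h0 : y0 (q d0) <;> rw [h1, h0] at hcol0 <;> simp at hcol0 ⊢
    rw [h] at this; simp at this
  -- the bijection
  have hswmem : ∀ (β : Bool), ∀ y ∈ half p q U c x β, ∀ d ∈ sep p q U c y,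
      sw p q c d y ∈ half p q U c x (!β) ∧ d ∈ sep p q U c (sw p q c d y) := by
    intro β y hy d hd
    have hd' := mem_filter.mp hd
    have hy' := mem_half.mp hy
    refine ⟨mem_half.mpr ⟨r'.trans' hy'.1
      (rel_sw hp hq hpq hcW (mem_insert_of_mem hd'.1) (hdc d hd'.1) y), ?_⟩, ?_⟩
    · rw [sw_pc hd'.2, hy'.2]
    · exact mem_filter.mpr ⟨hd'.1, Osep_sw hd'.2⟩
  have hbij : ∀ F : (S → Bool) → κ → ℝ,
      ∑ y ∈ Φ1, ∑ d ∈ sep p q U c y, F (sw p q c d y) d
        = ∑ y ∈ Φ0, ∑ d ∈ sep p q U c y, F y d := by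
    intro F
    rw [sum_sigma', sum_sigma']
    refine sum_bij' (fun (z : (_ : S → Bool) × κ) _ => ⟨sw p q c z.2 z.1, z.2⟩)
      (fun (z : (_ : S → Bool) × κ) _ => ⟨sw p q c z.2 z.1, z.2⟩) ?_ ?_ ?_ ?_ ?_
    · rintro ⟨y, d⟩ hz
      rw [mem_sigma] at hz ⊢
      exact hswmem true y hz.1 d hz.2
    · rintro ⟨y, d⟩ hz
      rw [mem_sigma] at hz ⊢
      exact hswmem false y hz.1 d hz.2
    · rintro ⟨y, d⟩ _
      simp [sw_sw]
    · rintro ⟨y, d⟩ _
      simp [sw_sw]
    · rintro ⟨y, d⟩ _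
      rfl
  have hcount : (a : ℝ) * Φ1.card = b * Φ0.card := by
    have h := hbij (fun _ _ => 1)
    simp only [sum_const, nsmul_eq_mul, mul_one] at h
    rw [sum_congr rfl fun y hy => by rw [hca y hy], sum_const, nsmul_eq_mul] at h
    rw [sum_congr (s₁ := Φ0) rfl fun y hy => by rw [hcb y hy], sum_const, nsmul_eq_mul] at h
    linarith
  have hS1 : ∑ y ∈ Φ1, ∑ d ∈ sep p q U c y, f y = a * ∑ y ∈ Φ1, f y := by
    rw [mul_sum]
    apply sum_congr rfl
    intro y hy
    rw [sum_const, hca y hy, nsmul_eq_mul]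
  have hS0 : ∑ y ∈ Φ1, ∑ d ∈ sep p q U c y, f (sw p q c d y) = b * ∑ y ∈ Φ0, f y := by
    rw [hbij (fun y _ => f y), mul_sum]
    apply sum_congr rfl
    intro y hy
    rw [sum_const, hcb y hy, nsmul_eq_mul]
  have hdrop : ∀ y, ∑ d ∈ U, (f y - f (sw p q c d y)) ^ 2
      = ∑ d ∈ sep p q U c y, (f y - f (sw p q c d y)) ^ 2 := by
    intro y
    unfold sep
    rw [sum_filter]
    apply sum_congr rfl
    intro d _
    split_ifs with h
    · rfl
    · rw [sw_of_not h]; simp
  set E1 := ∑ y ∈ Φ1, ∑ d ∈ U, (f y - f (sw p q c d y)) ^ 2 with hE1'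
  have hE01 : ∑ y ∈ Φ0, ∑ d ∈ U, (f y - f (sw p q c d y)) ^ 2 = E1 := by
    rw [hE1', sum_congr rfl fun y _ => hdrop y, sum_congr (s₁ := Φ1) rfl fun y _ => hdrop y,
      ← hbij (fun y d => (f y - f (sw p q c d y)) ^ 2)]
    apply sum_congr rfl
    intro y _
    apply sum_congr rfl
    intro d _
    rw [sw_sw]; ring
  have hCS : (a * ∑ y ∈ Φ1, f y - b * ∑ y ∈ Φ0, f y) ^ 2 ≤ (a * (Φ1.card : ℝ)) * E1 := by
    rw [← hS1, ← hS0, ← sum_sub_distrib, hE1', sum_congr (s₁ := Φ1) rfl fun y _ => hdrop y]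
    simp only [← sum_sub_distrib]
    rw [sum_sigma', sum_sigma']
    refine le_trans sq_sum_le_card_mul_sum_sq (le_of_eq ?_)
    congr 1
    rw [card_sigma, Nat.cast_sum, sum_congr rfl fun y hy => by rw [hca y hy], sum_const,
      nsmul_eq_mul, mul_comm]
  have hnum := johnson_numeric (N1 := Φ1.card) (N0 := Φ0.card) (a := a) (b := b)
    (S1 := ∑ y ∈ Φ1, f y) (S0 := ∑ y ∈ Φ0, f y) (E := E1)
    (by exact_mod_cast card_pos.mpr ⟨y1, hy1⟩) (by exact_mod_cast card_pos.mpr ⟨y0, hy0⟩)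
    (by exact_mod_cast ha1) (by exact_mod_cast hb1) hcount (by positivity) hCS
  rw [hr', cls_split x, cls_split x, ← hr', ← hΦ1, ← hΦ0, hE01, ← hE1']
  have hcl : (∑ z ∈ cls r' x, f z) / ((cls r' x).card : ℝ)
      = (∑ y ∈ Φ1, f y + ∑ y ∈ Φ0, f y) / ((Φ1.card : ℝ) + Φ0.card) := by
    rw [hr', cls_split x, card_cls_split x, Nat.cast_add]
  have hl1 : ∑ y ∈ Φ1, (cE r f y - cE r' f y) ^ 2
      = Φ1.card * ((∑ y ∈ Φ1, f y) / Φ1.card
        - (∑ y ∈ Φ1, f y + ∑ y ∈ Φ0, f y) / ((Φ1.card : ℝ) + Φ0.card)) ^ 2 := by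
    rw [sum_congr rfl fun y hy => by rw [hE1 y hy, hE' y (hcls1 y hy), hcl], sum_const,
      nsmul_eq_mul]
  have hl0 : ∑ y ∈ Φ0, (cE r f y - cE r' f y) ^ 2
      = Φ0.card * ((∑ y ∈ Φ0, f y) / Φ0.card
        - (∑ y ∈ Φ1, f y + ∑ y ∈ Φ0, f y) / ((Φ1.card : ℝ) + Φ0.card)) ^ 2 := by
    rw [sum_congr rfl fun y hy => by rw [hE0 y hy, hE' y (hcls0 y hy), hcl], sum_const,
      nsmul_eq_mul]
  rw [hl1, hl0]
  linarith

theorem step {p q : κ → S} {U : Finset κ} {c : κ} (hc : c ∉ U)
    (hp : Set.InjOn p (insert c U : Finset κ)) (hq : Set.InjOn q (insert c U : Finset κ))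
    (hpq : ∀ z ∈ insert c U, ∀ w ∈ insert c U, p z ≠ q w) (f : (S → Bool) → ℝ) :
    ∑ y, (cE (rel p q U) f y - cE (rel p q (insert c U)) f y) ^ 2
      ≤ (1 / 4) * ∑ d ∈ U, en p q c d f := by
  rw [← sum_cE (rel p q (insert c U))
    (fun y => (cE (rel p q U) f y - cE (rel p q (insert c U)) f y) ^ 2)]
  have h2 : ∑ d ∈ U, en p q c d f
      = ∑ x, cE (rel p q (insert c U)) (fun y => ∑ d ∈ U, (f y - f (sw p q c d y)) ^ 2) x := by
    rw [sum_cE, sum_comm]
    rfl
  rw [h2, mul_sum]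
  apply sum_le_sum
  intro x _
  unfold cE
  rw [← mul_div_assoc]
  apply div_le_div_of_nonneg_right _ (by positivity)
  exact step_pointwise hc hp hq hpq f x

end step

end T1

theorem en_comm_col {κ S : Type*} [DecidableEq κ] [DecidableEq S] [Fintype S] (p q : κ → S)
    (c d : κ) (f : (S → Bool) → ℝ) : en p q c d f = en p q d c f := by
  unfold en
  apply sum_congr rfl
  intro x _
  have h : Osep p q c d x ↔ Osep p q d c x := by
    unfold Osep
    constructor
    · rintro ⟨h1, h2, h3⟩; exact ⟨h2, h1, h3.symm⟩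
    · rintro ⟨h1, h2, h3⟩; exact ⟨h2, h1, h3.symm⟩
  have : sw p q c d x = sw p q d c x := by
    funext e
    unfold sw
    have h2 : (Osep p q c d x ∧ (e = p c ∨ e = p d ∨ e = q c ∨ e = q d)) ↔
        (Osep p q d c x ∧ (e = p d ∨ e = p c ∨ e = q d ∨ e = q c)) := by
      rw [h]; tauto
    simp only [h2]
  rw [this]

theorem en_self_col {κ S : Type*} [DecidableEq κ] [DecidableEq S] [Fintype S] (p q : κ → S)
    (c : κ) (f : (S → Bool) → ℝ) : en p q c c f = 0 := by
  unfold en
  apply sum_eq_zero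
  intro x _
  have h : ¬ Osep p q c c x := by
    unfold Osep
    rintro ⟨_, _, h3⟩; exact h3 rfl
  rw [T1.sw_of_not h]; simp

/-- **T1**: Johnson gap at least two. -/
theorem twoRow_poincare {κ S : Type*} [DecidableEq κ] [DecidableEq S] [Fintype S]
    (p q : κ → S) (U : Finset κ) (hp : Set.InjOn p U)
    (hq : Set.InjOn q U) (hpq : ∀ z ∈ U, ∀ w ∈ U, p z ≠ q w) (f : (S → Bool) → ℝ) :
    ∑ x, (f x - cE (rel p q U) f x) ^ 2 ≤ (1 / 8) * ∑ c ∈ U, ∑ d ∈ U, en p q c d f := by
  classical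
  induction U using Finset.induction_on with
  | empty =>
    have : ∀ x, cE (rel p q ∅) f x = f x := by
      intro x
      apply cE_of_inv
      intro y hy
      have : x = y := by
        funext e
        exact (rel_iff.mp hy).1 e (by simp)
      rw [this]
    simp [this]
  | insert c U hc ih =>
    have ih' := ih (hp.mono (by simp)) (hq.mono (by simp))
      (fun z hz w hw => hpq z (mem_insert_of_mem hz) w (mem_insert_of_mem hw))
    have hst := T1.step hc hp hq hpq f
    have hle := T1.rel_le_insert hc hp hq hpq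
    have e1 := sum_sq_sub_cE (rel p q (insert c U)) f
    have e2 := sum_sq_sub_cE (rel p q U) f
    have e3 := sum_sq_sub_cE (rel p q (insert c U)) (cE (rel p q U) f)
    rw [cE_cE_of_ge hle f] at e3
    have e4 : ∑ c' ∈ insert c U, ∑ d ∈ insert c U, en p q c' d f
        = ∑ c' ∈ U, ∑ d ∈ U, en p q c' d f + 2 * ∑ d ∈ U, en p q c d f := by
      rw [sum_insert hc, sum_insert hc, en_self_col]
      have : ∑ c' ∈ U, ∑ d ∈ insert c U, en p q c' d f
          = ∑ c' ∈ U, (en p q c c' f + ∑ d ∈ U, en p q c' d f) := by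
        apply sum_congr rfl
        intro c' _
        rw [sum_insert hc, en_comm_col p q c' c]
      rw [this, sum_add_distrib]
      ring
    rw [e4]
    linarith

end Crest.Agent.R299
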