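import Mathlib
import Crest.Agent.R299.Defs
import Crest.Agent.R299.ClassParam
import Crest.Agent.R299.TwoRowPoincare
import Crest.Agent.R299.Spectral
import Crest.Agent.R299.Coupling

/-! # T3c : the three-row lemma -/

set_option autoImplicit false
set_option linter.unusedSectionVars false
set_option linter.unusedSimpArgs false
open Finset

namespace Crest.Agent.R299

namespace TR

/-! ### the maximum principle -/

theorem max_principle {α : Type*} [Fintype α] (R : α → α → Prop) (f : α → ℝ) (lam : ℝ)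
    (hl : 2 < lam)
    (h : ∀ b : ℝ, (∀ x y, R x y → |f x - f y| ≤ b) → ∀ x y, R x y → lam * |f x - f y| ≤ 2 * b) :
    ∀ x y, R x y → f x = f y := by
  classical
  intro x y hxy
  set T : Finset (α × α) := univ.filter fun t => R t.1 t.2 with hT
  have hmem : ∀ u v, R u v ↔ (u, v) ∈ T := by intro u v; simp [hT]
  obtain ⟨t, htT, ht⟩ := T.exists_max_image (fun t => |f t.1 - f t.2|) ⟨(x, y), (hmem x y).1 hxy⟩
  have hR : R t.1 t.2 := (hmem _ _).2 htT
  have h1 := h |f t.1 - f t.2| (fun u v huv => ht (u, v) ((hmem u v).1 huv)) t.1 t.2 hR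
  have h2 : |f t.1 - f t.2| ≤ 0 := by nlinarith [abs_nonneg (f t.1 - f t.2)]
  have h3 := ht (x, y) ((hmem x y).1 hxy)
  have h4 : |f x - f y| ≤ 0 := le_trans h3 h2
  have h5 : |f x - f y| = 0 := le_antisymm h4 (abs_nonneg _)
  have h6 := abs_eq_zero.1 h5
  linarith

theorem cE_abs_le {α : Type*} [Fintype α] (r : Setoid α) (g : α → ℝ) (x : α) (b : ℝ)
    (h : ∀ y, r x y → |g y| ≤ b) : |cE r g x| ≤ b := by
  unfold cE
  have hc : (0 : ℝ) < ((cls r x).card : ℝ) := by exact_mod_cast card_cls_pos r x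
  rw [abs_div, abs_of_pos hc, div_le_iff₀ hc]
  calc |∑ y ∈ cls r x, g y| ≤ ∑ y ∈ cls r x, |g y| := abs_sum_le_sum_abs _ _
    _ ≤ ∑ _y ∈ cls r x, b := sum_le_sum fun y hy => h y (mem_cls.1 hy)
    _ = b * ((cls r x).card : ℝ) := by rw [sum_const, nsmul_eq_mul, mul_comm]

theorem univ3 : ∀ p q i : Fin 3, p ≠ q → p ≠ i → q ≠ i → (univ : Finset (Fin 3)) = {p, q, i} := by
  decide

theorem exists_row_eq : ∀ u v : Fin 3 → Bool,
    ∑ r, (u r).toNat = ∑ r, (v r).toNat → ∃ i, u i = v i := by decide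

/-! ### Swapping two columns -/

variable {κ S : Type*} [DecidableEq κ] [DecidableEq S]

/-- the slot permutation exchanging the columns `j` and `k` -/
def perm (sl : Fin 3 → κ → S) (j k : κ) : Equiv.Perm S :=
  (Equiv.swap (sl 0 j) (sl 0 k)) * (Equiv.swap (sl 1 j) (sl 1 k)) * (Equiv.swap (sl 2 j) (sl 2 k))

/-- swap the columns `j`, `k` -/
def swp (sl : Fin 3 → κ → S) (j k : κ) : Equiv.Perm (S → Bool) where
  toFun x := fun e => x (perm sl j k e)
  invFun x := fun e => x ((perm sl j k).symm e)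
  left_inv x := by funext e; simp
  right_inv x := by funext e; simp

def Inj (sl : Fin 3 → κ → S) (U : Finset κ) : Prop :=
  ∀ i j, ∀ z ∈ U, ∀ w ∈ U, sl i z = sl j w → i = j ∧ z = w

omit [DecidableEq κ] [DecidableEq S] in
theorem Inj.ne {sl : Fin 3 → κ → S} {U : Finset κ} (h : Inj sl U) {i j : Fin 3} {z w : κ}
    (hz : z ∈ U) (hw : w ∈ U) (hne : i ≠ j ∨ z ≠ w) : sl i z ≠ sl j w := by
  intro he
  obtain ⟨h1, h2⟩ := h i j z hz w hw he
  rcases hne with h3 | h3
  · exact h3 h1
  · exact h3 h2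

theorem swap_mem {U : Finset κ} {j k z : κ} (hj : j ∈ U) (hk : k ∈ U) (hz : z ∈ U) :
    Equiv.swap j k z ∈ U := by
  by_cases h1 : z = j
  · subst h1; simpa using hk
  · by_cases h2 : z = k
    · subst h2; simpa using hj
    · rw [Equiv.swap_apply_of_ne_of_ne h1 h2]; exact hz

theorem fin3_cases (r : Fin 3) : r = 0 ∨ r = 1 ∨ r = 2 := by revert r; decide

theorem perm_slot {sl : Fin 3 → κ → S} {U : Finset κ} (h : Inj sl U) {j k : κ} (hj : j ∈ U)
    (hk : k ∈ U) (r : Fin 3) {z : κ} (hz : z ∈ U) :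
    perm sl j k (sl r z) = sl r (Equiv.swap j k z) := by
  have key_eq : ∀ r : Fin 3, Equiv.swap (sl r j) (sl r k) (sl r z) = sl r (Equiv.swap j k z) := by
    intro r
    by_cases h1 : z = j
    · subst h1; simp
    · by_cases h2 : z = k
      · subst h2; simp
      · rw [Equiv.swap_apply_of_ne_of_ne h1 h2]
        exact Equiv.swap_apply_of_ne_of_ne (h.ne hz hj (Or.inr h1)) (h.ne hz hk (Or.inr h2))
  have key_ne : ∀ (s r : Fin 3) (z : κ), z ∈ U → s ≠ r →
      Equiv.swap (sl s j) (sl s k) (sl r z) = sl r z := by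
    intro s r z hz hs
    exact Equiv.swap_apply_of_ne_of_ne (h.ne hz hj (Or.inl (Ne.symm hs)))
      (h.ne hz hk (Or.inl (Ne.symm hs)))
  have hz' := swap_mem hj hk hz
  unfold perm
  simp only [Equiv.Perm.mul_apply]
  rcases fin3_cases r with rfl | rfl | rfl
  · rw [key_ne 2 0 z hz (by decide), key_ne 1 0 z hz (by decide), key_eq]
  · rw [key_ne 2 1 z hz (by decide), key_eq, key_ne 0 1 _ hz' (by decide)]
  · rw [key_eq, key_ne 1 2 _ hz' (by decide), key_ne 0 2 _ hz' (by decide)]

theorem perm_off {sl : Fin 3 → κ → S} {j k : κ} {e : S}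
    (he : ∀ r, e ≠ sl r j ∧ e ≠ sl r k) : perm sl j k e = e := by
  unfold perm
  simp only [Equiv.Perm.mul_apply]
  rw [Equiv.swap_apply_of_ne_of_ne (he 2).1 (he 2).2, Equiv.swap_apply_of_ne_of_ne (he 1).1 (he 1).2,
    Equiv.swap_apply_of_ne_of_ne (he 0).1 (he 0).2]

theorem swp_slot {sl : Fin 3 → κ → S} {U : Finset κ} (h : Inj sl U) {j k : κ} (hj : j ∈ U)
    (hk : k ∈ U) (r : Fin 3) {z : κ} (hz : z ∈ U) (x : S → Bool) :
    swp sl j k x (sl r z) = x (sl r (Equiv.swap j k z)) := by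
  show x (perm sl j k (sl r z)) = _
  rw [perm_slot h hj hk r hz]

theorem swp_off {sl : Fin 3 → κ → S} {j k : κ} {e : S}
    (he : ∀ r, e ≠ sl r j ∧ e ≠ sl r k) (x : S → Bool) : swp sl j k x e = x e := by
  show x (perm sl j k e) = _
  rw [perm_off he]

omit [DecidableEq κ] [DecidableEq S] in
theorem state_ext {sl : Fin 3 → κ → S} {U : Finset κ} {x y : S → Bool}
    (h1 : ∀ e, (∀ r, ∀ z ∈ U, e ≠ sl r z) → x e = y e)
    (h2 : ∀ r, ∀ z ∈ U, x (sl r z) = y (sl r z)) : x = y := by
  funext e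
  by_cases he : ∃ r, ∃ z ∈ U, e = sl r z
  · obtain ⟨r, z, hz, rfl⟩ := he
    exact h2 r z hz
  · push Not at he
    exact h1 e he

/-- the relation of two rows in column form -/
theorem rel_rows {sl : Fin 3 → κ → S} {U : Finset κ} (h : Inj sl U) {p q i : Fin 3}
    (hpq : p ≠ q) (hpi : p ≠ i) (hqi : q ≠ i) {x y : S → Bool} :
    rel (sl p) (sl q) U x y ↔ (∀ e, (∀ r, ∀ z ∈ U, e ≠ sl r z) → x e = y e) ∧
      (∀ z ∈ U, x (sl i z) = y (sl i z)) ∧
      (∀ z ∈ U, (x (sl p z)).toNat + (x (sl q z)).toNat =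
        (y (sl p z)).toNat + (y (sl q z)).toNat) ∧
      ∑ z ∈ U, (x (sl p z)).toNat = ∑ z ∈ U, (y (sl p z)).toNat := by
  rw [rel_iff]
  constructor
  · rintro ⟨h1, h2, h3⟩
    refine ⟨fun e he => h1 e fun z hz => ⟨he p z hz, he q z hz⟩, fun z hz => ?_, h2, h3⟩
    exact h1 _ fun w hw => ⟨h.ne hz hw (Or.inl (Ne.symm hpi)), h.ne hz hw (Or.inl (Ne.symm hqi))⟩
  · rintro ⟨h1, h1', h2, h3⟩
    refine ⟨fun e he => ?_, h2, h3⟩
    by_cases hr : ∃ r, ∃ z ∈ U, e = sl r z
    · obtain ⟨r, z, hz, rfl⟩ := hr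
      have hr' : r = i := by
        have e1 : r ≠ p := fun hh => (he z hz).1 (by rw [hh])
        have e2 : r ≠ q := fun hh => (he z hz).2 (by rw [hh])
        omega
      rw [hr']
      exact h1' z hz
    · push Not at hr
      exact h1 e hr

theorem rel_swap_rows (p q : κ → S) (U : Finset κ) : rel p q U = rel q p U := by
  have key : ∀ (p q : κ → S) (x y : S → Bool), rel p q U x y → rel q p U x y := by
    intro p q x y h
    rw [rel_iff] at h ⊢
    obtain ⟨h1, h2, h3⟩ := h
    refine ⟨fun e he => h1 e fun z hz => ⟨(he z hz).2, (he z hz).1⟩, fun z hz => ?_, ?_⟩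
    · have := h2 z hz; omega
    · have h4 := sum_congr rfl h2
      rw [sum_add_distrib, sum_add_distrib] at h4
      omega
  ext x y
  exact ⟨key p q x y, key q p x y⟩

/-- Swapping two columns preserves the relation. -/
theorem swp_rel {sl : Fin 3 → κ → S} {U : Finset κ} (h : Inj sl U) {p q i : Fin 3}
    (hpq : p ≠ q) (hpi : p ≠ i) (hqi : q ≠ i) {j k : κ} (hj : j ∈ U) (hk : k ∈ U)
    {x y : S → Bool} (hxy : rel (sl p) (sl q) U x y) :
    rel (sl p) (sl q) U (swp sl j k x) (swp sl j k y) := by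
  rw [rel_rows h hpq hpi hqi] at hxy ⊢
  obtain ⟨h1, h2, h3, h4⟩ := hxy
  refine ⟨fun e he => ?_, fun z hz => ?_, fun z hz => ?_, ?_⟩
  · have he' : ∀ r, e ≠ sl r j ∧ e ≠ sl r k := fun r => ⟨he r j hj, he r k hk⟩
    rw [swp_off he', swp_off he']
    exact h1 e he
  · rw [swp_slot h hj hk i hz, swp_slot h hj hk i hz]
    exact h2 _ (swap_mem hj hk hz)
  · rw [swp_slot h hj hk _ hz, swp_slot h hj hk _ hz, swp_slot h hj hk _ hz, swp_slot h hj hk _ hz]
    exact h3 _ (swap_mem hj hk hz)
  · have key : ∀ x : S → Bool, ∑ z ∈ U, (swp sl j k x (sl p z)).toNat =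
        ∑ z ∈ U, (x (sl p z)).toNat := by
      intro x
      refine sum_bij (fun z _ => Equiv.swap j k z) (fun z hz => swap_mem hj hk hz)
        (fun a _ b _ hab => (Equiv.swap j k).injective hab)
        (fun b hb => ⟨Equiv.swap j k b, swap_mem hj hk hb, by simp⟩) ?_
      intro z hz
      rw [swp_slot h hj hk p hz]
    rw [key, key, h4]

theorem swp_swp {sl : Fin 3 → κ → S} {U : Finset κ} (h : Inj sl U) {j k : κ} (hj : j ∈ U)
    (hk : k ∈ U) (x : S → Bool) : swp sl j k (swp sl j k x) = x := by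
  refine state_ext (sl := sl) (U := U) ?_ ?_
  · intro e he
    have he' : ∀ r, e ≠ sl r j ∧ e ≠ sl r k := fun r => ⟨he r j hj, he r k hk⟩
    rw [swp_off he', swp_off he']
  · intro r z hz
    rw [swp_slot h hj hk r hz, swp_slot h hj hk r (swap_mem hj hk hz)]
    simp

theorem swp_rel_iff {sl : Fin 3 → κ → S} {U : Finset κ} (h : Inj sl U) {p q i : Fin 3}
    (hpq : p ≠ q) (hpi : p ≠ i) (hqi : q ≠ i) {j k : κ} (hj : j ∈ U) (hk : k ∈ U)
    (x y : S → Bool) : rel (sl p) (sl q) U x y ↔
      rel (sl p) (sl q) U (swp sl j k x) (swp sl j k y) := by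
  constructor
  · exact swp_rel h hpq hpi hqi hj hk
  · intro hh
    have := swp_rel h hpq hpi hqi hj hk hh
    rwa [swp_swp h hj hk, swp_swp h hj hk] at this

/-- column sum -/
def cs (sl : Fin 3 → κ → S) (x : S → Bool) (z : κ) : ℕ := ∑ r, (x (sl r z)).toNat

theorem cs_rel {sl : Fin 3 → κ → S} {U : Finset κ} (h : Inj sl U) {p q i : Fin 3}
    (hpq : p ≠ q) (hpi : p ≠ i) (hqi : q ≠ i) {x y : S → Bool}
    (hxy : rel (sl p) (sl q) U x y) {z : κ} (hz : z ∈ U) : cs sl x z = cs sl y z := by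
  rw [rel_rows h hpq hpi hqi] at hxy
  obtain ⟨_, h2, h3, _⟩ := hxy
  have key : ∀ x : S → Bool, cs sl x z = (x (sl p z)).toNat + (x (sl q z)).toNat +
      (x (sl i z)).toNat := by
    intro x
    unfold cs
    have hu := univ3 p q i hpq hpi hqi
    rw [hu, sum_insert (by simp [hpq, hpi]), sum_insert (by simp [hqi]), sum_singleton]
    ring
  rw [key, key, h3 z hz, h2 z hz]

/-- If the row `i` agrees on the columns `j`, `k` of equal sum, swapping them stays in the class. -/
theorem swp_in_class {sl : Fin 3 → κ → S} {U : Finset κ} (h : Inj sl U) {p q i : Fin 3}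
    (hpq : p ≠ q) (hpi : p ≠ i) (hqi : q ≠ i) {j k : κ} (hj : j ∈ U) (hk : k ∈ U)
    {x : S → Bool} (hs : cs sl x j = cs sl x k) (hi : x (sl i j) = x (sl i k)) :
    rel (sl p) (sl q) U x (swp sl j k x) := by
  have key : ∀ z, cs sl x z = (x (sl p z)).toNat + (x (sl q z)).toNat +
      (x (sl i z)).toNat := by
    intro z
    unfold cs
    have hu := univ3 p q i hpq hpi hqi
    rw [hu, sum_insert (by simp [hpq, hpi]), sum_insert (by simp [hqi]), sum_singleton]
    ring
  rw [key, key, hi] at hs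
  rw [rel_rows h hpq hpi hqi]
  refine ⟨fun e he => ?_, fun z hz => ?_, fun z hz => ?_, ?_⟩
  · have he' : ∀ r, e ≠ sl r j ∧ e ≠ sl r k := fun r => ⟨he r j hj, he r k hk⟩
    rw [swp_off he']
  · rw [swp_slot h hj hk i hz]
    by_cases h1 : z = j
    · subst h1; simpa using hi
    · by_cases h2 : z = k
      · subst h2; simpa using hi.symm
      · rw [Equiv.swap_apply_of_ne_of_ne h1 h2]
  · rw [swp_slot h hj hk _ hz, swp_slot h hj hk _ hz]
    by_cases h1 : z = j
    · subst h1; simp only [Equiv.swap_apply_left]; omega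
    · by_cases h2 : z = k
      · subst h2; simp only [Equiv.swap_apply_right]; omega
      · rw [Equiv.swap_apply_of_ne_of_ne h1 h2]
  · symm
    refine sum_bij (fun z _ => Equiv.swap j k z) (fun z hz => swap_mem hj hk hz)
      (fun a _ b _ hab => (Equiv.swap j k).injective hab)
      (fun b hb => ⟨Equiv.swap j k b, swap_mem hj hk hb, by simp⟩) ?_
    intro z hz
    rw [swp_slot h hj hk p hz]

theorem cs_eq {sl : Fin 3 → κ → S} {p q i : Fin 3}
    (hpq : p ≠ q) (hpi : p ≠ i) (hqi : q ≠ i) (x : S → Bool) (z : κ) :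
    cs sl x z = (x (sl p z)).toNat + (x (sl q z)).toNat + (x (sl i z)).toNat := by
  unfold cs
  rw [univ3 p q i hpq hpi hqi, sum_insert (by simp [hpq, hpi]), sum_insert (by simp [hqi]),
    sum_singleton]
  ring

/-! ### Step 1 -/

/-- the three expectations -/
noncomputable def EE [Fintype S] (sl : Fin 3 → κ → S) (U : Finset κ) (i : Fin 3)
    (f : (S → Bool) → ℝ) : (S → Bool) → ℝ := cE (rel (sl (i + 1)) (sl (i + 2)) U) f

theorem fin3_ne (i : Fin 3) : i + 1 ≠ i + 2 ∧ i + 1 ≠ i ∧ i + 2 ≠ i := by revert i; decide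

theorem EE_eq [Fintype S] (sl : Fin 3 → κ → S) (U : Finset κ) {p q i : Fin 3}
    (hpq : p ≠ q) (hpi : p ≠ i) (hqi : q ≠ i) (f : (S → Bool) → ℝ) :
    EE sl U i f = cE (rel (sl p) (sl q) U) f := by
  have : (p = i + 1 ∧ q = i + 2) ∨ (p = i + 2 ∧ q = i + 1) := by
    revert p q i; decide
  rcases this with ⟨rfl, rfl⟩ | ⟨rfl, rfl⟩
  · rfl
  · unfold EE
    rw [rel_swap_rows]

theorem step1 [Fintype S] {sl : Fin 3 → κ → S} {U : Finset κ} (h : Inj sl U)
    (f : (S → Bool) → ℝ) (lam : ℝ) (hlam : 2 < lam)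
    (hf : ∀ x, EE sl U 0 f x + EE sl U 1 f x + EE sl U 2 f x = lam * f x)
    {j k : κ} (hj : j ∈ U) (hk : k ∈ U) (x : S → Bool) (hx : cs sl x j = cs sl x k) :
    f x = f (swp sl j k x) := by
  refine max_principle (fun x y => ∃ j ∈ U, ∃ k ∈ U, cs sl x j = cs sl x k ∧ y = swp sl j k x)
    f lam hlam ?_ x (swp sl j k x) ⟨j, hj, k, hk, hx, rfl⟩
  rintro b hb x y ⟨j, hj, k, hk, hs, rfl⟩
  -- each expectation moves by at most `b`, one of them not at all
  have hb0 : 0 ≤ b := le_trans (abs_nonneg _) (hb x _ ⟨j, hj, k, hk, hs, rfl⟩)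
  have hd : ∀ i, |EE sl U i f x - EE sl U i f (swp sl j k x)| ≤ b := by
    intro i
    obtain ⟨n1, n2, n3⟩ := fin3_ne i
    have e1 : EE sl U i f (swp sl j k x) = EE sl U i (fun y => f (swp sl j k y)) x :=
      (cE_comp_of_preserve (swp sl j k) (fun x y => swp_rel_iff h n1 n2 n3 hj hk x y) f x).symm
    rw [e1]
    unfold EE
    rw [← cE_sub]
    refine cE_abs_le _ _ _ _ fun y hy => ?_
    refine hb y _ ⟨j, hj, k, hk, ?_, rfl⟩
    rw [← cs_rel h n1 n2 n3 hy hj, ← cs_rel h n1 n2 n3 hy hk, hs]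
  obtain ⟨i, hi⟩ := exists_row_eq (fun r => x (sl r j)) (fun r => x (sl r k)) hs
  have h0 : EE sl U i f x - EE sl U i f (swp sl j k x) = 0 := by
    obtain ⟨n1, n2, n3⟩ := fin3_ne i
    have := cE_congr (f := f) (swp_in_class h n1 n2 n3 hj hk hs hi)
    unfold EE
    rw [this, sub_self]
  have hsum : lam * (f x - f (swp sl j k x)) =
      (EE sl U 0 f x - EE sl U 0 f (swp sl j k x)) + (EE sl U 1 f x - EE sl U 1 f (swp sl j k x)) +
      (EE sl U 2 f x - EE sl U 2 f (swp sl j k x)) := by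
    have := hf x
    have := hf (swp sl j k x)
    linarith
  have habs : lam * |f x - f (swp sl j k x)| = |lam * (f x - f (swp sl j k x))| := by
    rw [abs_mul, abs_of_pos (show (0 : ℝ) < lam by linarith)]
  rw [habs, hsum]
  have d0 := abs_le.1 (hd 0)
  have d1 := abs_le.1 (hd 1)
  have d2 := abs_le.1 (hd 2)
  rcases fin3_cases i with rfl | rfl | rfl
  · rw [abs_le]; constructor <;> linarith [d1.1, d1.2, d2.1, d2.2]
  · rw [abs_le]; constructor <;> linarith [d0.1, d0.2, d2.1, d2.2]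
  · rw [abs_le]; constructor <;> linarith [d1.1, d1.2, d0.1, d0.2]

/-! ### Step 2 -/

/-- mixed pair of states -/
def Mixed (sl : Fin 3 → κ → S) (U : Finset κ) (p q : Fin 3) (j k : κ) (x y : S → Bool) : Prop :=
  p ≠ q ∧ j ≠ k ∧ j ∈ U ∧ k ∈ U ∧
  (∀ r, x (sl r j) = decide (r = p)) ∧ (∀ r, x (sl r k) = decide (r ≠ p)) ∧
  (∀ r, y (sl r j) = decide (r = q)) ∧ (∀ r, y (sl r k) = decide (r ≠ q)) ∧
  (∀ z ∈ U, z ≠ j → z ≠ k → ∀ r, x (sl r z) = y (sl r z)) ∧
  (∀ e, (∀ r, ∀ z ∈ U, e ≠ sl r z) → x e = y e)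

theorem Mixed.symm {sl : Fin 3 → κ → S} {U : Finset κ} {p q : Fin 3} {j k : κ} {x y : S → Bool}
    (h : Mixed sl U p q j k x y) : Mixed sl U q p j k y x := by
  obtain ⟨h1, h2, h3, h4, h5, h6, h7, h8, h9, h10⟩ := h
  exact ⟨h1.symm, h2, h3, h4, h7, h8, h5, h6, fun z hz ha hb r => (h9 z hz ha hb r).symm,
    fun e he => (h10 e he).symm⟩

/-- a mixed pair is in one class of the third expectation -/
theorem Mixed.rel3 {sl : Fin 3 → κ → S} {U : Finset κ} (h : Inj sl U) {p q i : Fin 3}
    (hpq : p ≠ q) (hpi : p ≠ i) (hqi : q ≠ i) {j k : κ} {x y : S → Bool}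
    (hm : Mixed sl U p q j k x y) : rel (sl p) (sl q) U x y := by
  obtain ⟨h1, h2, h3, h4, h5, h6, h7, h8, h9, h10⟩ := hm
  rw [rel_rows h hpq hpi hqi]
  refine ⟨h10, fun z hz => ?_, fun z hz => ?_, ?_⟩
  · by_cases a1 : z = j
    · subst a1; rw [h5, h7]; simp [hpi.symm, hqi.symm]
    · by_cases a2 : z = k
      · subst a2; rw [h6, h8]; simp [hpi.symm, hqi.symm]
      · exact h9 z hz a1 a2 i
  · by_cases a1 : z = j
    · subst a1; rw [h5, h7, h5, h7]; simp [hpq, hpq.symm]
    · by_cases a2 : z = k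
      · subst a2; rw [h6, h8, h6, h8]; simp [hpq, hpq.symm]
      · rw [h9 z hz a1 a2, h9 z hz a1 a2]
  · have hjU : U = insert j (insert k ((U.erase j).erase k)) := by
      ext z
      simp only [mem_insert, mem_erase]
      constructor
      · intro hz
        by_cases a1 : z = j
        · exact Or.inl a1
        · by_cases a2 : z = k
          · exact Or.inr (Or.inl a2)
          · exact Or.inr (Or.inr ⟨a2, a1, hz⟩)
      · rintro (rfl | rfl | ⟨_, _, hz⟩)
        · exact h3
        · exact h4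
        · exact hz
    rw [hjU, sum_insert (by simp [h2]), sum_insert (by simp), sum_insert (by simp [h2]),
      sum_insert (by simp), h5, h6, h7, h8]
    have : ∑ z ∈ (U.erase j).erase k, (x (sl p z)).toNat =
        ∑ z ∈ (U.erase j).erase k, (y (sl p z)).toNat := by
      refine sum_congr rfl fun z hz => ?_
      rw [mem_erase, mem_erase] at hz
      rw [h9 z hz.2.2 hz.2.1 hz.1]
    rw [this]
    simp [hpq, hpq.symm]

/-! #### values of `setC` -/

section setCvals

variable {sl : Fin 3 → κ → S} {U M A : Finset κ} {q i : Fin 3}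

theorem setC_q (h : Inj sl U) (hM : M ⊆ U) (x : S → Bool) {z : κ} (hz : z ∈ M) :
    setC (sl q) (sl i) M A x (sl q z) = decide (z ∈ A) := by
  unfold setC
  rw [if_pos ⟨z, hz, rfl⟩]
  congr 1
  apply propext
  constructor
  · rintro ⟨w, hw, hwA, he⟩
    obtain ⟨_, h2⟩ := h q q z (hM hz) w (hM hw) he
    rw [h2]; exact hwA
  · intro hA
    exact ⟨z, hz, hA, rfl⟩

theorem setC_i (h : Inj sl U) (hqi : q ≠ i) (hM : M ⊆ U) (x : S → Bool) {z : κ} (hz : z ∈ M) :
    setC (sl q) (sl i) M A x (sl i z) = decide (z ∉ A) := by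
  unfold setC
  rw [if_neg, if_pos ⟨z, hz, rfl⟩]
  · congr 1
    apply propext
    constructor
    · rintro ⟨w, hw, hwA, he⟩
      obtain ⟨_, h2⟩ := h i i z (hM hz) w (hM hw) he
      rw [h2]; exact hwA
    · intro hA
      exact ⟨z, hz, hA, rfl⟩
  · rintro ⟨w, hw, he⟩
    exact h.ne (hM hz) (hM hw) (Or.inl hqi.symm) he

theorem setC_notM (h : Inj sl U) (hM : M ⊆ U) (x : S → Bool) {z : κ} (hz : z ∈ U)
    (hzM : z ∉ M) (r : Fin 3) : setC (sl q) (sl i) M A x (sl r z) = x (sl r z) := by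
  unfold setC
  rw [if_neg, if_neg]
  · rintro ⟨w, hw, he⟩
    exact h.ne hz (hM hw) (Or.inr (by rintro rfl; exact hzM hw)) he
  · rintro ⟨w, hw, he⟩
    exact h.ne hz (hM hw) (Or.inr (by rintro rfl; exact hzM hw)) he

theorem setC_p (h : Inj sl U) {p : Fin 3} (hpq : p ≠ q) (hpi : p ≠ i) (hM : M ⊆ U)
    (x : S → Bool) {z : κ} (hz : z ∈ U) :
    setC (sl q) (sl i) M A x (sl p z) = x (sl p z) := by
  unfold setC
  rw [if_neg, if_neg]
  · rintro ⟨w, hw, he⟩
    exact h.ne hz (hM hw) (Or.inl hpi) he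
  · rintro ⟨w, hw, he⟩
    exact h.ne hz (hM hw) (Or.inl hpq) he

theorem setC_off (hM : M ⊆ U) (x : S → Bool) {e : S} (he : ∀ r, ∀ z ∈ U, e ≠ sl r z) :
    setC (sl q) (sl i) M A x e = x e := by
  unfold setC
  rw [if_neg, if_neg]
  · rintro ⟨w, hw, h⟩
    exact he _ w (hM hw) h
  · rintro ⟨w, hw, h⟩
    exact he _ w (hM hw) h

end setCvals

theorem rows3 {p q i : Fin 3} (hpq : p ≠ q) (hpi : p ≠ i) (hqi : q ≠ i) (r : Fin 3) :
    r = p ∨ r = q ∨ r = i := by omega

/-- The key estimate: one expectation with the first row of the mixed pair fixed. -/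
theorem key_bound [Fintype S] {sl : Fin 3 → κ → S} {U : Finset κ} (h : Inj sl U)
    (f : (S → Bool) → ℝ)
    (ha : ∀ j ∈ U, ∀ k ∈ U, ∀ x, cs sl x j = cs sl x k → f x = f (swp sl j k x)) (b : ℝ)
    (hb : ∀ p q j k x y, Mixed sl U p q j k x y → |f x - f y| ≤ b)
    {p q i : Fin 3} (hpq : p ≠ q) (hpi : p ≠ i) (hqi : q ≠ i) {j k : κ} {x y : S → Bool}
    (hm : Mixed sl U p q j k x y) :
    |cE (rel (sl q) (sl i) U) f y - cE (rel (sl q) (sl i) U) f x| ≤ b := by
  have hm' := hm
  obtain ⟨-, hjk, hj, hk, xj, xk, yj, yk, hoth, hoff⟩ := hm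
  have hinjq : Set.InjOn (sl q) U := fun a ha b hb hab => (h q q a ha b hb hab).2
  have hinji : Set.InjOn (sl i) U := fun a ha b hb hab => (h i i a ha b hb hab).2
  have hneqi : ∀ z ∈ U, ∀ w ∈ U, sl q z ≠ sl i w := fun z hz w hw => h.ne hz hw (Or.inl hqi)
  set M := freeC (sl q) (sl i) U x with hMdef
  have hMU : M ⊆ U := filter_subset _ _
  have hjM : j ∉ M := by
    rw [hMdef, freeC, mem_filter]
    rintro ⟨_, h1⟩
    rw [xj, xj] at h1
    simp [hpq.symm, hpi.symm] at h1
  have hkM : k ∉ M := by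
    rw [hMdef, freeC, mem_filter]
    rintro ⟨_, h1⟩
    rw [xk, xk] at h1
    simp [hpq.symm, hpi.symm] at h1
  have hM' : freeC (sl q) (sl i) U y = insert j (insert k M) := by
    ext z
    rw [mem_insert, mem_insert, hMdef, freeC, freeC, mem_filter, mem_filter]
    by_cases z1 : z = j
    · subst z1
      simp only [true_or, iff_true]
      exact ⟨hj, by rw [yj, yj]; simp [hqi.symm]⟩
    · by_cases z2 : z = k
      · subst z2
        simp only [true_or, or_true, iff_true]
        exact ⟨hk, by rw [yk, yk]; simp [hqi.symm]⟩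
      · simp only [z1, z2, false_or]
        constructor
        · rintro ⟨hz, h1⟩
          exact ⟨hz, by rw [hoth z hz z1 z2, hoth z hz z1 z2]; exact h1⟩
        · rintro ⟨hz, h1⟩
          exact ⟨hz, by rw [← hoth z hz z1 z2, ← hoth z hz z1 z2]; exact h1⟩
  have hjP : j ∉ posC (sl q) (sl i) U x := by
    rw [posC, mem_filter]
    rintro ⟨_, h1, _⟩
    rw [xj] at h1
    simp [hpq.symm] at h1
  have hP' : posC (sl q) (sl i) U y = insert j (posC (sl q) (sl i) U x) := by
    ext z
    rw [mem_insert, posC, posC, mem_filter, mem_filter]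
    by_cases z1 : z = j
    · subst z1
      simp only [true_or, iff_true]
      exact ⟨hj, by rw [yj]; simp, by rw [yj]; simp [hqi.symm]⟩
    · by_cases z2 : z = k
      · subst z2
        simp only [z1, false_or]
        constructor
        · rintro ⟨_, h1, _⟩
          rw [yk] at h1; simp at h1
        · rintro ⟨_, _, h1⟩
          rw [xk] at h1; simp [hpi.symm] at h1
      · simp only [z1, false_or]
        constructor
        · rintro ⟨hz, h1, h2⟩
          exact ⟨hz, by rw [hoth z hz z1 z2]; exact h1, by rw [hoth z hz z1 z2]; exact h2⟩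
        · rintro ⟨hz, h1, h2⟩
          exact ⟨hz, by rw [← hoth z hz z1 z2]; exact h1, by rw [← hoth z hz z1 z2]; exact h2⟩
  have hPM : posC (sl q) (sl i) U x ⊆ M := by
    intro z hz
    rw [posC, mem_filter] at hz
    rw [hMdef, freeC, mem_filter]
    exact ⟨hz.1, by rw [hz.2.1, hz.2.2]; simp⟩
  rw [cE_rel_eq (sl q) (sl i) U hinjq hinji hneqi f y, cE_rel_eq (sl q) (sl i) U hinjq hinji hneqi f x,
    hM', hP', ← hMdef, card_insert_of_notMem hjP]
  have hcard : (insert j (insert k M)).card = M.card + 2 := by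
    rw [card_insert_of_notMem (by simp [hjk, hjM]), card_insert_of_notMem hkM]
  rw [hcard]
  have hM'U : insert j (insert k M) ⊆ U := by
    intro z hz
    rw [mem_insert, mem_insert] at hz
    rcases hz with rfl | rfl | hz
    · exact hj
    · exact hk
    · exact hMU hz
  have hjM' : j ∈ insert j (insert k M) := mem_insert_self _ _
  have hkM' : k ∈ insert j (insert k M) := mem_insert_of_mem (mem_insert_self _ _)
  set M' := insert j (insert k M) with hM'def
  -- rows
  have hr3 := rows3 hpq hpi hqi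
  -- column values of the two states
  have XA_M : ∀ A, ∀ z ∈ M, ∀ r, setC (sl q) (sl i) M A x (sl r z) =
      if r = p then x (sl p z) else if r = q then decide (z ∈ A) else decide (z ∉ A) := by
    intro A z hz r
    rcases hr3 r with rfl | rfl | rfl
    · rw [if_pos rfl]; exact setC_p h hpq hpi hMU x (hMU hz)
    · rw [if_neg hpq.symm, if_pos rfl]; exact setC_q h hMU x hz
    · rw [if_neg hpi.symm, if_neg hqi.symm]; exact setC_i h hqi hMU x hz
  have XA_nM : ∀ A, ∀ z ∈ U, z ∉ M → ∀ r, setC (sl q) (sl i) M A x (sl r z) = x (sl r z) :=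
    fun A z hz hzM r => setC_notM h hMU x hz hzM r
  have YB_M : ∀ B, ∀ z ∈ M', ∀ r, setC (sl q) (sl i) M' B y (sl r z) =
      if r = p then y (sl p z) else if r = q then decide (z ∈ B) else decide (z ∉ B) := by
    intro B z hz r
    rcases hr3 r with rfl | rfl | rfl
    · rw [if_pos rfl]; exact setC_p h hpq hpi hM'U y (hM'U hz)
    · rw [if_neg hpq.symm, if_pos rfl]; exact setC_q h hM'U y hz
    · rw [if_neg hpi.symm, if_neg hqi.symm]; exact setC_i h hqi hM'U y hz
  have YB_nM : ∀ B, ∀ z ∈ U, z ∉ M' → ∀ r, setC (sl q) (sl i) M' B y (sl r z) = y (sl r z) :=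
    fun B z hz hzM r => setC_notM h hM'U y hz hzM r
  have Aoff : ∀ A e, (∀ r, ∀ z ∈ U, e ≠ sl r z) → setC (sl q) (sl i) M A x e = x e :=
    fun A e he => setC_off hMU x he
  have Boff : ∀ A e, (∀ r, ∀ z ∈ U, e ≠ sl r z) → setC (sl q) (sl i) M' A y e = y e :=
    fun A e he => setC_off hM'U y he
  have memM' : ∀ z, z ∈ M' ↔ z = j ∨ z = k ∨ z ∈ M := by
    intro z; rw [hM'def, mem_insert, mem_insert]
  refine avg_coupling M j k hjM hkM hjk _ (card_le_card hPM)
    (fun B => f (setC (sl q) (sl i) M' B y)) (fun A => f (setC (sl q) (sl i) M A x)) b ?_ ?_ ?_ ?_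
  · intro A hA
    have hAM := (mem_powersetCard.1 hA).1
    rw [abs_sub_comm]
    refine hb p q j k _ _ ⟨hpq, hjk, hj, hk, ?_, ?_, ?_, ?_, ?_, ?_⟩
    · intro r; rw [XA_nM A j hj hjM, xj]
    · intro r; rw [XA_nM A k hk hkM, xk]
    · intro r
      rw [YB_M _ j hjM', yj]
      rcases hr3 r with rfl | rfl | rfl <;> simp [hpq, hpi, hqi, hpq.symm, hpi.symm, hqi.symm]
    · intro r
      have : k ∉ insert j A := by
        rw [mem_insert]; rintro (h1 | h1)
        · exact hjk h1.symm
        · exact hkM (hAM h1)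
      rw [YB_M _ k hkM', yk]
      rcases hr3 r with rfl | rfl | rfl <;> simp [hpq, hpi, hqi, hpq.symm, hpi.symm, hqi.symm, this]
    · intro z hz z1 z2 r
      by_cases hzM : z ∈ M
      · rw [XA_M A z hzM, YB_M _ z ((memM' z).2 (Or.inr (Or.inr hzM))), hoth z hz z1 z2]
        simp [z1]
      · rw [XA_nM A z hz hzM, YB_nM _ z hz (by rw [memM']; simp [z1, z2, hzM]), hoth z hz z1 z2]
    · intro e he
      rw [Aoff A e he, Boff _ e he, hoff e he]
  · intro A hA
    have hAM := (mem_powersetCard.1 hA).1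
    rw [abs_sub_comm]
    refine hb p i j k _ _ ⟨hpi, hjk, hj, hk, ?_, ?_, ?_, ?_, ?_, ?_⟩
    · intro r; rw [XA_nM A j hj hjM, xj]
    · intro r; rw [XA_nM A k hk hkM, xk]
    · intro r
      have : j ∉ insert k A := by
        rw [mem_insert]; rintro (h1 | h1)
        · exact hjk h1
        · exact hjM (hAM h1)
      rw [YB_M _ j hjM', yj]
      rcases hr3 r with rfl | rfl | rfl <;> simp [hpq, hpi, hqi, hpq.symm, hpi.symm, hqi.symm, this]
    · intro r
      rw [YB_M _ k hkM', yk]
      rcases hr3 r with rfl | rfl | rfl <;> simp [hpq, hpi, hqi, hpq.symm, hpi.symm, hqi.symm]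
    · intro z hz z1 z2 r
      by_cases hzM : z ∈ M
      · rw [XA_M A z hzM, YB_M _ z ((memM' z).2 (Or.inr (Or.inr hzM))), hoth z hz z1 z2]
        simp [z2]
      · rw [XA_nM A z hz hzM, YB_nM _ z hz (by rw [memM']; simp [z1, z2, hzM]), hoth z hz z1 z2]
    · intro e he
      rw [Aoff A e he, Boff _ e he, hoff e he]
  · intro A hA e heA
    have hAM := (mem_powersetCard.1 hA).1
    have heM : e ∈ M := hAM heA
    have heU : e ∈ U := hMU heM
    have hej : e ≠ j := by rintro rfl; exact hjM heM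
    have hek : e ≠ k := by rintro rfl; exact hkM heM
    set B := insert j (insert k (A.erase e)) with hB
    have jB : j ∈ B := by simp [hB]
    have kB : k ∈ B := by simp [hB]
    have eB : e ∉ B := by simp [hB, hej, hek]
    have zB : ∀ z, z ≠ j → z ≠ k → z ≠ e → (z ∈ B ↔ z ∈ A) := by
      intro z z1 z2 z3; simp [hB, z1, z2, z3]
    set YB := setC (sl q) (sl i) M' B y with hYB
    set XA := setC (sl q) (sl i) M A x with hXA
    have cj : ∀ r, YB (sl r j) = decide (r = q) := by
      intro r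
      rw [hYB, YB_M _ j hjM', yj]
      rcases hr3 r with rfl | rfl | rfl <;> simp [hpq, hpi, hqi, hpq.symm, hpi.symm, hqi.symm, jB]
    have ck : ∀ r, YB (sl r k) = decide (r ≠ i) := by
      intro r
      rw [hYB, YB_M _ k hkM', yk]
      rcases hr3 r with rfl | rfl | rfl <;> simp [hpq, hpi, hqi, hpq.symm, hpi.symm, hqi.symm, kB]
    have ce : ∀ r, YB (sl r e) = if r = p then x (sl p e) else decide (r = i) := by
      intro r
      rw [hYB, YB_M _ e ((memM' e).2 (Or.inr (Or.inr heM))), ← hoth e heU hej hek]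
      rcases hr3 r with rfl | rfl | rfl <;> simp [hpq, hpi, hqi, hpq.symm, hpi.symm, hqi.symm, eB]
    have de : ∀ r, XA (sl r e) = if r = p then x (sl p e) else decide (r = q) := by
      intro r
      rw [hXA, XA_M _ e heM]
      rcases hr3 r with rfl | rfl | rfl <;> simp [hpq, hpi, hqi, hpq.symm, hpi.symm, hqi.symm, heA]
    have cz : ∀ z ∈ U, z ≠ j → z ≠ k → z ≠ e → ∀ r, YB (sl r z) = XA (sl r z) := by
      intro z hz z1 z2 z3 r
      by_cases hzM : z ∈ M
      · rw [hYB, hXA, XA_M A z hzM, YB_M _ z ((memM' z).2 (Or.inr (Or.inr hzM))), hoth z hz z1 z2]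
        simp only [zB z z1 z2 z3]
      · rw [hYB, hXA, XA_nM A z hz hzM, YB_nM _ z hz (by rw [memM']; simp [z1, z2, hzM]),
          hoth z hz z1 z2]
    have dj : ∀ r, XA (sl r j) = decide (r = p) := by
      intro r; rw [hXA, XA_nM A j hj hjM, xj]
    have dk : ∀ r, XA (sl r k) = decide (r ≠ p) := by
      intro r; rw [hXA, XA_nM A k hk hkM, xk]
    have hoff' : ∀ e, (∀ r, ∀ z ∈ U, e ≠ sl r z) → XA e = YB e := by
      intro e he
      rw [hXA, hYB, Aoff A e he, Boff _ e he, hoff e he]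
    show |f YB - f XA| ≤ b
    rw [abs_sub_comm]
    cases hxe : x (sl p e) with
    | false =>
      have hcs : cs sl YB j = cs sl YB e := by
        rw [cs_eq hpq hpi hqi, cs_eq hpq hpi hqi, cj, cj, cj, ce, ce, ce, hxe]
        simp [hpq, hpi, hqi, hpq.symm, hpi.symm, hqi.symm]
      rw [ha j hj e heU YB hcs]
      refine hb p i j k _ _ ⟨hpi, hjk, hj, hk, dj, dk, ?_, ?_, ?_, ?_⟩
      · intro r
        rw [swp_slot h hj heU r hj, Equiv.swap_apply_left, ce, hxe]
        rcases hr3 r with rfl | rfl | rfl <;> simp [hpq, hpi, hqi, hpq.symm, hpi.symm, hqi.symm]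
      · intro r
        rw [swp_slot h hj heU r hk, Equiv.swap_apply_of_ne_of_ne hjk.symm hek.symm, ck]
      · intro z hz z1 z2 r
        rw [swp_slot h hj heU r hz]
        by_cases z3 : z = e
        · rw [z3, Equiv.swap_apply_right, cj, de, hxe]
          rcases hr3 r with rfl | rfl | rfl <;> simp [hpq, hpi, hqi, hpq.symm, hpi.symm, hqi.symm]
        · rw [Equiv.swap_apply_of_ne_of_ne z1 z3, cz z hz z1 z2 z3]
      · intro e' he'
        rw [swp_off (fun r => ⟨he' r j hj, he' r e heU⟩)]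
        exact hoff' e' he'
    | true =>
      have hcs : cs sl YB k = cs sl YB e := by
        rw [cs_eq hpq hpi hqi, cs_eq hpq hpi hqi, ck, ck, ck, ce, ce, ce, hxe]
        simp [hpq, hpi, hqi, hpq.symm, hpi.symm, hqi.symm]
      rw [ha k hk e heU YB hcs]
      refine hb p q j k _ _ ⟨hpq, hjk, hj, hk, dj, dk, ?_, ?_, ?_, ?_⟩
      · intro r
        rw [swp_slot h hk heU r hj, Equiv.swap_apply_of_ne_of_ne hjk hej.symm, cj]
      · intro r
        rw [swp_slot h hk heU r hk, Equiv.swap_apply_left, ce, hxe]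
        rcases hr3 r with rfl | rfl | rfl <;> simp [hpq, hpi, hqi, hpq.symm, hpi.symm, hqi.symm]
      · intro z hz z1 z2 r
        rw [swp_slot h hk heU r hz]
        by_cases z3 : z = e
        · rw [z3, Equiv.swap_apply_right, ck, de, hxe]
          rcases hr3 r with rfl | rfl | rfl <;> simp [hpq, hpi, hqi, hpq.symm, hpi.symm, hqi.symm]
        · rw [Equiv.swap_apply_of_ne_of_ne z2 z3, cz z hz z1 z2 z3]
      · intro e' he'
        rw [swp_off (fun r => ⟨he' r k hk, he' r e heU⟩)]
        exact hoff' e' he'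
  · intro A hA e heMA
    have hAM := (mem_powersetCard.1 hA).1
    obtain ⟨heM, heA⟩ := mem_sdiff.1 heMA
    have heU : e ∈ U := hMU heM
    have hej : e ≠ j := by rintro rfl; exact hjM heM
    have hek : e ≠ k := by rintro rfl; exact hkM heM
    set B := insert e A with hB
    have jB : j ∉ B := by
      rw [hB, mem_insert]; rintro (h1 | h1)
      · exact hej h1.symm
      · exact hjM (hAM h1)
    have kB : k ∉ B := by
      rw [hB, mem_insert]; rintro (h1 | h1)
      · exact hek h1.symm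
      · exact hkM (hAM h1)
    have eB : e ∈ B := by simp [hB]
    have zB : ∀ z, z ≠ j → z ≠ k → z ≠ e → (z ∈ B ↔ z ∈ A) := by
      intro z z1 z2 z3; simp [hB, z3]
    set YB := setC (sl q) (sl i) M' B y with hYB
    set XA := setC (sl q) (sl i) M A x with hXA
    have cj : ∀ r, YB (sl r j) = decide (r = i) := by
      intro r
      rw [hYB, YB_M _ j hjM', yj]
      rcases hr3 r with rfl | rfl | rfl <;> simp [hpq, hpi, hqi, hpq.symm, hpi.symm, hqi.symm, jB]
    have ck : ∀ r, YB (sl r k) = decide (r ≠ q) := by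
      intro r
      rw [hYB, YB_M _ k hkM', yk]
      rcases hr3 r with rfl | rfl | rfl <;> simp [hpq, hpi, hqi, hpq.symm, hpi.symm, hqi.symm, kB]
    have ce : ∀ r, YB (sl r e) = if r = p then x (sl p e) else decide (r = q) := by
      intro r
      rw [hYB, YB_M _ e ((memM' e).2 (Or.inr (Or.inr heM))), ← hoth e heU hej hek]
      rcases hr3 r with rfl | rfl | rfl <;> simp [hpq, hpi, hqi, hpq.symm, hpi.symm, hqi.symm, eB]
    have de : ∀ r, XA (sl r e) = if r = p then x (sl p e) else decide (r = i) := by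
      intro r
      rw [hXA, XA_M _ e heM]
      rcases hr3 r with rfl | rfl | rfl <;> simp [hpq, hpi, hqi, hpq.symm, hpi.symm, hqi.symm, heA]
    have cz : ∀ z ∈ U, z ≠ j → z ≠ k → z ≠ e → ∀ r, YB (sl r z) = XA (sl r z) := by
      intro z hz z1 z2 z3 r
      by_cases hzM : z ∈ M
      · rw [hYB, hXA, XA_M A z hzM, YB_M _ z ((memM' z).2 (Or.inr (Or.inr hzM))), hoth z hz z1 z2]
        simp only [zB z z1 z2 z3]
      · rw [hYB, hXA, XA_nM A z hz hzM, YB_nM _ z hz (by rw [memM']; simp [z1, z2, hzM]),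
          hoth z hz z1 z2]
    have dj : ∀ r, XA (sl r j) = decide (r = p) := by
      intro r; rw [hXA, XA_nM A j hj hjM, xj]
    have dk : ∀ r, XA (sl r k) = decide (r ≠ p) := by
      intro r; rw [hXA, XA_nM A k hk hkM, xk]
    have hoff' : ∀ e, (∀ r, ∀ z ∈ U, e ≠ sl r z) → XA e = YB e := by
      intro e he
      rw [hXA, hYB, Aoff A e he, Boff _ e he, hoff e he]
    show |f YB - f XA| ≤ b
    rw [abs_sub_comm]
    cases hxe : x (sl p e) with
    | false =>
      have hcs : cs sl YB j = cs sl YB e := by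
        rw [cs_eq hpq hpi hqi, cs_eq hpq hpi hqi, cj, cj, cj, ce, ce, ce, hxe]
        simp [hpq, hpi, hqi, hpq.symm, hpi.symm, hqi.symm]
      rw [ha j hj e heU YB hcs]
      refine hb p q j k _ _ ⟨hpq, hjk, hj, hk, dj, dk, ?_, ?_, ?_, ?_⟩
      · intro r
        rw [swp_slot h hj heU r hj, Equiv.swap_apply_left, ce, hxe]
        rcases hr3 r with rfl | rfl | rfl <;> simp [hpq, hpi, hqi, hpq.symm, hpi.symm, hqi.symm]
      · intro r
        rw [swp_slot h hj heU r hk, Equiv.swap_apply_of_ne_of_ne hjk.symm hek.symm, ck]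
      · intro z hz z1 z2 r
        rw [swp_slot h hj heU r hz]
        by_cases z3 : z = e
        · rw [z3, Equiv.swap_apply_right, cj, de, hxe]
          rcases hr3 r with rfl | rfl | rfl <;> simp [hpq, hpi, hqi, hpq.symm, hpi.symm, hqi.symm]
        · rw [Equiv.swap_apply_of_ne_of_ne z1 z3, cz z hz z1 z2 z3]
      · intro e' he'
        rw [swp_off (fun r => ⟨he' r j hj, he' r e heU⟩)]
        exact hoff' e' he'
    | true =>
      have hcs : cs sl YB k = cs sl YB e := by
        rw [cs_eq hpq hpi hqi, cs_eq hpq hpi hqi, ck, ck, ck, ce, ce, ce, hxe]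
        simp [hpq, hpi, hqi, hpq.symm, hpi.symm, hqi.symm]
      rw [ha k hk e heU YB hcs]
      refine hb p i j k _ _ ⟨hpi, hjk, hj, hk, dj, dk, ?_, ?_, ?_, ?_⟩
      · intro r
        rw [swp_slot h hk heU r hj, Equiv.swap_apply_of_ne_of_ne hjk hej.symm, cj]
      · intro r
        rw [swp_slot h hk heU r hk, Equiv.swap_apply_left, ce, hxe]
        rcases hr3 r with rfl | rfl | rfl <;> simp [hpq, hpi, hqi, hpq.symm, hpi.symm, hqi.symm]
      · intro z hz z1 z2 r
        rw [swp_slot h hk heU r hz]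
        by_cases z3 : z = e
        · rw [z3, Equiv.swap_apply_right, ck, de, hxe]
          rcases hr3 r with rfl | rfl | rfl <;> simp [hpq, hpi, hqi, hpq.symm, hpi.symm, hqi.symm]
        · rw [Equiv.swap_apply_of_ne_of_ne z2 z3, cz z hz z1 z2 z3]
      · intro e' he'
        rw [swp_off (fun r => ⟨he' r k hk, he' r e heU⟩)]
        exact hoff' e' he'

theorem step2 [Fintype S] {sl : Fin 3 → κ → S} {U : Finset κ} (h : Inj sl U)
    (f : (S → Bool) → ℝ) (lam : ℝ) (hlam : 2 < lam)
    (hf : ∀ x, EE sl U 0 f x + EE sl U 1 f x + EE sl U 2 f x = lam * f x)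
    (ha : ∀ j ∈ U, ∀ k ∈ U, ∀ x, cs sl x j = cs sl x k → f x = f (swp sl j k x))
    {p q : Fin 3} {j k : κ} {x y : S → Bool} (hm : Mixed sl U p q j k x y) : f x = f y := by
  refine max_principle (fun x y => ∃ p q j k, Mixed sl U p q j k x y)
    f lam hlam ?_ x y ⟨p, q, j, k, hm⟩
  rintro b hb x y ⟨p, q, j, k, hm⟩
  have hb' : ∀ p q j k x y, Mixed sl U p q j k x y → |f x - f y| ≤ b :=
    fun p q j k x y hm => hb x y ⟨p, q, j, k, hm⟩
  have hpq : p ≠ q := hm.1
  obtain ⟨i, hpi, hqi⟩ : ∃ i, p ≠ i ∧ q ≠ i := by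
    have : ∀ p q : Fin 3, ∃ i, p ≠ i ∧ q ≠ i := by decide
    exact this p q
  have hf' : ∀ x, EE sl U p f x + EE sl U q f x + EE sl U i f x = lam * f x := by
    intro x
    rw [← hf x]
    have e1 : ∑ r, EE sl U r f x = EE sl U p f x + EE sl U q f x + EE sl U i f x := by
      rw [univ3 p q i hpq hpi hqi, sum_insert (by simp [hpq, hpi]), sum_insert (by simp [hqi]),
        sum_singleton]
      ring
    have e2 : ∑ r, EE sl U r f x = EE sl U 0 f x + EE sl U 1 f x + EE sl U 2 f x := by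
      rw [Fin.sum_univ_three]
    rw [← e1, e2]
  have ei : EE sl U i f x - EE sl U i f y = 0 := by
    rw [EE_eq sl U hpq hpi hqi f, cE_congr (hm.rel3 h hpq hpi hqi), sub_self]
  have ep : |EE sl U p f x - EE sl U p f y| ≤ b := by
    rw [EE_eq sl U hqi hpq.symm hpi.symm f, abs_sub_comm]
    exact key_bound h f ha b hb' hpq hpi hqi hm
  have eq : |EE sl U q f x - EE sl U q f y| ≤ b := by
    rw [EE_eq sl U hpi hpq hqi.symm f]
    exact key_bound h f ha b hb' hpq.symm hqi hpi hm.symm
  have hsum : lam * (f x - f y) =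
      (EE sl U p f x - EE sl U p f y) + (EE sl U q f x - EE sl U q f y) +
      (EE sl U i f x - EE sl U i f y) := by
    have := hf' x
    have := hf' y
    linarith
  have habs : lam * |f x - f y| = |lam * (f x - f y)| := by
    rw [abs_mul, abs_of_pos (show (0 : ℝ) < lam by linarith)]
  rw [habs, hsum, ei]
  have d1 := abs_le.1 ep
  have d2 := abs_le.1 eq
  rw [abs_le]; constructor <;> linarith [d1.1, d1.2, d2.1, d2.2]

/-! ### Step 3 -/

theorem step3 [Fintype S] {sl : Fin 3 → κ → S} {U : Finset κ} (h : Inj sl U)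
    (f : (S → Bool) → ℝ)
    (ha : ∀ j ∈ U, ∀ k ∈ U, ∀ x, cs sl x j = cs sl x k → f x = f (swp sl j k x))
    (hb : ∀ p q j k x y, Mixed sl U p q j k x y → f x = f y) {p q i : Fin 3}
    (hpq : p ≠ q) (hpi : p ≠ i) (hqi : q ≠ i) {c d : κ} (hc : c ∈ U) (hd : d ∈ U)
    (x : S → Bool) : f x = f (sw (sl p) (sl q) c d x) := by
  by_cases hO : Osep (sl p) (sl q) c d x
  swap
  · have : sw (sl p) (sl q) c d x = x := by
      funext e; unfold sw; simp [hO]
    rw [this]
  obtain ⟨o1, o2, o3⟩ := hO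
  have hO : Osep (sl p) (sl q) c d x := ⟨o1, o2, o3⟩
  have hcd : c ≠ d := by rintro rfl; exact o3 rfl
  have hr3 := rows3 hpq hpi hqi
  set y := sw (sl p) (sl q) c d x with hy
  have y1 : y (sl p c) = !(x (sl p c)) := by
    rw [hy]; unfold sw; rw [if_pos ⟨hO, Or.inl rfl⟩]
  have y2 : y (sl p d) = !(x (sl p d)) := by
    rw [hy]; unfold sw; rw [if_pos ⟨hO, Or.inr (Or.inl rfl)⟩]
  have y3 : y (sl q c) = !(x (sl q c)) := by
    rw [hy]; unfold sw; rw [if_pos ⟨hO, Or.inr (Or.inr (Or.inl rfl))⟩]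
  have y4 : y (sl q d) = !(x (sl q d)) := by
    rw [hy]; unfold sw; rw [if_pos ⟨hO, Or.inr (Or.inr (Or.inr rfl))⟩]
  have yi : ∀ z ∈ U, y (sl i z) = x (sl i z) := by
    intro z hz
    rw [hy]; unfold sw; rw [if_neg]
    rintro ⟨_, h1 | h1 | h1 | h1⟩
    · exact h.ne hz hc (Or.inl hpi.symm) h1
    · exact h.ne hz hd (Or.inl hpi.symm) h1
    · exact h.ne hz hc (Or.inl hqi.symm) h1
    · exact h.ne hz hd (Or.inl hqi.symm) h1
  have yz : ∀ z ∈ U, z ≠ c → z ≠ d → ∀ r, x (sl r z) = y (sl r z) := by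
    intro z hz z1 z2 r
    rw [hy]; unfold sw; rw [if_neg]
    rintro ⟨_, h1 | h1 | h1 | h1⟩
    · exact h.ne hz hc (Or.inr z1) h1
    · exact h.ne hz hd (Or.inr z2) h1
    · exact h.ne hz hc (Or.inr z1) h1
    · exact h.ne hz hd (Or.inr z2) h1
  have yoff : ∀ e, (∀ r, ∀ z ∈ U, e ≠ sl r z) → x e = y e := by
    intro e he
    rw [hy]; unfold sw; rw [if_neg]
    rintro ⟨_, h1 | h1 | h1 | h1⟩
    · exact he _ _ hc h1
    · exact he _ _ hd h1
    · exact he _ _ hc h1
    · exact he _ _ hd h1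
  by_cases hi : x (sl i c) = x (sl i d)
  · have hcs : cs sl x c = cs sl x d := by
      rw [cs_eq hpq hpi hqi, cs_eq hpq hpi hqi, hi, o1, o2]; ring
    rw [ha c hc d hd x hcs]
    congr 1
    refine state_ext (sl := sl) (U := U) ?_ ?_
    · intro e he
      rw [swp_off (fun r => ⟨he r c hc, he r d hd⟩), yoff e he]
    · intro r z hz
      rw [swp_slot h hc hd r hz]
      by_cases z1 : z = c
      · subst z1
        rw [Equiv.swap_apply_left]
        rcases hr3 r with rfl | rfl | rfl
        · rw [y1]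
          revert o3; cases x (sl r z) <;> cases x (sl r d) <;> simp
        · rw [y3, ← o1, ← o2]
          revert o3; cases x (sl p z) <;> cases x (sl p d) <;> simp
        · rw [yi z hz, hi]
      · by_cases z2 : z = d
        · subst z2
          rw [Equiv.swap_apply_right]
          rcases hr3 r with rfl | rfl | rfl
          · rw [y2]
            revert o3; cases x (sl r z) <;> cases x (sl r c) <;> simp
          · rw [y4, ← o1, ← o2]
            revert o3; cases x (sl p z) <;> cases x (sl p c) <;> simp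
          · rw [yi z hz, hi]
        · rw [Equiv.swap_apply_of_ne_of_ne z1 z2, yz z hz z1 z2]
  · cases hpc : x (sl p c) with
    | true =>
      have hpd : x (sl p d) = false := by
        rw [hpc] at o3; revert o3; cases x (sl p d) <;> simp
      have hqd : x (sl q d) = true := by rw [← o1, hpc]
      have hqc : x (sl q c) = false := by rw [← o2, hpd]
      rw [hpc] at y1; rw [hpd] at y2; rw [hqc] at y3; rw [hqd] at y4
      cases hic : x (sl i c) with
      | false =>
        have hid : x (sl i d) = true := by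
          rw [hic] at hi; revert hi; cases x (sl i d) <;> simp
        refine hb p q c d x y ⟨hpq, hcd, hc, hd, ?_, ?_, ?_, ?_, yz, yoff⟩
        · intro r; rcases hr3 r with rfl | rfl | rfl
          · simp [hpc]
          · simp [hqc, hpq.symm]
          · simp [hic, hpi.symm]
        · intro r; rcases hr3 r with rfl | rfl | rfl
          · simp [hpd]
          · simp [hqd, hpq.symm]
          · simp [hid, hpi.symm]
        · intro r; rcases hr3 r with rfl | rfl | rfl
          · simp [y1, hpq]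
          · simp [y3]
          · rw [yi c hc]; simp [hic, hqi.symm]
        · intro r; rcases hr3 r with rfl | rfl | rfl
          · simp [y2, hpq]
          · simp [y4]
          · rw [yi d hd]; simp [hid, hqi.symm]
      | true =>
        have hid : x (sl i d) = false := by
          rw [hic] at hi; revert hi; cases x (sl i d) <;> simp
        refine hb q p d c x y ⟨hpq.symm, hcd.symm, hd, hc, ?_, ?_, ?_, ?_,
          fun z hz z1 z2 r => yz z hz z2 z1 r, yoff⟩
        · intro r; rcases hr3 r with rfl | rfl | rfl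
          · simp [hpd, hpq]
          · simp [hqd]
          · simp [hid, hqi.symm]
        · intro r; rcases hr3 r with rfl | rfl | rfl
          · simp [hpc, hpq]
          · simp [hqc]
          · simp [hic, hqi.symm]
        · intro r; rcases hr3 r with rfl | rfl | rfl
          · simp [y2]
          · simp [y4, hpq.symm]
          · rw [yi d hd]; simp [hid, hpi.symm]
        · intro r; rcases hr3 r with rfl | rfl | rfl
          · simp [y1]
          · simp [y3, hpq.symm]
          · rw [yi c hc]; simp [hic, hpi.symm]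
    | false =>
      have hpd : x (sl p d) = true := by
        rw [hpc] at o3; revert o3; cases x (sl p d) <;> simp
      have hqd : x (sl q d) = false := by rw [← o1, hpc]
      have hqc : x (sl q c) = true := by rw [← o2, hpd]
      rw [hpc] at y1; rw [hpd] at y2; rw [hqc] at y3; rw [hqd] at y4
      cases hic : x (sl i c) with
      | false =>
        have hid : x (sl i d) = true := by
          rw [hic] at hi; revert hi; cases x (sl i d) <;> simp
        refine hb q p c d x y ⟨hpq.symm, hcd, hc, hd, ?_, ?_, ?_, ?_, yz, yoff⟩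
        · intro r; rcases hr3 r with rfl | rfl | rfl
          · simp [hpc, hpq]
          · simp [hqc]
          · simp [hic, hqi.symm]
        · intro r; rcases hr3 r with rfl | rfl | rfl
          · simp [hpd, hpq]
          · simp [hqd]
          · simp [hid, hqi.symm]
        · intro r; rcases hr3 r with rfl | rfl | rfl
          · simp [y1]
          · simp [y3, hpq.symm]
          · rw [yi c hc]; simp [hic, hpi.symm]
        · intro r; rcases hr3 r with rfl | rfl | rfl
          · simp [y2]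
          · simp [y4, hpq.symm]
          · rw [yi d hd]; simp [hid, hpi.symm]
      | true =>
        have hid : x (sl i d) = false := by
          rw [hic] at hi; revert hi; cases x (sl i d) <;> simp
        refine hb p q d c x y ⟨hpq, hcd.symm, hd, hc, ?_, ?_, ?_, ?_,
          fun z hz z1 z2 r => yz z hz z2 z1 r, yoff⟩
        · intro r; rcases hr3 r with rfl | rfl | rfl
          · simp [hpd]
          · simp [hqd, hpq.symm]
          · simp [hid, hpi.symm]
        · intro r; rcases hr3 r with rfl | rfl | rfl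
          · simp [hpc]
          · simp [hqc, hpq.symm]
          · simp [hic, hpi.symm]
        · intro r; rcases hr3 r with rfl | rfl | rfl
          · simp [y2, hpq]
          · simp [y4]
          · rw [yi d hd]; simp [hid, hqi.symm]
        · intro r; rcases hr3 r with rfl | rfl | rfl
          · simp [y1, hpq]
          · simp [y3]
          · rw [yi c hc]; simp [hic, hqi.symm]

theorem step3' [Fintype S] {sl : Fin 3 → κ → S} {U : Finset κ} (h : Inj sl U)
    (f : (S → Bool) → ℝ)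
    (ha : ∀ j ∈ U, ∀ k ∈ U, ∀ x, cs sl x j = cs sl x k → f x = f (swp sl j k x))
    (hb : ∀ p q j k x y, Mixed sl U p q j k x y → f x = f y) (i : Fin 3) (x : S → Bool) :
    EE sl U i f x = f x := by
  obtain ⟨n1, n2, n3⟩ := fin3_ne i
  have h1 := twoRow_poincare (sl (i + 1)) (sl (i + 2)) U
    (fun a ha b hb hab => (h _ _ a ha b hb hab).2) (fun a ha b hb hab => (h _ _ a ha b hb hab).2)
    (fun z hz w hw => h.ne hz hw (Or.inl n1)) f
  have h2 : ∑ c ∈ U, ∑ d ∈ U, en (sl (i + 1)) (sl (i + 2)) c d f = 0 := by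
    refine sum_eq_zero fun c hc => sum_eq_zero fun d hd => ?_
    unfold en
    refine sum_eq_zero fun x _ => ?_
    rw [← step3 h f ha hb n1 n2 n3 hc hd x, sub_self]
    norm_num
  rw [h2, mul_zero] at h1
  have h3 : (f x - cE (rel (sl (i + 1)) (sl (i + 2)) U) f x) ^ 2 ≤ 0 :=
    le_trans (single_le_sum (f := fun x => (f x - cE (rel (sl (i + 1)) (sl (i + 2)) U) f x) ^ 2)
      (fun x _ => sq_nonneg _) (mem_univ x)) h1
  have h4 : f x - cE (rel (sl (i + 1)) (sl (i + 2)) U) f x = 0 := by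
    have := sq_nonneg (f x - cE (rel (sl (i + 1)) (sl (i + 2)) U) f x)
    exact pow_eq_zero_iff (n := 2) (by norm_num) |>.1 (le_antisymm h3 this)
  unfold EE
  linarith

/-- the operator `3 - E₀ - E₁ - E₂` -/
noncomputable def KK [Fintype S] (sl : Fin 3 → κ → S) (U : Finset κ) :
    ((S → Bool) → ℝ) →ₗ[ℝ] ((S → Bool) → ℝ) where
  toFun f := fun x => 3 * f x - (EE sl U 0 f x + EE sl U 1 f x + EE sl U 2 f x)
  map_add' f g := by
    funext x
    have h : ∀ i, EE sl U i (f + g) x = EE sl U i f x + EE sl U i g x := fun i => cE_add _ f g x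
    simp only [Pi.add_apply, h]
    ring
  map_smul' c f := by
    funext x
    have h : ∀ i, EE sl U i (c • f) x = c * EE sl U i f x := fun i => cE_mul_const _ c f x
    simp only [Pi.smul_apply, smul_eq_mul, h, RingHom.id_apply]
    ring

end TR

open TR in
theorem threeRow {κ S : Type*} [DecidableEq κ] [DecidableEq S] [Fintype S] (sl : Fin 3 → κ → S)
    (U : Finset κ)
    (hsl : ∀ i j, ∀ z ∈ U, ∀ w ∈ U, sl i z = sl j w → i = j ∧ z = w) (f : (S → Bool) → ℝ) :
    0 ≤ ∑ x, ((f x - cE (rel (sl 1) (sl 2) U) f x) * (f x - cE (rel (sl 2) (sl 0) U) f x)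
      + (f x - cE (rel (sl 2) (sl 0) U) f x) * (f x - cE (rel (sl 0) (sl 1) U) f x)
      + (f x - cE (rel (sl 0) (sl 1) U) f x) * (f x - cE (rel (sl 1) (sl 2) U) f x)) := by
  have h : Inj sl U := hsl
  have hsymm : ∀ f g : (S → Bool) → ℝ, ∑ x, g x * KK sl U f x = ∑ x, KK sl U g x * f x := by
    intro f g
    have e : ∀ i, ∑ x, g x * EE sl U i f x = ∑ x, EE sl U i g x * f x :=
      fun i => cE_symm _ f g
    have l : ∀ x, g x * KK sl U f x = 3 * (g x * f x) - (g x * EE sl U 0 f x +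
      g x * EE sl U 1 f x + g x * EE sl U 2 f x) := by
      intro x; show g x * (3 * f x - (EE sl U 0 f x + EE sl U 1 f x + EE sl U 2 f x)) = _; ring
    have r : ∀ x, KK sl U g x * f x = 3 * (g x * f x) - (EE sl U 0 g x * f x +
      EE sl U 1 g x * f x + EE sl U 2 g x * f x) := by
      intro x; show (3 * g x - (EE sl U 0 g x + EE sl U 1 g x + EE sl U 2 g x)) * f x = _; ring
    rw [sum_congr rfl fun x _ => l x, sum_congr rfl fun x _ => r x, sum_sub_distrib,
      sum_sub_distrib, sum_add_distrib, sum_add_distrib, sum_add_distrib, sum_add_distrib,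
      e 0, e 1, e 2]
  have hev : ∀ (μ : ℝ) (f : (S → Bool) → ℝ), (∀ x, KK sl U f x = μ * f x) → f ≠ 0 →
      μ = 0 ∨ 1 ≤ μ := by
    intro μ f hμ hf0
    by_contra hcon
    push Not at hcon
    obtain ⟨hμ0, hμ1⟩ := hcon
    have hf : ∀ x, EE sl U 0 f x + EE sl U 1 f x + EE sl U 2 f x = (3 - μ) * f x := by
      intro x
      have := hμ x
      change 3 * f x - (EE sl U 0 f x + EE sl U 1 f x + EE sl U 2 f x) = μ * f x at this
      linarith
    have hlam : 2 < 3 - μ := by linarith
    have ha : ∀ j ∈ U, ∀ k ∈ U, ∀ x, cs sl x j = cs sl x k → f x = f (swp sl j k x) :=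
      fun j hj k hk x hx => step1 h f (3 - μ) hlam hf hj hk x hx
    have hb : ∀ p q j k x y, Mixed sl U p q j k x y → f x = f y :=
      fun p q j k x y hm => step2 h f (3 - μ) hlam hf ha hm
    apply hf0
    funext x
    have h3 := hf x
    rw [step3' h f ha hb 0 x, step3' h f ha hb 1 x, step3' h f ha hb 2 x] at h3
    have h4 : μ * f x = 0 := by linarith
    rcases mul_eq_zero.1 h4 with h5 | h5
    · exact absurd h5 hμ0
    · exact h5
  have hmain := spectral_trick (KK sl U) hsymm hev f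
  -- expand
  set a : (S → Bool) → ℝ := fun x => f x - cE (rel (sl 1) (sl 2) U) f x with ha
  set b : (S → Bool) → ℝ := fun x => f x - cE (rel (sl 2) (sl 0) U) f x with hb
  set c : (S → Bool) → ℝ := fun x => f x - cE (rel (sl 0) (sl 1) U) f x with hc
  have hK : ∀ x, KK sl U f x = a x + b x + c x := by
    intro x
    show 3 * f x - (cE (rel (sl (0 + 1)) (sl (0 + 2)) U) f x +
      cE (rel (sl (1 + 1)) (sl (1 + 2)) U) f x + cE (rel (sl (2 + 1)) (sl (2 + 2)) U) f x) = _
    have e1 : (0 + 1 : Fin 3) = 1 := by decide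
    have e2 : (0 + 2 : Fin 3) = 2 := by decide
    have e3 : (1 + 1 : Fin 3) = 2 := by decide
    have e4 : (1 + 2 : Fin 3) = 0 := by decide
    have e5 : (2 + 1 : Fin 3) = 0 := by decide
    have e6 : (2 + 2 : Fin 3) = 1 := by decide
    rw [e1, e2, e3, e4, e5, e6, ha, hb, hc]
    ring
  have q1 : ∑ x, f x * a x = ∑ x, a x ^ 2 := sum_mul_sub_cE _ f
  have q2 : ∑ x, f x * b x = ∑ x, b x ^ 2 := sum_mul_sub_cE _ f
  have q3 : ∑ x, f x * c x = ∑ x, c x ^ 2 := sum_mul_sub_cE _ f
  have l1 : ∑ x, f x * KK sl U f x = ∑ x, a x ^ 2 + ∑ x, b x ^ 2 + ∑ x, c x ^ 2 := by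
    rw [← q1, ← q2, ← q3, ← sum_add_distrib, ← sum_add_distrib]
    refine sum_congr rfl fun x _ => ?_
    rw [hK]; ring
  have l2 : ∑ x, (KK sl U f x) ^ 2 = ∑ x, a x ^ 2 + ∑ x, b x ^ 2 + ∑ x, c x ^ 2 +
      2 * ∑ x, (a x * b x + b x * c x + c x * a x) := by
    rw [mul_sum, ← sum_add_distrib, ← sum_add_distrib, ← sum_add_distrib]
    refine sum_congr rfl fun x _ => ?_
    rw [hK]; ring
  rw [l1, l2] at hmain
  linarith

end Crest.Agent.R299
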