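import Mathlib
import Crest.Agent.R299.Defs

/-!
Row 299: transfer of the three-row lemma to the graph triple `a, b, c`
(extra column `none` = negated inner slots).
-/

set_option autoImplicit false
set_option linter.unusedSectionVars false
set_option linter.unusedVariables false
open Finset

namespace Crest.Agent.R299

/-- The three-row lemma as a hypothesis. -/
def ThreeRowStatement : Prop :=
  ∀ (κ S : Type) [DecidableEq κ] [DecidableEq S] [Fintype S] (sl : Fin 3 → κ → S) (U : Finset κ),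
    (∀ i j, ∀ z ∈ U, ∀ w ∈ U, sl i z = sl j w → i = j ∧ z = w) → ∀ f : (S → Bool) → ℝ,
    0 ≤ ∑ x, ((f x - cE (rel (sl 1) (sl 2) U) f x) * (f x - cE (rel (sl 2) (sl 0) U) f x)
      + (f x - cE (rel (sl 2) (sl 0) U) f x) * (f x - cE (rel (sl 0) (sl 1) U) f x)
      + (f x - cE (rel (sl 0) (sl 1) U) f x) * (f x - cE (rel (sl 1) (sl 2) U) f x))

/-- Conjugation of conditional expectations. -/
theorem cE_conj {α β : Type*} [Fintype α] [Fintype β] {r : Setoid α} {s : Setoid β} (φ : α ≃ β)
    (h : ∀ x y, r x y ↔ s (φ x) (φ y)) (f : α → ℝ) (x : α) :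
    cE r f x = cE s (fun y => f (φ.symm y)) (φ x) := by
  unfold cE
  have hcard : (cls r x).card = (cls s (φ x)).card := by
    apply card_bij (fun y _ => φ y)
    · intro y hy; exact mem_cls.mpr ((h x y).mp (mem_cls.mp hy))
    · intro a _ b _ hab; exact φ.injective hab
    · intro y hy
      refine ⟨φ.symm y, mem_cls.mpr ?_, by simp⟩
      rw [h]; simpa using mem_cls.mp hy
  rw [hcard]
  congr 1
  apply sum_bij (fun y _ => φ y)
  · intro y hy; exact mem_cls.mpr ((h x y).mp (mem_cls.mp hy))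
  · intro a _ b _ hab; exact φ.injective hab
  · intro y hy
    refine ⟨φ.symm y, mem_cls.mpr ?_, by simp⟩
    rw [h]; simpa using mem_cls.mp hy
  · intro y _; simp

namespace Triple

variable {V : Type*} [Fintype V] [DecidableEq V]

/-- flip the inner slots of `T` -/
def mask (T : Finset V) (x : Sym2 V → Bool) : Sym2 V → Bool := fun e =>
  if (∃ u ∈ T, ∃ v ∈ T, u ≠ v ∧ e = s(u, v)) then !(x e) else x e

theorem mask_mask (T : Finset V) (x : Sym2 V → Bool) : mask T (mask T x) = x := by
  funext e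
  unfold mask
  split_ifs <;> simp

/-- `mask` as an equivalence -/
def maskEquiv (T : Finset V) : (Sym2 V → Bool) ≃ (Sym2 V → Bool) where
  toFun := mask T
  invFun := mask T
  left_inv := mask_mask T
  right_inv := mask_mask T

theorem mask_eq_iff (T : Finset V) (x y : Sym2 V → Bool) (e : Sym2 V) :
    mask T x e = mask T y e ↔ x e = y e := by
  unfold mask
  split_ifs <;> simp

theorem mask_outer {T : Finset V} {p z : V} (hz : z ∉ T) (x : Sym2 V → Bool) :
    mask T x s(p, z) = x s(p, z) := by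
  unfold mask
  rw [if_neg]
  rintro ⟨u, hu, v, hv, _, h⟩
  rw [Sym2.eq_iff] at h
  rcases h with ⟨_, rfl⟩ | ⟨_, rfl⟩
  · exact hz hv
  · exact hz hu

theorem mask_inner {T : Finset V} {u v : V} (hu : u ∈ T) (hv : v ∈ T) (huv : u ≠ v)
    (x : Sym2 V → Bool) : mask T x s(u, v) = !(x s(u, v)) := by
  unfold mask
  rw [if_pos]
  exact ⟨u, hu, v, hv, huv, rfl⟩

/-- The slots of row `p` in the triple `p, q, r`. -/
def slot (p q r : V) : Option V → Sym2 V
  | none => s(q, r)
  | some z => s(p, z)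

/-- The columns. -/
def UU (T : Finset V) : Finset (Option V) := insert none ((univ \ T).image some)

theorem sum_UU (T : Finset V) (g : Option V → ℕ) :
    ∑ z ∈ UU T, g z = g none + ∑ z ∈ univ \ T, g (some z) := by
  unfold UU
  rw [sum_insert (by simp), sum_image (fun a _ b _ h => Option.some_injective _ h)]

theorem forall_UU (T : Finset V) (P : Option V → Prop) :
    (∀ z ∈ UU T, P z) ↔ P none ∧ ∀ z, z ∉ T → P (some z) := by
  unfold UU
  simp

theorem cols_eq {T : Finset V} {p q r : V} (hT : ∀ v, v ∈ T ↔ v = p ∨ v = q ∨ v = r)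
    (hqr : q ≠ r) (hrp : r ≠ p) : cols p q = insert r (univ \ T) := by
  ext z
  unfold cols
  simp only [mem_erase, mem_univ, and_true, mem_insert, mem_sdiff, true_and, hT]
  constructor
  · rintro ⟨h1, h2⟩
    by_cases h : z = r
    · exact Or.inl h
    · right; tauto
  · rintro (rfl | h)
    · exact ⟨fun h => hqr h.symm, hrp⟩
    · tauto

theorem grel_iff {T : Finset V} {p q r : V} (hT : ∀ v, v ∈ T ↔ v = p ∨ v = q ∨ v = r)
    (hpq : p ≠ q) (hqr : q ≠ r) (hrp : r ≠ p) (x y : Sym2 V → Bool) :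
    grel p q x y ↔ rel (slot p q r) (slot q r p) (UU T) (mask T x) (mask T y) := by
  have hp : p ∈ T := (hT p).mpr (Or.inl rfl)
  have hq : q ∈ T := (hT q).mpr (Or.inr (Or.inl rfl))
  have hr : r ∈ T := (hT r).mpr (Or.inr (Or.inr rfl))
  have hrT : r ∉ (univ \ T : Finset V) := by simp [hr]
  unfold grel
  rw [rel_iff, rel_iff, cols_eq hT hqr hrp]
  simp only [forall_UU, sum_UU, slot, forall_mem_insert, sum_insert hrT, mem_sdiff, mem_univ,
    true_and, mask_inner hq hr hqr, mask_inner hr hp hrp, mask_eq_iff]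
  have e1 : s(p, r) = s(r, p) := Sym2.eq_swap
  rw [e1]
  -- the outer sums
  have hs : ∀ (w : V) (x : Sym2 V → Bool), ∑ z ∈ univ \ T, (mask T x s(w, z)).toNat
      = ∑ z ∈ univ \ T, (x s(w, z)).toNat := by
    intro w x
    apply sum_congr rfl
    intro z hz
    rw [mask_outer (by simpa using hz)]
  rw [hs, hs]
  have hc : (∀ z, z ∉ T → (mask T x s(p, z)).toNat + (mask T x s(q, z)).toNat
        = (mask T y s(p, z)).toNat + (mask T y s(q, z)).toNat) ↔
      ∀ z, z ∉ T → (x s(p, z)).toNat + (x s(q, z)).toNat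
        = (y s(p, z)).toNat + (y s(q, z)).toNat := by
    apply forall_congr'
    intro z
    apply forall_congr'
    intro hz
    rw [mask_outer hz, mask_outer hz, mask_outer hz, mask_outer hz]
  rw [hc]
  have hoff : ∀ e, ((e ≠ s(r, p) ∧ e ≠ s(q, r)) ∧ ∀ z, z ∉ T → e ≠ s(p, z) ∧ e ≠ s(q, z)) ↔
      ((e ≠ s(q, r) ∧ e ≠ s(r, p)) ∧ ∀ z, z ∉ T → e ≠ s(p, z) ∧ e ≠ s(q, z)) := by
    intro e; tauto
  simp only [hoff]
  constructor
  · rintro ⟨h1, ⟨h2, h3⟩, h4⟩
    refine ⟨h1, ⟨?_, h3⟩, ?_⟩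
    · revert h2
      cases x s(r, p) <;> cases x s(q, r) <;> cases y s(r, p) <;> cases y s(q, r) <;> simp
    · revert h2 h4
      cases x s(r, p) <;> cases x s(q, r) <;> cases y s(r, p) <;> cases y s(q, r) <;>
        simp
  · rintro ⟨h1, ⟨h2, h3⟩, h4⟩
    refine ⟨h1, ⟨?_, h3⟩, ?_⟩
    · revert h2
      cases x s(r, p) <;> cases x s(q, r) <;> cases y s(r, p) <;> cases y s(q, r) <;> simp
    · revert h2 h4
      cases x s(r, p) <;> cases x s(q, r) <;> cases y s(r, p) <;> cases y s(q, r) <;>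
        simp

theorem cE_grel {T : Finset V} {p q r : V} (hT : ∀ v, v ∈ T ↔ v = p ∨ v = q ∨ v = r)
    (hpq : p ≠ q) (hqr : q ≠ r) (hrp : r ≠ p) (f : (Sym2 V → Bool) → ℝ) (x : Sym2 V → Bool) :
    cE (grel p q) f (mask T x)
      = cE (rel (slot p q r) (slot q r p) (UU T)) (fun y => f (mask T y)) x := by
  have := cE_conj (maskEquiv T) (grel_iff hT hpq hqr hrp) f (mask T x)
  rw [this]
  show cE (rel (slot p q r) (slot q r p) (UU T)) (fun y => f (mask T y)) (mask T (mask T x)) = _
  rw [mask_mask]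

theorem slot_inj {T : Finset V} {a b c : V} (hT : ∀ v, v ∈ T ↔ v = a ∨ v = b ∨ v = c)
    (hab : a ≠ b) (hbc : b ≠ c) (hca : c ≠ a) (i j : Fin 3) (z : Option V) (hz : z ∈ UU T)
    (w : Option V) (hw : w ∈ UU T)
    (h : (![slot a b c, slot b c a, slot c a b] : Fin 3 → Option V → Sym2 V) i z
      = (![slot a b c, slot b c a, slot c a b] : Fin 3 → Option V → Sym2 V) j w) :
    i = j ∧ z = w := by
  have hz' : ∀ z', z = some z' → z' ≠ a ∧ z' ≠ b ∧ z' ≠ c := by
    intro z' h'
    subst h'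
    unfold UU at hz
    simp only [mem_insert, reduceCtorEq, mem_image, mem_sdiff, mem_univ, true_and,
      Option.some.injEq, exists_eq_right, false_or, hT, not_or] at hz
    exact hz
  have hw' : ∀ w', w = some w' → w' ≠ a ∧ w' ≠ b ∧ w' ≠ c := by
    intro w' h'
    subst h'
    unfold UU at hw
    simp only [mem_insert, reduceCtorEq, mem_image, mem_sdiff, mem_univ, true_and,
      Option.some.injEq, exists_eq_right, false_or, hT, not_or] at hw
    exact hw
  clear hz hw hT
  rcases z with _ | z <;> rcases w with _ | w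
  · fin_cases i <;> fin_cases j <;>
      simp [slot] at h ⊢ <;> tauto
  · obtain ⟨h1, h2, h3⟩ := hw' w rfl
    fin_cases i <;> fin_cases j <;>
      simp [slot] at h ⊢ <;> aesop
  · obtain ⟨h1, h2, h3⟩ := hz' z rfl
    fin_cases i <;> fin_cases j <;>
      simp [slot] at h ⊢ <;> aesop
  · obtain ⟨h1, h2, h3⟩ := hz' z rfl
    obtain ⟨h4, h5, h6⟩ := hw' w rfl
    fin_cases i <;> fin_cases j <;>
      simp [slot] at h ⊢ <;> aesop

end Triple

/-- **Triple inequality for graphs** from the three-row lemma. -/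
theorem triple_graph {V : Type} [Fintype V] [DecidableEq V] (h3 : ThreeRowStatement)
    (a b c : V) (hab : a ≠ b) (hbc : b ≠ c) (hca : c ≠ a) (f : (Sym2 V → Bool) → ℝ) :
    0 ≤ ∑ x, (hh a b f x * hh b c f x + hh b c f x * hh c a f x + hh c a f x * hh a b f x) := by
  set T : Finset V := {a, b, c} with hTdef
  have hT1 : ∀ v, v ∈ T ↔ v = a ∨ v = b ∨ v = c := by intro v; simp [hTdef]
  have hT2 : ∀ v, v ∈ T ↔ v = b ∨ v = c ∨ v = a := by intro v; rw [hT1]; tauto
  have hT3 : ∀ v, v ∈ T ↔ v = c ∨ v = a ∨ v = b := by intro v; rw [hT1]; tauto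
  have key := h3 (Option V) (Sym2 V)
    (![Triple.slot a b c, Triple.slot b c a, Triple.slot c a b] : Fin 3 → Option V → Sym2 V)
    (Triple.UU T) (fun i j z hz w hw h => Triple.slot_inj hT1 hab hbc hca i j z hz w hw h)
    (fun y => f (Triple.mask T y))
  have e0 : (![Triple.slot a b c, Triple.slot b c a, Triple.slot c a b] :
    Fin 3 → Option V → Sym2 V) 0 = Triple.slot a b c := rfl
  have e1 : (![Triple.slot a b c, Triple.slot b c a, Triple.slot c a b] :
    Fin 3 → Option V → Sym2 V) 1 = Triple.slot b c a := rfl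
  have e2 : (![Triple.slot a b c, Triple.slot b c a, Triple.slot c a b] :
    Fin 3 → Option V → Sym2 V) 2 = Triple.slot c a b := rfl
  rw [e0, e1, e2] at key
  have hsum : ∑ x, (hh a b f x * hh b c f x + hh b c f x * hh c a f x + hh c a f x * hh a b f x)
      = ∑ x, (hh a b f (Triple.maskEquiv T x) * hh b c f (Triple.maskEquiv T x)
        + hh b c f (Triple.maskEquiv T x) * hh c a f (Triple.maskEquiv T x)
        + hh c a f (Triple.maskEquiv T x) * hh a b f (Triple.maskEquiv T x)) :=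
    (Equiv.sum_comp (Triple.maskEquiv T) _).symm
  rw [hsum]
  refine key.trans (le_of_eq ?_)
  apply sum_congr rfl
  intro x _
  have m : Triple.maskEquiv T x = Triple.mask T x := rfl
  rw [m]
  unfold hh
  rw [Triple.cE_grel hT1 hab hbc hca, Triple.cE_grel hT2 hbc hca hab,
    Triple.cE_grel hT3 hca hab hbc]
  ring

end Crest.Agent.R299
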