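import Mathlib
import Crest.Agent.R299.Defs
import Crest.Agent.R299.Johnson
import Crest.Agent.R299.ClassParam

/-! Row 299, T2: inequality (J) for the classes of `rel p q U`. -/

set_option autoImplicit false
open Finset

namespace Crest.Agent.R299

namespace TJ

variable {κ S : Type*} [DecidableEq κ] [DecidableEq S] {p q : κ → S} {U : Finset κ}
  (hp : Set.InjOn p U) (hq : Set.InjOn q U) (hpq : ∀ z ∈ U, ∀ w ∈ U, p z ≠ q w)

include hp hq hpq

theorem osep_setC {x : S → Bool} {A : Finset κ} {c d : κ} (hc : c ∈ U) (hd : d ∈ U) :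
    Osep p q c d (setC p q (freeC p q U x) A x) ↔
      c ∈ freeC p q U x ∧ d ∈ freeC p q U x ∧ ¬ (c ∈ A ↔ d ∈ A) := by
  unfold Osep
  rw [setC_p_of hp hq hpq (freeC_subset x) hc, setC_q_of hp hq hpq (freeC_subset x) hd,
    setC_p_of hp hq hpq (freeC_subset x) hd, setC_q_of hp hq hpq (freeC_subset x) hc]
  have hcf : c ∉ freeC p q U x → x (p c) = x (q c) := by
    intro h; by_contra h'; exact h (mem_freeC.mpr ⟨hc, h'⟩)
  have hdf : d ∉ freeC p q U x → x (p d) = x (q d) := by
    intro h; by_contra h'; exact h (mem_freeC.mpr ⟨hd, h'⟩)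
  by_cases h1 : c ∈ freeC p q U x
  · by_cases h2 : d ∈ freeC p q U x
    · by_cases h3 : c ∈ A <;> by_cases h4 : d ∈ A <;> simp [h1, h2, h3, h4]
    · have := hdf h2
      by_cases h3 : c ∈ A <;> simp [h1, h2, h3, this]
  · have hc' := hcf h1
    by_cases h2 : d ∈ freeC p q U x
    · by_cases h4 : d ∈ A <;> simp [h1, h2, h4, hc']
    · have := hdf h2
      simp only [h1, h2, if_false, false_and, iff_false, hc', this]
      cases x (q c) <;> cases x (q d) <;> simp

theorem sw_setC {x : S → Bool} {A : Finset κ} {c d : κ} (hc : c ∈ U) (hd : d ∈ U)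
    (hcf : c ∈ freeC p q U x) (hdf : d ∈ freeC p q U x) :
    sw p q c d (setC p q (freeC p q U x) A x) =
      setC p q (freeC p q U x) (Johnson.sw c d A) x := by
  have hO := osep_setC hp hq hpq (x := x) (A := A) hc hd
  by_cases hsep : (c ∈ A ↔ d ∈ A)
  · have h1 : ¬ Osep p q c d (setC p q (freeC p q U x) A x) := by
      rw [hO]; tauto
    have h2 : Johnson.sw c d A = A := by
      ext a
      rw [Johnson.mem_sw]
      by_cases h3 : a = c
      · subst h3; rw [Equiv.swap_apply_left]; exact hsep.symm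
      · by_cases h4 : a = d
        · subst h4; rw [Equiv.swap_apply_right]; exact hsep
        · rw [Equiv.swap_apply_of_ne_of_ne h3 h4]
    rw [h2]
    funext e
    unfold sw
    rw [if_neg (fun h => h1 h.1)]
  · have h1 : Osep p q c d (setC p q (freeC p q U x) A x) := hO.mpr ⟨hcf, hdf, hsep⟩
    have hcd : c ≠ d := by rintro rfl; exact hsep Iff.rfl
    funext e
    unfold sw
    simp only [h1, true_and]
    by_cases hep : ∃ z ∈ freeC p q U x, e = p z
    · obtain ⟨z, hz, rfl⟩ := hep
      have hzU := freeC_subset x hz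
      rw [setC_p_of hp hq hpq (freeC_subset x) hzU, setC_p_of hp hq hpq (freeC_subset x) hzU,
        if_pos hz, if_pos hz]
      by_cases h3 : z = c
      · subst h3
        rw [if_pos (Or.inl rfl)]
        simp only [Johnson.mem_sw, Equiv.swap_apply_left]
        by_cases h5 : z ∈ A <;> by_cases h6 : d ∈ A <;> simp_all
      · by_cases h4 : z = d
        · subst h4
          rw [if_pos (Or.inr (Or.inl rfl))]
          simp only [Johnson.mem_sw, Equiv.swap_apply_right]
          by_cases h5 : z ∈ A <;> by_cases h6 : c ∈ A <;> simp_all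
        · rw [if_neg]
          · simp only [Johnson.mem_sw, Equiv.swap_apply_of_ne_of_ne h3 h4]
          · rintro (h | h | h | h)
            · exact h3 (hp hzU hc h)
            · exact h4 (hp hzU hd h)
            · exact hpq z hzU c hc h
            · exact hpq z hzU d hd h
    · by_cases heq : ∃ z ∈ freeC p q U x, e = q z
      · obtain ⟨z, hz, rfl⟩ := heq
        have hzU := freeC_subset x hz
        rw [setC_q_of hp hq hpq (freeC_subset x) hzU, setC_q_of hp hq hpq (freeC_subset x) hzU,
          if_pos hz, if_pos hz]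
        by_cases h3 : z = c
        · subst h3
          rw [if_pos (Or.inr (Or.inr (Or.inl rfl)))]
          simp only [Johnson.mem_sw, Equiv.swap_apply_left]
          by_cases h5 : z ∈ A <;> by_cases h6 : d ∈ A <;> simp_all
        · by_cases h4 : z = d
          · subst h4
            rw [if_pos (Or.inr (Or.inr (Or.inr rfl)))]
            simp only [Johnson.mem_sw, Equiv.swap_apply_right]
            by_cases h5 : z ∈ A <;> by_cases h6 : c ∈ A <;> simp_all
          · rw [if_neg]
            · simp only [Johnson.mem_sw, Equiv.swap_apply_of_ne_of_ne h3 h4]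
            · rintro (h | h | h | h)
              · exact hpq c hc z hzU h.symm
              · exact hpq d hd z hzU h.symm
              · exact h3 (hq hzU hc h)
              · exact h4 (hq hzU hd h)
      · have h3 : ∀ z ∈ freeC p q U x, e ≠ p z := fun z hz h => hep ⟨z, hz, h⟩
        have h4 : ∀ z ∈ freeC p q U x, e ≠ q z := fun z hz h => heq ⟨z, hz, h⟩
        rw [setC_off x h3 h4, setC_off x h3 h4, if_neg]
        rintro (h | h | h | h)
        · exact h3 c hcf h
        · exact h3 d hdf h
        · exact h4 c hcf h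
        · exact h4 d hdf h

theorem sw_setC_not {x : S → Bool} {A : Finset κ} {c d : κ} (hc : c ∈ U) (hd : d ∈ U)
    (h : ¬ (c ∈ freeC p q U x ∧ d ∈ freeC p q U x)) :
    sw p q c d (setC p q (freeC p q U x) A x) = setC p q (freeC p q U x) A x := by
  have hO := osep_setC hp hq hpq (x := x) (A := A) hc hd
  have h1 : ¬ Osep p q c d (setC p q (freeC p q U x) A x) := by
    rw [hO]; tauto
  funext e
  unfold sw
  rw [if_neg (fun h => h1 h.1)]

/-- the energy integrand, averaged over a class -/
theorem sum_energy [Fintype S] (f : (S → Bool) → ℝ) (x : S → Bool) :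
    ∑ y ∈ cls (rel p q U) x, ∑ c ∈ U, ∑ d ∈ U, (f y - f (sw p q c d y)) ^ 2 =
      2 * Johnson.Etot (freeC p q U x) (posC p q U x).card
        (fun A => f (setC p q (freeC p q U x) A x)) := by
  rw [sum_cls_rel hp hq hpq]
  set M := freeC p q U x with hM
  set P := powersetCard (posC p q U x).card M with hP
  set F : Finset κ → ℝ := fun A => f (setC p q M A x) with hF
  have h1 : ∀ A ∈ P, ∑ c ∈ U, ∑ d ∈ U,
      (f (setC p q M A x) - f (sw p q c d (setC p q M A x))) ^ 2 =
      ∑ c ∈ M, ∑ d ∈ M, (F A - F (Johnson.sw c d A)) ^ 2 := by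
    intro A _
    have h2 : ∀ c ∈ U, ∀ d ∈ U,
        (f (setC p q M A x) - f (sw p q c d (setC p q M A x))) ^ 2 =
        if c ∈ M then (if d ∈ M then (F A - F (Johnson.sw c d A)) ^ 2 else 0) else 0 := by
      intro c hc d hd
      by_cases hcM : c ∈ M
      · by_cases hdM : d ∈ M
        · rw [if_pos hcM, if_pos hdM, sw_setC hp hq hpq hc hd hcM hdM]
        · rw [if_pos hcM, if_neg hdM, sw_setC_not hp hq hpq hc hd (fun h => hdM h.2)]
          ring
      · rw [if_neg hcM, sw_setC_not hp hq hpq hc hd (fun h => hcM h.1)]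
        ring
    rw [sum_congr rfl fun c hc => sum_congr rfl fun d hd => h2 c hc d hd]
    have h3 : ∀ c ∈ U, (∑ d ∈ U, if c ∈ M then
        (if d ∈ M then (F A - F (Johnson.sw c d A)) ^ 2 else 0) else 0) =
        if c ∈ M then ∑ d ∈ M, (F A - F (Johnson.sw c d A)) ^ 2 else 0 := by
      intro c _
      by_cases hcM : c ∈ M
      · simp only [if_pos hcM]
        rw [sum_ite_mem, inter_eq_right.mpr (freeC_subset x)]
      · simp only [if_neg hcM, sum_const_zero]
    rw [sum_congr rfl h3, sum_ite_mem, inter_eq_right.mpr (freeC_subset x)]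
  rw [sum_congr rfl h1, Johnson.Etot, sum_comm, mul_sum]
  refine sum_congr rfl fun c _ => ?_
  rw [sum_comm, mul_sum]
  refine sum_congr rfl fun d _ => ?_
  rw [Johnson.Epair]
  ring

theorem avO_eq [Fintype S] (f : (S → Bool) → ℝ) (x : S → Bool) {c d : κ}
    (hc : c ∈ freeC p q U x) (hd : d ∈ freeC p q U x) :
    avO (rel p q U) p q c d f x =
      Johnson.Ssum (freeC p q U x) (posC p q U x).card
        (fun A => f (setC p q (freeC p q U x) A x)) c d /
      Johnson.wsum (freeC p q U x) (posC p q U x).card c d := by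
  classical
  have hcU := freeC_subset x hc
  have hdU := freeC_subset x hd
  have key : ∀ g : (S → Bool) → ℝ,
      ∑ y ∈ (cls (rel p q U) x).filter (fun y => Osep p q c d y), g y =
      ∑ A ∈ powersetCard (posC p q U x).card (freeC p q U x),
        Johnson.sep c d A * g (setC p q (freeC p q U x) A x) := by
    intro g
    rw [sum_filter, sum_cls_rel hp hq hpq]
    refine sum_congr rfl fun A _ => ?_
    have hO := osep_setC hp hq hpq (x := x) (A := A) hcU hdU
    unfold Johnson.sep
    by_cases h : (c ∈ A ↔ d ∈ A)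
    · rw [if_neg, if_pos h, zero_mul]
      rw [hO]; tauto
    · rw [if_pos, if_neg h, one_mul]
      rw [hO]; exact ⟨hc, hd, h⟩
  unfold avO
  have h1 := key f
  have h2 := key (fun _ => 1)
  rw [sum_const, nsmul_eq_mul, mul_one] at h2
  simp only [mul_one] at h2
  have e1 : (∑ y ∈ (cls (rel p q U) x).filter (fun y => Osep p q c d y), f y) =
      Johnson.Ssum (freeC p q U x) (posC p q U x).card
        (fun A => f (setC p q (freeC p q U x) A x)) c d := h1
  have e2 : ((((cls (rel p q U) x).filter (fun y => Osep p q c d y)).card : ℕ) : ℝ) =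
      Johnson.wsum (freeC p q U x) (posC p q U x).card c d := h2
  rw [e1, e2]

/-- the class version of (J) -/
theorem class_J [Fintype S] (f : (S → Bool) → ℝ) (x : S → Bool) :
    ∑ y ∈ cls (rel p q U) x, ∑ c ∈ U, ∑ d ∈ U, (if Osep p q c d y then
        (avO (rel p q U) p q c d f y - cE (rel p q U) f y) ^ 2 else 0) ≤
      (1 / 4) * ∑ y ∈ cls (rel p q U) x, ∑ c ∈ U, ∑ d ∈ U, (f y - f (sw p q c d y)) ^ 2 := by
  classical
  rw [sum_energy hp hq hpq]
  set M := freeC p q U x with hM
  set k := (posC p q U x).card with hk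
  set F : Finset κ → ℝ := fun A => f (setC p q M A x) with hF
  have h1 : ∀ y ∈ cls (rel p q U) x, ∑ c ∈ U, ∑ d ∈ U, (if Osep p q c d y then
        (avO (rel p q U) p q c d f y - cE (rel p q U) f y) ^ 2 else 0) =
      ∑ c ∈ U, ∑ d ∈ U, (if Osep p q c d y then
        (avO (rel p q U) p q c d f x - cE (rel p q U) f x) ^ 2 else 0) := by
    intro y hy
    have hxy : rel p q U x y := mem_cls.mp hy
    have e : ∀ c d, avO (rel p q U) p q c d f y = avO (rel p q U) p q c d f x := by
      intro c d
      unfold avO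
      rw [cls_eq hxy]
    simp only [e, cE_congr hxy]
  rw [sum_congr rfl h1, sum_cls_rel hp hq hpq]
  have h2 : ∀ A ∈ powersetCard k M, ∑ c ∈ U, ∑ d ∈ U,
      (if Osep p q c d (setC p q M A x) then
        (avO (rel p q U) p q c d f x - cE (rel p q U) f x) ^ 2 else 0) =
      ∑ c ∈ M, ∑ d ∈ M, Johnson.sep c d A *
        (Johnson.Ssum M k F c d / Johnson.wsum M k c d - cE (rel p q U) f x) ^ 2 := by
    intro A _
    have h3 : ∀ c ∈ U, ∀ d ∈ U, (if Osep p q c d (setC p q M A x) then
        (avO (rel p q U) p q c d f x - cE (rel p q U) f x) ^ 2 else 0) =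
        if c ∈ M then (if d ∈ M then Johnson.sep c d A *
        (Johnson.Ssum M k F c d / Johnson.wsum M k c d - cE (rel p q U) f x) ^ 2
          else 0) else 0 := by
      intro c hc d hd
      have hO := osep_setC hp hq hpq (x := x) (A := A) hc hd
      by_cases hcM : c ∈ M
      · by_cases hdM : d ∈ M
        · rw [if_pos hcM, if_pos hdM, avO_eq hp hq hpq f x hcM hdM]
          unfold Johnson.sep
          by_cases h : (c ∈ A ↔ d ∈ A)
          · rw [if_neg, if_pos h, zero_mul]
            rw [hO]; tauto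
          · rw [if_pos, if_neg h, one_mul]
            rw [hO]; exact ⟨hcM, hdM, h⟩
        · rw [if_pos hcM, if_neg hdM, if_neg]
          rw [hO]; tauto
      · rw [if_neg hcM, if_neg]
        rw [hO]; tauto
    rw [sum_congr rfl fun c hc => sum_congr rfl fun d hd => h3 c hc d hd]
    have h4 : ∀ c ∈ U, (∑ d ∈ U, if c ∈ M then
        (if d ∈ M then Johnson.sep c d A *
        (Johnson.Ssum M k F c d / Johnson.wsum M k c d - cE (rel p q U) f x) ^ 2
          else 0) else 0) =
        if c ∈ M then ∑ d ∈ M, Johnson.sep c d A *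
        (Johnson.Ssum M k F c d / Johnson.wsum M k c d - cE (rel p q U) f x) ^ 2 else 0 := by
      intro c _
      by_cases hcM : c ∈ M
      · simp only [if_pos hcM]
        rw [sum_ite_mem, inter_eq_right.mpr (freeC_subset x)]
      · simp only [if_neg hcM, sum_const_zero]
    rw [sum_congr rfl h4, sum_ite_mem, inter_eq_right.mpr (freeC_subset x)]
  rw [sum_congr rfl h2]
  have hμ : ∑ A ∈ M.powersetCard k, F A =
      ((M.powersetCard k).card : ℝ) * cE (rel p q U) f x := by
    have := card_mul_cE (rel p q U) f x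
    rw [sum_cls_rel hp hq hpq, card_cls_rel hp hq hpq] at this
    rw [card_powersetCard]
    exact this.symm
  have hkM : k ≤ M.card := card_le_card (posC_subset_freeC x)
  have hJ := Johnson.johnson_J' (M := M) (x := k) (f := F) hμ hkM
  calc _ = ∑ c ∈ M, ∑ d ∈ M, ∑ A ∈ M.powersetCard k, Johnson.sep c d A *
        (Johnson.Ssum M k F c d / Johnson.wsum M k c d - cE (rel p q U) f x) ^ 2 := by
        rw [sum_comm]
        exact sum_congr rfl fun c _ => sum_comm
    _ ≤ _ := hJ
    _ = _ := by ring

end TJ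

variable {κ S : Type*} [DecidableEq κ] [DecidableEq S]

theorem twoRow_J [Fintype S] (p q : κ → S) (U : Finset κ) (hp : Set.InjOn p U)
    (hq : Set.InjOn q U) (hpq : ∀ z ∈ U, ∀ w ∈ U, p z ≠ q w) (f : (S → Bool) → ℝ) :
    ∑ c ∈ U, ∑ d ∈ U, ∑ x, (if Osep p q c d x then
        (avO (rel p q U) p q c d f x - cE (rel p q U) f x) ^ 2 else 0)
      ≤ (1 / 4) * ∑ c ∈ U, ∑ d ∈ U, en p q c d f := by
  have e1 : ∑ c ∈ U, ∑ d ∈ U, ∑ x, (if Osep p q c d x then
        (avO (rel p q U) p q c d f x - cE (rel p q U) f x) ^ 2 else 0) =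
      ∑ x, ∑ c ∈ U, ∑ d ∈ U, (if Osep p q c d x then
        (avO (rel p q U) p q c d f x - cE (rel p q U) f x) ^ 2 else 0) := by
    rw [sum_comm (s := univ)]
    exact sum_congr rfl fun c _ => sum_comm
  have e2 : ∑ c ∈ U, ∑ d ∈ U, en p q c d f =
      ∑ x, ∑ c ∈ U, ∑ d ∈ U, (f x - f (sw p q c d x)) ^ 2 := by
    rw [sum_comm (s := univ)]
    exact sum_congr rfl fun c _ => sum_comm
  rw [e1, e2, ← sum_cE (rel p q U) (fun x => ∑ c ∈ U, ∑ d ∈ U, (if Osep p q c d x then
        (avO (rel p q U) p q c d f x - cE (rel p q U) f x) ^ 2 else 0)),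
    ← sum_cE (rel p q U) (fun x => ∑ c ∈ U, ∑ d ∈ U, (f x - f (sw p q c d x)) ^ 2), mul_sum]
  refine sum_le_sum fun x _ => ?_
  have hJ := TJ.class_J hp hq hpq f x
  unfold cE at hJ ⊢
  have hpos : (0 : ℝ) < (cls (rel p q U) x).card := by
    exact_mod_cast card_cls_pos (rel p q U) x
  rw [div_le_iff₀ hpos]
  calc _ ≤ _ := hJ
    _ = _ := by
      field_simp

end Crest.Agent.R299
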